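import Crest.Agent.BK.Spec

/-!
Row 50 (S0069).  Assembly: all chunk statements imply the result.
-/

set_option autoImplicit false

namespace Crest.Agent.BK

open scoped RealInnerProductSpace

theorem T3_of (hT2X : S_T2X) (hform : S_T3form) (hind : S_T3ind) (href : S_T3ref) : S_T3 := by
  intro δ b X κ hδ hδ' hX hJ hb hκ hs
  obtain ⟨κ', hκ', hs', hz'⟩ := href δ b X hδ hδ' hX hJ hb
  rw [← hform X κ hX hκ hs (hT2X δ b X κ hδ hδ' hX hJ hb hκ hs), hind X κ κ' hX hκ hκ' hs hs',
    hform X κ' hX hκ' hs' (hT2X δ b X κ' hδ hδ' hX hJ hb hκ' hs'), hz']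

theorem no_dat (hB : S_factB) (hF : S_factF) (hC : S_factC) (hD0 : S_factD0) (hD1 : S_factD1)
    (hE : S_factE) (hsat : S_sat) (δ ε : ℝ) (X : List (V × V × V × V)) (c : V → Fin 10)
    (h : Dat δ ε X c) : False := by
  have key : ∀ I : Finset (Fin 10), I.card = 4 → R X c I → ∃ ρ ∈ X, lab3 c ρ = I := by
    rintro I hI ⟨ρ, hρ, hs⟩
    refine ⟨ρ, hρ, (Finset.eq_of_subset_of_card_le hs ?_).symm⟩
    rw [hI]
    unfold lab3
    exact Finset.card_le_four
  apply hsat (fun J => R X c J)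
  · rintro J K hKJ ⟨r, hr, hs⟩
    exact ⟨r, hr, hKJ.trans hs⟩
  · exact hB δ ε X c h
  · intro I K hI hK hd hR
    obtain ⟨ρ, hρ, rfl⟩ := key I hI hR
    exact (hC δ ε X c h ρ hρ hI K hK hd).2
  · intro I e hI he hd hR
    obtain ⟨ρ, hρ, rfl⟩ := key I hI hR
    have h0 := hD0 δ ε X c h ρ hρ hI e he hd
    have h1 := hD1 δ ε X c h ρ hρ hI e he hd
    classical
    refine ⟨Finset.filter (fun s => R X c (insert s e)) ((lab3 c ρ ∪ e)ᶜ), ?_, ?_, ?_⟩
    · intro s
      simp only [Finset.mem_filter, Finset.mem_compl]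
    · have hz : ∀ s ∈ (lab3 c ρ ∪ e)ᶜ, z (D3 ρ.1 X) c (insert s e) =
          if R X c (insert s e) then 1 else 0 := by
        intro s hs
        rw [Finset.mem_compl, Finset.mem_union, not_or] at hs
        have hcard : (insert s e).card = 3 := by
          rw [Finset.card_insert_of_notMem hs.2, he]
        have hdis : Disjoint (insert s e) (lab3 c ρ) := by
          rw [Finset.disjoint_insert_left]
          exact ⟨hs.1, hd⟩
        have := (hC δ ε X c h ρ hρ hI _ hcard hdis).1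
        by_cases hR' : R X c (insert s e)
        · rw [if_pos hR']; exact this.mpr hR'
        · rw [if_neg hR']
          by_contra hne
          exact hR' (this.mp (zmod2_ne_zero.mp hne))
      rw [Finset.sum_congr rfl hz, Finset.sum_ite, Finset.sum_const_zero, add_zero,
        Finset.sum_const, nsmul_eq_mul, mul_one] at h0
      exact (ZMod.natCast_eq_zero_iff_even).mp h0
    · obtain ⟨s, hs, hs'⟩ := h1
      exact ⟨s, by simp only [Finset.mem_filter, Finset.mem_compl]; exact ⟨hs, hs'⟩⟩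
  · intro I L hI hL hd hR hR'
    obtain ⟨ρ, hρ, rfl⟩ := key I hI hR
    exact hE δ ε X c h ρ hρ hI L hL hd hR'
  · rintro I J K ⟨r, hr, hrs⟩ ⟨s, hs, hss⟩ ⟨t, ht, hts⟩ hu
    apply hF δ ε X c h r hr s hs t ht
    rw [Finset.eq_univ_iff_forall] at hu ⊢
    intro x
    have := hu x
    simp only [Finset.mem_union] at this ⊢
    rcases this with (h1 | h1) | h1
    · exact Or.inl (Or.inl (hrs h1))
    · exact Or.inl (Or.inr (hss h1))
    · exact Or.inr (hts h1)

theorem main_of (hborsuk : S_borsuk) (hex : S_exist) (hB : S_factB) (hF : S_factF)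
    (hC : S_factC) (hD0 : S_factD0) (hD1 : S_factD1) (hE : S_factE) (hsat : S_sat) :
    ∃ S : Set (EuclideanSpace ℝ (Fin 9)), Bornology.IsBounded S ∧ S.Nontrivial ∧
      ∀ c : EuclideanSpace ℝ (Fin 9) → Fin 10, ∃ i : Fin 10,
        Metric.diam S ≤ Metric.diam (S ∩ c ⁻¹' {i}) := by
  apply hborsuk
  intro c hc ε hε
  by_contra hcon
  push Not at hcon
  obtain ⟨X, hX, hJ, hs⟩ := hex (min (1 / 10000) (ε / 100)) (by positivity)
  refine no_dat hB hF hC hD0 hD1 hE hsat (min (1 / 10000) (ε / 100)) ε X c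
    ⟨by positivity, min_le_left _ _, ?_, hX, hJ, hs, hc, hcon⟩
  have := min_le_right (1 / 10000) (ε / 100)
  linarith

end Crest.Agent.BK
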