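import Crest.Agent.BK.Defs

/-!
Row 50 (S0069).  Basic lemmas on the polarity bit `p`, on `ev`, and on the cap products.
-/

set_option autoImplicit false

namespace Crest.Agent.BK

open scoped RealInnerProductSpace

@[simp] lemma neg_val (v : V) : (-v).1 = -v.1 := rfl

lemma zmod2_cases (a : ZMod 2) : a = 0 ∨ a = 1 := by revert a; decide

lemma zmod2_add_self (a : ZMod 2) : a + a = 0 := by revert a; decide

lemma zmod2_ne_zero {a : ZMod 2} : a ≠ 0 ↔ a = 1 := by revert a; decide

lemma zmod2_ne_one {a : ZMod 2} : a ≠ 1 ↔ a = 0 := by revert a; decide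

lemma zmod2_add_eq_zero {a b : ZMod 2} : a + b = 0 ↔ a = b := by revert a b; decide

lemma zmod2_add_eq_one {a b : ZMod 2} : a + b = 1 ↔ a ≠ b := by revert a b; decide

lemma rb_neg (v : V) : rb (-v) = rb v + 1 := by
  obtain ⟨v, hv⟩ := v
  have key : ¬ (v 0 = 0 ∧ v 1 = 0 ∧ v 2 = 0 ∧ v 3 = 0) := by
    rintro ⟨h0, h1, h2, h3⟩
    apply hv
    ext i
    fin_cases i <;> simp_all
  unfold rb
  simp only [neg_val, PiLp.neg_apply, Left.neg_pos_iff, neg_eq_zero]
  rcases lt_trichotomy (v 0) 0 with h0 | h0 | h0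
  · have : ¬ (0 < v 0) := by linarith
    simp [h0, this, h0.ne]
  · rcases lt_trichotomy (v 1) 0 with h1 | h1 | h1
    · have : ¬ (0 < v 1) := by linarith
      simp [h0, h1, this, h1.ne]
    · rcases lt_trichotomy (v 2) 0 with h2 | h2 | h2
      · have : ¬ (0 < v 2) := by linarith
        simp [h0, h1, h2, this, h2.ne]
      · rcases lt_trichotomy (v 3) 0 with h3 | h3 | h3
        · have : ¬ (0 < v 3) := by linarith
          simp [h0, h1, h2, h3, this]
        · exact absurd ⟨h0, h1, h2, h3⟩ key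
        · have : ¬ (v 3 < 0) := by linarith
          simp [h0, h1, h2, h3, this]
          decide
      · have : ¬ (v 2 < 0) := by linarith
        simp [h0, h1, h2, this, h2.ne']
        decide
    · have : ¬ (v 1 < 0) := by linarith
      simp [h0, h1, this, h1.ne']
      decide
  · have : ¬ (v 0 < 0) := by linarith
    simp [h0, this, h0.ne']
    decide

lemma p_comm (u v : V) : p u v = p v u := by
  unfold p
  rw [real_inner_comm, add_comm]

lemma p_neg_left (u v : V) : p (-u) v = p u v + 1 := by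
  unfold p
  simp only [neg_val, inner_neg_left, rb_neg]
  rcases lt_trichotomy ⟪u.1, v.1⟫ 0 with h | h | h
  · have h1 : ¬ (0 < ⟪u.1, v.1⟫) := by linarith
    simp [h, h1]
  · simp [h]; ring
  · have h1 : ¬ (⟪u.1, v.1⟫ < 0) := by linarith
    simp [h, h1]; decide

lemma p_neg_right (u v : V) : p u (-v) = p u v + 1 := by
  rw [p_comm, p_neg_left, p_comm]

lemma p_self (u : V) : p u u = 1 := by
  unfold p
  rw [if_pos (real_inner_self_pos.mpr u.2)]

lemma p_pos {u v : V} (h : 0 < ⟪u.1, v.1⟫) : p u v = 1 := by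
  unfold p; simp [h]

lemma p_of_neg {u v : V} (h : ⟪u.1, v.1⟫ < 0) : p u v = 0 := by
  unfold p; simp [h, not_lt.mpr h.le]

lemma p_near {b u v : V} (h : p b u ≠ p b v) : |⟪b.1, u.1⟫| ≤ ‖b.1‖ * ‖u.1 - v.1‖ := by
  have h1 : |⟪b.1, u.1 - v.1⟫| ≤ ‖b.1‖ * ‖u.1 - v.1‖ := abs_real_inner_le_norm _ _
  refine le_trans ?_ h1
  rw [inner_sub_right]
  rcases lt_trichotomy ⟪b.1, u.1⟫ 0 with hu | hu | hu
  · rcases lt_or_ge ⟪b.1, v.1⟫ 0 with hv | hv
    · exact absurd (by rw [p_of_neg hu, p_of_neg hv]) h
    · rw [abs_of_neg hu, abs_of_nonpos (by linarith)]; linarith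
  · rw [hu]; simp
  · rcases lt_or_ge 0 ⟪b.1, v.1⟫ with hv | hv
    · exact absurd (by rw [p_pos hu, p_pos hv]) h
    · rw [abs_of_pos hu, abs_of_nonneg (by linarith)]; linarith

lemma om_self (b u : V) : om b u u = 0 := zmod2_add_self _

lemma om_comm (b u v : V) : om b u v = om b v u := add_comm _ _

lemma om_neg_left (b u v : V) : om (-b) u v = om b u v := by
  unfold om; rw [p_neg_left, p_neg_left]
  generalize p b u = x
  generalize p b v = y
  revert x y; decide

lemma om_neg_neg (b u v : V) : om b (-u) (-v) = om b u v := by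
  unfold om; rw [p_neg_right, p_neg_right]
  generalize p b u = x
  generalize p b v = y
  revert x y; decide

lemma om_add (b u v w : V) : om b u v + om b v w = om b u w := by
  unfold om
  generalize p b u = x
  generalize p b v = y
  generalize p b w = z
  revert x y z; decide

lemma om_near {b u v : V} (h : om b u v = 1) : |⟪b.1, u.1⟫| ≤ ‖b.1‖ * ‖u.1 - v.1‖ :=
  p_near (zmod2_add_eq_one.mp h)

lemma om_near' {b u v : V} (h : om b u v = 1) : |⟪b.1, v.1⟫| ≤ ‖b.1‖ * ‖u.1 - v.1‖ := by
  rw [norm_sub_rev]; rw [om_comm] at h; exact om_near h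

/-! ### `ev` -/

section ev
variable {α β : Type*}

@[simp] lemma ev_nil (g : α → ZMod 2) : ev [] g = 0 := rfl
@[simp] lemma ev_cons (a : α) (X : List α) (g : α → ZMod 2) : ev (a :: X) g = g a + ev X g := by
  simp [ev]
@[simp] lemma ev_append (X Y : List α) (g : α → ZMod 2) : ev (X ++ Y) g = ev X g + ev Y g := by
  simp [ev]
lemma ev_map (f : α → β) (X : List α) (g : β → ZMod 2) : ev (X.map f) g = ev X (fun x => g (f x)) := by
  simp [ev, Function.comp_def]
lemma ev_flatMap (f : α → List β) (X : List α) (g : β → ZMod 2) :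
    ev (X.flatMap f) g = ev X (fun x => ev (f x) g) := by
  induction X with
  | nil => rfl
  | cons a X ih => simp [List.flatMap_cons, ih]
lemma ev_congr {X : List α} {g h : α → ZMod 2} (H : ∀ x ∈ X, g x = h x) : ev X g = ev X h := by
  induction X with
  | nil => rfl
  | cons a X ih =>
    rw [ev_cons, ev_cons, H a (by simp), ih (fun x hx => H x (by simp [hx]))]
lemma ev_add (X : List α) (g h : α → ZMod 2) : ev X (fun x => g x + h x) = ev X g + ev X h := by
  induction X with
  | nil => simp
  | cons a X ih => rw [ev_cons, ev_cons, ev_cons, ih]; ring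
lemma ev_zero (X : List α) : ev X (fun _ => 0) = 0 := by
  induction X with
  | nil => rfl
  | cons a X ih => rw [ev_cons, ih]; simp
lemma ev_mul_left (c : ZMod 2) (X : List α) (g : α → ZMod 2) :
    ev X (fun x => c * g x) = c * ev X g := by
  induction X with
  | nil => simp
  | cons a X ih => rw [ev_cons, ev_cons, ih]; ring
lemma ev_mul_right (c : ZMod 2) (X : List α) (g : α → ZMod 2) :
    ev X (fun x => g x * c) = ev X g * c := by
  induction X with
  | nil => simp
  | cons a X ih => rw [ev_cons, ev_cons, ih]; ring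
lemma ev_comm (X : List α) (Y : List β) (F : α → β → ZMod 2) :
    ev X (fun x => ev Y (fun y => F x y)) = ev Y (fun y => ev X (fun x => F x y)) := by
  induction X with
  | nil => simp [ev_zero]
  | cons a X ih => simp only [ev_cons, ih, ev_add]
lemma ev_filter (P : α → Prop) [DecidablePred P] (X : List α) (g : α → ZMod 2) :
    ev (X.filter (fun x => decide (P x))) g = ev X (fun x => if P x then g x else 0) := by
  induction X with
  | nil => rfl
  | cons a X ih =>
    by_cases h : P a
    · simp [h, ih]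
    · simp [h, ih]
lemma exists_of_ev_ne {X : List α} {g : α → ZMod 2} (h : ev X g ≠ 0) : ∃ x ∈ X, g x = 1 := by
  by_contra hc
  push Not at hc
  apply h
  rw [ev_congr (h := fun _ => 0) (fun x hx => zmod2_ne_one.mp (hc x hx)), ev_zero]
lemma exists_of_ev_eq_one {X : List α} {g : α → ZMod 2} (h : ev X g = 1) : ∃ x ∈ X, g x = 1 :=
  exists_of_ev_ne (by rw [h]; decide)

/-- A symmetric function with zero diagonal has zero double sum. -/
lemma ev_symm_zero (X : List α) (F : α → α → ZMod 2) (hs : ∀ x ∈ X, ∀ y ∈ X, F x y = F y x)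
    (hd : ∀ x ∈ X, F x x = 0) : ev X (fun x => ev X (fun y => F x y)) = 0 := by
  induction X with
  | nil => rfl
  | cons a X ih =>
    simp only [ev_cons, ev_add]
    rw [ih (fun x hx y hy => hs x (by simp [hx]) y (by simp [hy])) (fun x hx => hd x (by simp [hx])),
      hd a (by simp), ev_congr (g := fun x => F x a) (h := fun x => F a x)
        (fun x hx => hs x (by simp [hx]) a (by simp))]
    have := zmod2_add_self (ev X fun x => F a x)
    linear_combination this

end ev

/-! ### cap products -/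

lemma ite_eq_mul (a g : ZMod 2) : (if a = 1 then g else 0) = a * g := by
  revert a g; decide

lemma ev_D3 (b : V) (X : List (V × V × V × V)) (g : V × V × V → ZMod 2) :
    ev (D3 b X) g = ev X (fun r => om b r.1 r.2.1 * g r.2) := by
  unfold D3
  rw [ev_map, ev_filter (fun r : V × V × V × V => om b r.1 r.2.1 = 1)]
  simp only [ite_eq_mul]

lemma ev_D2 (b : V) (X : List (V × V × V)) (g : V × V → ZMod 2) :
    ev (D2 b X) g = ev X (fun r => om b r.1 r.2.1 * g r.2) := by
  unfold D2
  rw [ev_map, ev_filter (fun r : V × V × V => om b r.1 r.2.1 = 1)]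
  simp only [ite_eq_mul]

lemma mem_D3 {b : V} {X : List (V × V × V × V)} {t : V × V × V} (h : t ∈ D3 b X) :
    ∃ r ∈ X, om b r.1 r.2.1 = 1 ∧ r.2 = t := by
  unfold D3 at h
  simp only [List.mem_map, List.mem_filter, decide_eq_true_eq] at h
  obtain ⟨r, ⟨hr, h1⟩, h2⟩ := h
  exact ⟨r, hr, h1, h2⟩

lemma mem_D2 {b : V} {X : List (V × V × V)} {t : V × V} (h : t ∈ D2 b X) :
    ∃ r ∈ X, om b r.1 r.2.1 = 1 ∧ r.2 = t := by
  unfold D2 at h
  simp only [List.mem_map, List.mem_filter, decide_eq_true_eq] at h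
  obtain ⟨r, ⟨hr, h1⟩, h2⟩ := h
  exact ⟨r, hr, h1, h2⟩

lemma Cyc3.D3 {X : List (V × V × V × V)} (hX : Cyc3 X) (b : V) : Cyc2 (D3 b X) := by
  intro g hg
  rw [ev_D3]
  have := hX (fun t => om b t.1 t.2.1 * g t.2) (by
    intro t
    have h1 := hg t.2
    simp only [Prod.fst_neg, Prod.snd_neg] at h1 ⊢
    rw [om_neg_neg, h1])
  rw [← this]
  apply ev_congr
  rintro ⟨a, b1, c, d⟩ _
  simp only [d2, d3]
  unfold om
  generalize p b a = x
  generalize p b b1 = y
  generalize p b c = z
  generalize g (c, d) = g1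
  generalize g (b1, d) = g2
  generalize g (b1, c) = g3
  revert x y z g1 g2 g3; decide

lemma Cyc2.D2 {X : List (V × V × V)} (hX : Cyc2 X) (b : V) : Cyc1 (D2 b X) := by
  intro g hg
  rw [ev_D2]
  have := hX (fun t => om b t.1 t.2 * g t.2) (by
    intro t
    have h1 := hg t.2
    simp only [Prod.fst_neg, Prod.snd_neg] at h1 ⊢
    rw [om_neg_neg, h1])
  rw [← this]
  apply ev_congr
  rintro ⟨a, b1, c⟩ _
  simp only [d1, d2]
  unfold om
  generalize p b a = x
  generalize p b b1 = y
  generalize p b c = z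
  generalize g c = g1
  generalize g b1 = g2
  revert x y z g1 g2; decide

lemma J3.D3 {X : List (V × V × V × V)} (hX : J3 X) (b : V) : J2 (D3 b X) := by
  intro b' b''
  rw [ev_D3, ← hX b b' b'']
  apply ev_congr
  intro r _
  ring

lemma J2.D2 {X : List (V × V × V)} (hX : J2 X) (b : V) : J1 (D2 b X) := by
  intro b'
  rw [ev_D2, ← hX b b']

/-- Homotopy lemma for 3-cycles. -/
lemma homotopy3 {X : List (V × V × V × V)} (hX : Cyc3 X) (b b' : V) (g : V × V × V → ZMod 2)
    (hg : Inv g) :
    ev (D3 b X) g + ev (D3 b' X) g = ev X (fun r => (p b r.1 + p b' r.1) * d3 g r) := by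
  rw [ev_D3, ev_D3, ← ev_add]
  have := hX (fun t => (p b t.1 + p b' t.1) * g t) (by
    intro t
    have h1 := hg t
    show (p b (-t).1 + p b' (-t).1) * g (-t) = (p b t.1 + p b' t.1) * g t
    rw [h1]
    simp only [Prod.fst_neg]
    rw [p_neg_right, p_neg_right]
    generalize p b t.1 = x
    generalize p b' t.1 = y
    generalize g t = z
    revert x y z; decide)
  rw [← zmod2_add_eq_zero, ← ev_add, ← this]
  apply ev_congr
  rintro ⟨a, b1, c, d⟩ _
  simp only [d3]
  unfold om
  generalize p b a = x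
  generalize p b b1 = y
  generalize p b' a = x'
  generalize p b' b1 = y'
  generalize g (b1, c, d) = g0
  generalize g (a, c, d) = g1
  generalize g (a, b1, d) = g2
  generalize g (a, b1, c) = g3
  revert x y x' y' g0 g1 g2 g3; decide

/-- Homotopy lemma for 2-cycles. -/
lemma homotopy2 {X : List (V × V × V)} (hX : Cyc2 X) (b b' : V) (g : V × V → ZMod 2)
    (hg : Inv g) :
    ev (D2 b X) g + ev (D2 b' X) g = ev X (fun r => (p b r.1 + p b' r.1) * d2 g r) := by
  rw [ev_D2, ev_D2, ← ev_add]
  have := hX (fun t => (p b t.1 + p b' t.1) * g t) (by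
    intro t
    have h1 := hg t
    show (p b (-t).1 + p b' (-t).1) * g (-t) = (p b t.1 + p b' t.1) * g t
    rw [h1]
    simp only [Prod.fst_neg]
    rw [p_neg_right, p_neg_right]
    generalize p b t.1 = x
    generalize p b' t.1 = y
    generalize g t = z
    revert x y z; decide)
  rw [← zmod2_add_eq_zero, ← ev_add, ← this]
  apply ev_congr
  rintro ⟨a, b1, c⟩ _
  simp only [d2]
  unfold om
  generalize p b a = x
  generalize p b b1 = y
  generalize p b' a = x'
  generalize p b' b1 = y'
  generalize g (b1, c) = g0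
  generalize g (a, c) = g1
  generalize g (a, b1) = g2
  revert x y x' y' g0 g1 g2; decide

end Crest.Agent.BK
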