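import Crest.Agent.BK.Spec

/-!
Row 50 (S0069), chunk BORSUK: reduction to colourings of nonzero vectors of `ℝ⁴`.
-/

set_option autoImplicit false

namespace Crest.Agent.BK

open scoped RealInnerProductSpace

/-- the Veronese map (trace-free part) -/
noncomputable def bVer (x : E4) : EuclideanSpace ℝ (Fin 9) :=
  WithLp.toLp 2 ![x 0 * x 1 + x 2 * x 3, x 0 * x 1 - x 2 * x 3, x 0 * x 2 + x 1 * x 3,
    x 0 * x 2 - x 1 * x 3, x 0 * x 3 + x 1 * x 2, x 0 * x 3 - x 1 * x 2,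
    (x 0 ^ 2 + x 1 ^ 2 - x 2 ^ 2 - x 3 ^ 2) / 2, (x 0 ^ 2 - x 1 ^ 2 + x 2 ^ 2 - x 3 ^ 2) / 2,
    (x 0 ^ 2 - x 1 ^ 2 - x 2 ^ 2 + x 3 ^ 2) / 2]

theorem bVer_neg (x : E4) : bVer (-x) = bVer x := by
  unfold bVer
  congr 1
  ext i
  fin_cases i <;> simp

theorem b_inner (x y : E4) : ⟪x, y⟫ = x 0 * y 0 + x 1 * y 1 + x 2 * y 2 + x 3 * y 3 := by
  simp [PiLp.inner_apply, Fin.sum_univ_four]
  ring

theorem b_normsq (x : E4) : ‖x‖ ^ 2 = x 0 ^ 2 + x 1 ^ 2 + x 2 ^ 2 + x 3 ^ 2 := by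
  rw [← real_inner_self_eq_norm_sq, b_inner]; ring

theorem bVer_dist (x y : E4) (hx : ‖x‖ = 1) (hy : ‖y‖ = 1) :
    dist (bVer x) (bVer y) ^ 2 = 2 - 2 * ⟪x, y⟫ ^ 2 := by
  have hx2 := b_normsq x
  have hy2 := b_normsq y
  rw [hx] at hx2
  rw [hy] at hy2
  rw [EuclideanSpace.dist_eq, Real.sq_sqrt (Finset.sum_nonneg fun i _ => sq_nonneg _), b_inner]
  simp only [Fin.sum_univ_succ, bVer, Real.dist_eq, sq_abs]
  simp
  set a := x 0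
  set b := x 1
  set c := x 2
  set d := x 3
  set a' := y 0
  set b' := y 1
  set c' := y 2
  set d' := y 3
  have h1 : (a ^ 2 + b ^ 2 + c ^ 2 + d ^ 2) ^ 2 = 1 := by rw [← hx2]; norm_num
  have h2 : (a' ^ 2 + b' ^ 2 + c' ^ 2 + d' ^ 2) ^ 2 = 1 := by rw [← hy2]; norm_num
  have h3 : (a ^ 2 + b ^ 2 + c ^ 2 + d ^ 2) * (a' ^ 2 + b' ^ 2 + c' ^ 2 + d' ^ 2) = 1 := by
    rw [← hx2, ← hy2]; norm_num
  linear_combination (3 / 4) * h1 + (3 / 4) * h2 + (1 / 2) * h3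

theorem borsuk : S_borsuk := by
  intro H
  have hle : ∀ x y : E4, ‖x‖ = 1 → ‖y‖ = 1 → dist (bVer x) (bVer y) ≤ Real.sqrt 2 := by
    intro x y hx hy
    apply Real.le_sqrt_of_sq_le
    rw [bVer_dist x y hx hy]
    nlinarith [sq_nonneg ⟪x, y⟫]
  let S : Set (EuclideanSpace ℝ (Fin 9)) := bVer '' Metric.sphere (0 : E4) 1
  have hS : ∀ s ∈ S, ∀ t ∈ S, dist s t ≤ Real.sqrt 2 := by
    rintro _ ⟨x, hx, rfl⟩ _ ⟨y, hy, rfl⟩
    exact hle x y (by simpa using hx) (by simpa using hy)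
  have hbd : Bornology.IsBounded S := Metric.isBounded_iff.2 ⟨_, fun s hs t ht => hS s hs t ht⟩
  refine ⟨S, hbd, ?_, ?_⟩
  · have h0 : ‖EuclideanSpace.single (0 : Fin 4) (1 : ℝ)‖ = 1 := by simp
    have h1 : ‖EuclideanSpace.single (1 : Fin 4) (1 : ℝ)‖ = 1 := by simp
    refine ⟨bVer (EuclideanSpace.single 0 1), ⟨_, by simp, rfl⟩,
      bVer (EuclideanSpace.single 1 1), ⟨_, by simp, rfl⟩, ?_⟩
    intro heq
    have := bVer_dist _ _ h0 h1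
    rw [heq, dist_self, b_inner] at this
    simp at this
  · intro c0
    by_contra hcon
    push Not at hcon
    have hdS : Metric.diam S ≤ Real.sqrt 2 :=
      Metric.diam_le_of_forall_dist_le (Real.sqrt_nonneg _) hS
    obtain ⟨i0, hi0⟩ := Finite.exists_max (fun i : Fin 10 => Metric.diam (S ∩ c0 ⁻¹' {i}))
    set D := Metric.diam (S ∩ c0 ⁻¹' {i0}) with hD
    have hD0 : 0 ≤ D := Metric.diam_nonneg
    have hD1 : D < Real.sqrt 2 := (hcon i0).trans_le hdS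
    have hD2 : D ^ 2 < 2 := by
      have := Real.sq_sqrt (show (0 : ℝ) ≤ 2 by norm_num)
      nlinarith [Real.sqrt_nonneg 2]
    have hε : 0 < Real.sqrt (1 - D ^ 2 / 2) := Real.sqrt_pos.2 (by linarith)
    obtain ⟨u, v, huv, hlt⟩ := H (fun v => c0 (bVer (‖v.1‖⁻¹ • v.1))) (fun v => by
      have : ((-v : V)).1 = -v.1 := rfl
      simp only [this, norm_neg, smul_neg, bVer_neg]) _ hε
    have hu : 0 < ‖u.1‖ := norm_pos_iff.2 u.2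
    have hv : 0 < ‖v.1‖ := norm_pos_iff.2 v.2
    have nu : ‖(‖u.1‖⁻¹ • u.1 : E4)‖ = 1 := by
      rw [norm_smul, norm_inv, norm_norm, inv_mul_cancel₀ hu.ne']
    have nv : ‖(‖v.1‖⁻¹ • v.1 : E4)‖ = 1 := by
      rw [norm_smul, norm_inv, norm_norm, inv_mul_cancel₀ hv.ne']
    have hin : ⟪(‖u.1‖⁻¹ • u.1 : E4), (‖v.1‖⁻¹ • v.1 : E4)⟫ = ⟪u.1, v.1⟫ / (‖u.1‖ * ‖v.1‖) := by
      rw [real_inner_smul_left, real_inner_smul_right]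
      field_simp
    have hsq : ⟪(‖u.1‖⁻¹ • u.1 : E4), (‖v.1‖⁻¹ • v.1 : E4)⟫ ^ 2 < 1 - D ^ 2 / 2 := by
      rw [hin]
      have h1 : |⟪u.1, v.1⟫ / (‖u.1‖ * ‖v.1‖)| < Real.sqrt (1 - D ^ 2 / 2) := by
        rw [abs_div, abs_of_pos (mul_pos hu hv), div_lt_iff₀ (mul_pos hu hv), ← mul_assoc]
        exact hlt
      rw [← sq_abs, ← Real.sq_sqrt (show 0 ≤ 1 - D ^ 2 / 2 by linarith)]
      exact pow_lt_pow_left₀ h1 (abs_nonneg _) two_ne_zero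
    have hd := bVer_dist _ _ nu nv
    have hmu : bVer (‖u.1‖⁻¹ • u.1) ∈ S ∩ c0 ⁻¹' {c0 (bVer (‖u.1‖⁻¹ • u.1))} :=
      ⟨⟨_, by simpa using nu, rfl⟩, rfl⟩
    have hmv : bVer (‖v.1‖⁻¹ • v.1) ∈ S ∩ c0 ⁻¹' {c0 (bVer (‖u.1‖⁻¹ • u.1))} :=
      ⟨⟨_, by simpa using nv, rfl⟩, huv.symm⟩
    have hdd := Metric.dist_le_diam_of_mem (hbd.subset Set.inter_subset_left) hmu hmv
    have hdD : dist (bVer (‖u.1‖⁻¹ • u.1)) (bVer (‖v.1‖⁻¹ • v.1)) ≤ D := hdd.trans (hi0 _)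
    have h5 : dist (bVer (‖u.1‖⁻¹ • u.1)) (bVer (‖v.1‖⁻¹ • v.1)) ^ 2 ≤ D ^ 2 :=
      pow_le_pow_left₀ dist_nonneg hdD 2
    linarith

end Crest.Agent.BK
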