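import Mathlib

/-!
Row 50 (S0069).  Definitions for the mod-2 "polarity" machine on the nonzero vectors of `ℝ⁴`.
-/

set_option autoImplicit false

namespace Crest.Agent.BK

open scoped RealInnerProductSpace

/-- `ℝ⁴`. -/
abbrev E4 := EuclideanSpace ℝ (Fin 4)

/-- Nonzero vectors of `ℝ⁴`. -/
abbrev V := {v : E4 // v ≠ 0}

noncomputable instance instNegV : Neg V := ⟨fun v => ⟨-v.1, neg_ne_zero.mpr v.2⟩⟩

/-- A generic odd sign bit: is the first nonzero coordinate positive? -/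
noncomputable def rb (v : V) : ZMod 2 :=
  if 0 < v.1 0 ∨ (v.1 0 = 0 ∧ (0 < v.1 1 ∨ (v.1 1 = 0 ∧ (0 < v.1 2 ∨ (v.1 2 = 0 ∧ 0 < v.1 3)))))
  then 1 else 0

/-- The polarity bit: 1 if `⟪u,v⟫ > 0`, 0 if `< 0`, generic tie-break if `= 0`. -/
noncomputable def p (u v : V) : ZMod 2 :=
  if 0 < ⟪u.1, v.1⟫ then 1 else if ⟪u.1, v.1⟫ < 0 then 0 else rb u + rb v

/-- `om b u v = 1` iff `u, v` are on different sides of `b^⊥`. -/
noncomputable def om (b u v : V) : ZMod 2 := p b u + p b v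

/-- Evaluation of a mod-2 chain (a list of simplices) on a function. -/
def ev {α : Type*} (X : List α) (g : α → ZMod 2) : ZMod 2 := (X.map g).sum

/-- Simplices: `V`, `V × V`, `V × V × V`, `V × V × V × V`; invariance under the simultaneous
antipode (`-(a,b) = (-a,-b)`). -/
def Inv {α : Type*} [Neg α] (g : α → ZMod 2) : Prop := ∀ t, g (-t) = g t

/-- Coboundaries (sums over all faces). -/
def d1 (g : V → ZMod 2) : V × V → ZMod 2 := fun r => g r.2 + g r.1
def d2 (g : V × V → ZMod 2) : V × V × V → ZMod 2 :=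
  fun r => g (r.2.1, r.2.2) + g (r.1, r.2.2) + g (r.1, r.2.1)
def d3 (g : V × V × V → ZMod 2) : V × V × V × V → ZMod 2 :=
  fun r => g (r.2.1, r.2.2.1, r.2.2.2) + g (r.1, r.2.2.1, r.2.2.2) + g (r.1, r.2.1, r.2.2.2)
    + g (r.1, r.2.1, r.2.2.1)

/-- Projective mod-2 cycles. -/
def Cyc1 (Y : List (V × V)) : Prop := ∀ g : V → ZMod 2, Inv g → ev Y (d1 g) = 0
def Cyc2 (X : List (V × V × V)) : Prop := ∀ g : V × V → ZMod 2, Inv g → ev X (d2 g) = 0
def Cyc3 (X : List (V × V × V × V)) : Prop :=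
  ∀ g : V × V × V → ZMod 2, Inv g → ev X (d3 g) = 0

/-- Degree-one conditions. -/
def J1 (Y : List (V × V)) : Prop := ∀ b : V, ev Y (fun r => om b r.1 r.2) = 1
def J2 (X : List (V × V × V)) : Prop :=
  ∀ b b' : V, ev X (fun r => om b r.1 r.2.1 * om b' r.2.1 r.2.2) = 1
def J3 (X : List (V × V × V × V)) : Prop :=
  ∀ b b' b'' : V, ev X (fun r => om b r.1 r.2.1 * om b' r.2.1 r.2.2.1 * om b'' r.2.2.1 r.2.2.2) = 1

/-- Cap products with the class of `b`. -/
noncomputable def D3 (b : V) (X : List (V × V × V × V)) : List (V × V × V) :=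
  (X.filter (fun r => om b r.1 r.2.1 = 1)).map (fun r => r.2)
noncomputable def D2 (b : V) (X : List (V × V × V)) : List (V × V) :=
  (X.filter (fun r => om b r.1 r.2.1 = 1)).map (fun r => r.2)

/-- Vertex lists. -/
def vs1 (r : V × V) : List V := [r.1, r.2]
def vs2 (r : V × V × V) : List V := [r.1, r.2.1, r.2.2]
def vs3 (r : V × V × V × V) : List V := [r.1, r.2.1, r.2.2.1, r.2.2.2]

/-- A small simplex: all vertices have norm in `[1/2,1]`, pairwise distances at most `δ`. -/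
def Sm (δ : ℝ) (l : List V) : Prop :=
  (∀ a ∈ l, 1 / 2 ≤ ‖a.1‖ ∧ ‖a.1‖ ≤ 1) ∧ ∀ a ∈ l, ∀ b ∈ l, ‖a.1 - b.1‖ ≤ δ

end Crest.Agent.BK
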