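import Crest.Agent.BK.Spec

/-!
Row 50 (S0069).  Chunk EXIST: the small fundamental 3-cycle (iterated prism construction).
-/

set_option autoImplicit false

namespace Crest.Agent.BK

open scoped RealInnerProductSpace

namespace Exist

/-! ### vectors -/

noncomputable def eV (k : Fin 4) : V :=
  ⟨EuclideanSpace.single k (1 : ℝ), by
    intro h
    have := congrFun (congrArg (fun v : E4 => (v : Fin 4 → ℝ)) h) k
    simp at this⟩

open Classical in
noncomputable def mkV (w : E4) : V := if h : w ≠ 0 then ⟨w, h⟩ else eV 0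

lemma mkV_val {w : E4} (h : w ≠ 0) : (mkV w).1 = w := by
  unfold mkV; rw [dif_pos h]

lemma mkV_self (v : V) : mkV v.1 = v := by
  unfold mkV; rw [dif_pos v.2]

/-- the interpolation towards `e_k` -/
noncomputable def io (n : ℕ) (k : Fin 4) (s : ℕ) (v : V) : V :=
  mkV ((1 - (s : ℝ) / n) • v.1 + ((s : ℝ) / n) • (eV k).1)

lemma io_zero (n : ℕ) (k : Fin 4) (v : V) : io n k 0 v = v := by
  unfold io
  simp [mkV_self]

lemma io_n {n : ℕ} (hn : 0 < n) (k : Fin 4) (v : V) : io n k n v = eV k := by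
  unfold io
  have : (n : ℝ) / n = 1 := div_self (by positivity)
  rw [this]
  simp [mkV_self]

/-! ### general facts on `ev` -/

lemma ev_range_tel {α : Type*} (Z : List α) (n : ℕ) (F : ℕ → α → ZMod 2) :
    ev (List.range n) (fun s => ev Z (F (s + 1)) + ev Z (F s)) = ev Z (F n) + ev Z (F 0) := by
  induction n with
  | zero => simp [zmod2_add_self]
  | succ n ih =>
    rw [List.range_succ, ev_append, ih]
    simp only [ev_cons, ev_nil, add_zero]
    generalize ev Z (F n) = a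
    generalize ev Z (F 0) = b
    generalize ev Z (F (n + 1)) = c
    revert a b c; decide

lemma ev_const_even {α : Type*} {Z : List α} (h : Even Z.length) (c : ZMod 2) :
    ev Z (fun _ => c) = 0 := by
  obtain ⟨m, hm⟩ := h
  have : ∀ (Z : List α), ev Z (fun _ => c) = (Z.length : ZMod 2) * c := by
    intro Z
    induction Z with
    | nil => simp
    | cons a Z ih => rw [ev_cons, ih, List.length_cons]; push_cast; ring
  rw [this, hm]
  push_cast
  have := zmod2_add_self (m : ZMod 2)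
  rw [this, zero_mul]

/-! ### the prism steps -/

section steps
variable (n : ℕ) (k : Fin 4)

noncomputable def Q1 (Z : List V) : List (V × V) :=
  (List.range n).flatMap fun s => Z.flatMap fun v => [(io n k s v, io n k (s + 1) v)]

noncomputable def Q2 (Z : List (V × V)) : List (V × V × V) :=
  (List.range n).flatMap fun s => Z.flatMap fun r =>
    [(io n k s r.1, io n k (s + 1) r.1, io n k (s + 1) r.2),
     (io n k s r.1, io n k s r.2, io n k (s + 1) r.2)]

noncomputable def Q3 (Z : List (V × V × V)) : List (V × V × V × V) :=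
  (List.range n).flatMap fun s => Z.flatMap fun r =>
    [(io n k s r.1, io n k (s + 1) r.1, io n k (s + 1) r.2.1, io n k (s + 1) r.2.2),
     (io n k s r.1, io n k s r.2.1, io n k (s + 1) r.2.1, io n k (s + 1) r.2.2),
     (io n k s r.1, io n k s r.2.1, io n k s r.2.2, io n k (s + 1) r.2.2)]

variable {n}

lemma ev_Q1 (hn : 0 < n) {Z : List V} (hZ : Even Z.length) (g : V → ZMod 2) :
    ev (Q1 n k Z) (d1 g) = ev Z g := by
  unfold Q1
  rw [ev_flatMap]
  have h1 : ∀ s, ev (Z.flatMap fun v => [(io n k s v, io n k (s + 1) v)]) (d1 g)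
      = ev Z (fun v => g (io n k (s + 1) v)) + ev Z (fun v => g (io n k s v)) := by
    intro s
    rw [ev_flatMap, ← ev_add]
    apply ev_congr
    intro v _
    simp [d1]
  simp only [h1]
  rw [ev_range_tel Z n (fun s v => g (io n k s v))]
  simp only [io_zero, io_n hn]
  rw [ev_const_even hZ, zero_add]

lemma ev_Q2 (hn : 0 < n) {Z : List (V × V)} (hZ : Even Z.length)
    (hc : ∀ h : V → ZMod 2, ev Z (d1 h) = 0) (g : V × V → ZMod 2) :
    ev (Q2 n k Z) (d2 g) = ev Z g := by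
  unfold Q2
  rw [ev_flatMap]
  have h1 : ∀ s, ev (Z.flatMap fun r =>
    [(io n k s r.1, io n k (s + 1) r.1, io n k (s + 1) r.2),
     (io n k s r.1, io n k s r.2, io n k (s + 1) r.2)]) (d2 g)
      = ev Z (fun r => g (io n k (s + 1) r.1, io n k (s + 1) r.2))
        + ev Z (fun r => g (io n k s r.1, io n k s r.2)) := by
    intro s
    have h2 := hc (fun v => g (io n k s v, io n k (s + 1) v))
    rw [ev_flatMap, ← ev_add]
    rw [← add_zero (ev Z fun x => _), ← h2, ← ev_add]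
    apply ev_congr
    intro r _
    simp only [ev_cons, ev_nil, d2, d1, add_zero]
    generalize g (io n k (s + 1) r.1, io n k (s + 1) r.2) = x1
    generalize g (io n k s r.1, io n k (s + 1) r.2) = x2
    generalize g (io n k s r.1, io n k (s + 1) r.1) = x3
    generalize g (io n k s r.2, io n k (s + 1) r.2) = x4
    generalize g (io n k s r.1, io n k s r.2) = x5
    revert x1 x2 x3 x4 x5; decide
  simp only [h1]
  rw [ev_range_tel Z n (fun s r => g (io n k s r.1, io n k s r.2))]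
  simp only [io_zero, io_n hn]
  rw [ev_const_even hZ, zero_add]

lemma ev_Q3 (hn : 0 < n) {Z : List (V × V × V)} (hZ : Even Z.length)
    (hc : ∀ h : V × V → ZMod 2, ev Z (d2 h) = 0) (g : V × V × V → ZMod 2) :
    ev (Q3 n k Z) (d3 g) = ev Z g := by
  unfold Q3
  rw [ev_flatMap]
  have h1 : ∀ s, ev (Z.flatMap fun r =>
    [(io n k s r.1, io n k (s + 1) r.1, io n k (s + 1) r.2.1, io n k (s + 1) r.2.2),
     (io n k s r.1, io n k s r.2.1, io n k (s + 1) r.2.1, io n k (s + 1) r.2.2),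
     (io n k s r.1, io n k s r.2.1, io n k s r.2.2, io n k (s + 1) r.2.2)]) (d3 g)
      = ev Z (fun r => g (io n k (s + 1) r.1, io n k (s + 1) r.2.1, io n k (s + 1) r.2.2))
        + ev Z (fun r => g (io n k s r.1, io n k s r.2.1, io n k s r.2.2)) := by
    intro s
    have h2 := hc (fun r => g (io n k s r.1, io n k (s + 1) r.1, io n k (s + 1) r.2)
      + g (io n k s r.1, io n k s r.2, io n k (s + 1) r.2))
    rw [ev_flatMap, ← ev_add]
    rw [← add_zero (ev Z fun x => _), ← h2, ← ev_add]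
    apply ev_congr
    intro r _
    simp only [ev_cons, ev_nil, d3, d2, add_zero]
    generalize g (io n k (s + 1) r.1, io n k (s + 1) r.2.1, io n k (s + 1) r.2.2) = x1
    generalize g (io n k s r.1, io n k s r.2.1, io n k s r.2.2) = x2
    generalize g (io n k s r.1, io n k (s + 1) r.2.1, io n k (s + 1) r.2.2) = x3
    generalize g (io n k s r.1, io n k (s + 1) r.1, io n k (s + 1) r.2.2) = x4
    generalize g (io n k s r.1, io n k (s + 1) r.1, io n k (s + 1) r.2.1) = x5
    generalize g (io n k s r.2.1, io n k (s + 1) r.2.1, io n k (s + 1) r.2.2) = x6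
    generalize g (io n k s r.1, io n k s r.2.1, io n k (s + 1) r.2.2) = x7
    generalize g (io n k s r.1, io n k s r.2.1, io n k (s + 1) r.2.1) = x8
    generalize g (io n k s r.2.1, io n k s r.2.2, io n k (s + 1) r.2.2) = x9
    generalize g (io n k s r.1, io n k s r.2.2, io n k (s + 1) r.2.2) = x10
    have e : ∀ a : ZMod 2, a + a = 0 := zmod2_add_self
    linear_combination e x3 + e x7 + e x4 + e x5 + e x6 + e x8 + e x9 + e x10
  simp only [h1]
  rw [ev_range_tel Z n (fun s r => g (io n k s r.1, io n k s r.2.1, io n k s r.2.2))]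
  simp only [io_zero, io_n hn]
  rw [ev_const_even hZ, zero_add]

end steps

/-- doubling by the antipode -/
def dbl {α : Type*} [Neg α] (M : List α) : List α := M ++ M.map (fun t => -t)

lemma ev_dbl {α : Type*} [Neg α] (M : List α) (g : α → ZMod 2) :
    ev (dbl M) g = ev M g + ev M (fun t => g (-t)) := by
  unfold dbl; rw [ev_append, ev_map]

lemma even_dbl {α : Type*} [Neg α] (M : List α) : Even (dbl M).length := by
  unfold dbl; simp

lemma neg_neg_V (v : V) : - -v = v := by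
  apply Subtype.ext; simp

noncomputable def M0 : List V := [eV 0]
noncomputable def M1 (n : ℕ) : List (V × V) := Q1 n 1 (dbl M0)
noncomputable def M2 (n : ℕ) : List (V × V × V) := Q2 n 2 (dbl (M1 n))
noncomputable def M3 (n : ℕ) : List (V × V × V × V) := Q3 n 3 (dbl (M2 n))

lemma ev_M1 {n : ℕ} (hn : 0 < n) (g : V → ZMod 2) :
    ev (M1 n) (d1 g) = ev M0 g + ev M0 (fun t => g (-t)) := by
  unfold M1; rw [ev_Q1 1 hn (even_dbl M0), ev_dbl]

lemma cyc_dbl_M1 {n : ℕ} (hn : 0 < n) (h : V → ZMod 2) : ev (dbl (M1 n)) (d1 h) = 0 := by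
  rw [ev_dbl]
  have e : (fun t : V × V => d1 h (-t)) = d1 (fun v => h (-v)) := by
    funext t; simp [d1]
  rw [e, ev_M1 hn, ev_M1 hn]
  simp only [neg_neg_V]
  generalize ev M0 h = a
  generalize ev M0 (fun t => h (-t)) = b
  revert a b; decide

lemma ev_M2 {n : ℕ} (hn : 0 < n) (g : V × V → ZMod 2) :
    ev (M2 n) (d2 g) = ev (M1 n) g + ev (M1 n) (fun t => g (-t)) := by
  unfold M2; rw [ev_Q2 2 hn (even_dbl _) (cyc_dbl_M1 hn), ev_dbl]

lemma cyc_dbl_M2 {n : ℕ} (hn : 0 < n) (h : V × V → ZMod 2) : ev (dbl (M2 n)) (d2 h) = 0 := by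
  rw [ev_dbl]
  have e : (fun t : V × V × V => d2 h (-t)) = d2 (fun v => h (-v)) := by
    funext t; rfl
  have e2 : ∀ t : V × V, - -t = t := by
    intro t; apply Prod.ext <;> simp [neg_neg_V]
  rw [e, ev_M2 hn, ev_M2 hn]
  simp only [e2]
  generalize ev (M1 n) h = a
  generalize ev (M1 n) (fun t => h (-t)) = b
  revert a b; decide

lemma ev_M3 {n : ℕ} (hn : 0 < n) (g : V × V × V → ZMod 2) :
    ev (M3 n) (d3 g) = ev (M2 n) g + ev (M2 n) (fun t => g (-t)) := by
  unfold M3; rw [ev_Q3 3 hn (even_dbl _) (cyc_dbl_M2 hn), ev_dbl]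

lemma cyc3 {n : ℕ} (hn : 0 < n) : Cyc3 (M3 n) := by
  intro g hg
  rw [ev_M3 hn]
  have : (fun t => g (-t)) = g := by funext t; exact hg t
  rw [this, zmod2_add_self]

lemma J_M1 {n : ℕ} (hn : 0 < n) (b : V) : ev (M1 n) (fun r => om b r.1 r.2) = 1 := by
  have e : (fun r : V × V => om b r.1 r.2) = d1 (p b) := by
    funext r; unfold om d1; ring
  rw [e, ev_M1 hn]
  unfold M0
  simp only [ev_cons, ev_nil, add_zero, p_neg_right]
  generalize p b (eV 0) = a
  revert a; decide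

lemma J_M2 {n : ℕ} (hn : 0 < n) (b b' : V) :
    ev (M2 n) (fun r => om b r.1 r.2.1 * om b' r.2.1 r.2.2) = 1 := by
  have e : (fun r : V × V × V => om b r.1 r.2.1 * om b' r.2.1 r.2.2)
      = d2 (fun t => p b t.1 * om b' t.1 t.2) := by
    funext r
    simp only [d2]
    unfold om
    generalize p b r.1 = x1
    generalize p b r.2.1 = x2
    generalize p b' r.1 = y1
    generalize p b' r.2.1 = y2
    generalize p b' r.2.2 = y3
    revert x1 x2 y1 y2 y3; decide
  rw [e, ev_M2 hn, ← ev_add, ← J_M1 hn b']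
  apply ev_congr
  intro t _
  simp only [Prod.fst_neg, Prod.snd_neg, p_neg_right, om_neg_neg]
  generalize p b t.1 = x
  generalize om b' t.1 t.2 = y
  revert x y; decide

lemma J_M3 {n : ℕ} (hn : 0 < n) (b b' b'' : V) :
    ev (M3 n) (fun r => om b r.1 r.2.1 * om b' r.2.1 r.2.2.1 * om b'' r.2.2.1 r.2.2.2) = 1 := by
  have e : (fun r : V × V × V × V => om b r.1 r.2.1 * om b' r.2.1 r.2.2.1
        * om b'' r.2.2.1 r.2.2.2)
      = d3 (fun t => p b t.1 * (om b' t.1 t.2.1 * om b'' t.2.1 t.2.2)) := by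
    funext r
    simp only [d3]
    unfold om
    generalize p b r.1 = x1
    generalize p b r.2.1 = x2
    generalize p b' r.1 = y1
    generalize p b' r.2.1 = y2
    generalize p b' r.2.2.1 = y3
    generalize p b'' r.2.1 = z1
    generalize p b'' r.2.2.1 = z2
    generalize p b'' r.2.2.2 = z3
    revert x1 x2 y1 y2 y3 z1 z2 z3; decide
  rw [e, ev_M3 hn, ← ev_add, ← J_M2 hn b' b'']
  apply ev_congr
  intro t _
  simp only [Prod.fst_neg, Prod.snd_neg, p_neg_right, om_neg_neg]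
  generalize p b t.1 = x
  generalize om b' t.1 t.2.1 * om b'' t.2.1 t.2.2 = y
  revert x y; decide

/-! ### smallness -/

/-- the `ℓ¹` norm -/
def L1 (v : E4) : ℝ := |v 0| + |v 1| + |v 2| + |v 3|

lemma L1_ne {v : E4} (h : L1 v = 1) : v ≠ 0 := by
  rintro rfl
  simp [L1] at h

lemma norm_le_of_L1 {v : E4} (h : L1 v = 1) : ‖v‖ ≤ 1 := by
  rw [EuclideanSpace.norm_eq, Fin.sum_univ_four, Real.sqrt_le_left (by norm_num)]
  simp only [Real.norm_eq_abs]
  unfold L1 at h
  have h0 := abs_nonneg (v 0)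
  have h1 := abs_nonneg (v 1)
  have h2 := abs_nonneg (v 2)
  have h3 := abs_nonneg (v 3)
  nlinarith

lemma half_le_of_L1 {v : E4} (h : L1 v = 1) : 1 / 2 ≤ ‖v‖ := by
  rw [EuclideanSpace.norm_eq, Fin.sum_univ_four]
  simp only [Real.norm_eq_abs]
  apply Real.le_sqrt_of_sq_le
  unfold L1 at h
  generalize |v 0| = a at *
  generalize |v 1| = b at *
  generalize |v 2| = c at *
  generalize |v 3| = d at *
  nlinarith [sq_nonneg (a - b), sq_nonneg (a - c), sq_nonneg (a - d), sq_nonneg (b - c),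
    sq_nonneg (b - d), sq_nonneg (c - d)]

/-- vertices with `ℓ¹` norm one supported in the first `k` coordinates, pairwise distances `≤ η` -/
def Gd (k : ℕ) (η : ℝ) (l : List V) : Prop :=
  (∀ a ∈ l, L1 a.1 = 1 ∧ ∀ i : Fin 4, k ≤ i.val → a.1 i = 0) ∧
    ∀ a ∈ l, ∀ b ∈ l, ‖a.1 - b.1‖ ≤ η

lemma Gd.Sm {k : ℕ} {η δ : ℝ} {l : List V} (h : Gd k η l) (hδ : η ≤ δ) : Sm δ l :=
  ⟨fun a ha => ⟨half_le_of_L1 (h.1 a ha).1, norm_le_of_L1 (h.1 a ha).1⟩,
    fun a ha b hb => (h.2 a ha b hb).trans hδ⟩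

lemma Gd.neg {k : ℕ} {η : ℝ} {l : List V} (h : Gd k η l) : Gd k η (l.map (fun v => -v)) := by
  refine ⟨fun a ha => ?_, fun a ha b hb => ?_⟩
  · obtain ⟨v, hv, rfl⟩ := List.mem_map.1 ha
    obtain ⟨h1, h2⟩ := h.1 v hv
    refine ⟨?_, fun i hi => ?_⟩
    · rw [← h1]; simp [L1]
    · simp [h2 i hi]
  · obtain ⟨v, hv, rfl⟩ := List.mem_map.1 ha
    obtain ⟨w, hw, rfl⟩ := List.mem_map.1 hb
    have := h.2 v hv w hw
    rw [neg_val, neg_val, ← neg_sub', norm_neg]
    exact this

lemma io_good {n : ℕ} (hn : 0 < n) {k : Fin 4} {s : ℕ} (hs : s ≤ n) {v : V}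
    (h1 : L1 v.1 = 1) (h2 : ∀ i : Fin 4, k.val ≤ i.val → v.1 i = 0) :
    (io n k s v).1 = (1 - (s : ℝ) / n) • v.1 + ((s : ℝ) / n) • (eV k).1 ∧
    L1 (io n k s v).1 = 1 ∧ ∀ i : Fin 4, k.val + 1 ≤ i.val → (io n k s v).1 i = 0 := by
  have hn' : (0 : ℝ) < n := by exact_mod_cast hn
  have ht0 : 0 ≤ (s : ℝ) / n := by positivity
  have ht1 : (s : ℝ) / n ≤ 1 := by
    rw [div_le_one hn']; exact_mod_cast hs
  have hL : L1 ((1 - (s : ℝ) / n) • v.1 + ((s : ℝ) / n) • (eV k).1) = 1 := by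
    generalize (s : ℝ) / n = t at *
    have hk := h2 k le_rfl
    unfold L1 at *
    have e1 : |1 - t| = 1 - t := abs_of_nonneg (by linarith)
    have e2 : |t| = t := abs_of_nonneg ht0
    have e3 : ∀ i : Fin 4, |((1 - t) • v.1 + t • (eV k).1) i| =
        (1 - t) * |v.1 i| + (if i = k then t else 0) := by
      intro i
      by_cases hik : i = k
      · subst hik
        simp [eV, hk, e2]
      · simp [eV, hik, abs_mul, e1]
    rw [e3, e3, e3, e3]
    have e4 : (if (0 : Fin 4) = k then t else 0) + (if (1 : Fin 4) = k then t else 0)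
        + (if (2 : Fin 4) = k then t else 0) + (if (3 : Fin 4) = k then t else 0) = t := by
      fin_cases k <;> simp
    linear_combination (1 - t) * h1 + e4
  refine ⟨mkV_val (L1_ne hL), ?_, ?_⟩
  · unfold io; rw [mkV_val (L1_ne hL)]; exact hL
  · intro i hi
    unfold io; rw [mkV_val (L1_ne hL)]
    have hne : i ≠ k := by
      rintro rfl; omega
    simp [eV, h2 i (by omega), hne]

lemma Gd_step {n : ℕ} (hn : 0 < n) {k : Fin 4} {s : ℕ} (hs : s < n) {η : ℝ} {l l' : List V}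
    (h : Gd k.val η l)
    (hl : ∀ x ∈ l', ∃ a ∈ l, x = io n k s a ∨ x = io n k (s + 1) a) :
    Gd (k.val + 1) (η + 2 / n) l' := by
  have hn' : (0 : ℝ) < n := by exact_mod_cast hn
  have hl2 : ∀ x ∈ l', ∃ a ∈ l, ∃ σ : ℕ, (s ≤ σ ∧ σ ≤ s + 1) ∧ x = io n k σ a := by
    intro x hx
    obtain ⟨a, ha, h | h⟩ := hl x hx
    · exact ⟨a, ha, s, ⟨le_rfl, by omega⟩, h⟩
    · exact ⟨a, ha, s + 1, ⟨by omega, le_rfl⟩, h⟩
  refine ⟨fun x hx => ?_, fun x hx y hy => ?_⟩
  · obtain ⟨a, ha, σ, hσ, rfl⟩ := hl2 x hx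
    exact (io_good hn (by omega) (h.1 a ha).1 (h.1 a ha).2).2
  · obtain ⟨a, ha, σ, hσ, rfl⟩ := hl2 x hx
    obtain ⟨b, hb, τ, hτ, rfl⟩ := hl2 y hy
    rw [(io_good hn (by omega) (h.1 a ha).1 (h.1 a ha).2).1,
      (io_good hn (by omega) (h.1 b hb).1 (h.1 b hb).2).1]
    have e : (1 - (σ : ℝ) / n) • a.1 + ((σ : ℝ) / n) • (eV k).1
        - ((1 - (τ : ℝ) / n) • b.1 + ((τ : ℝ) / n) • (eV k).1)
        = (1 - (σ : ℝ) / n) • (a.1 - b.1) + (((τ : ℝ) - σ) / n) • (b.1 - (eV k).1) := by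
      module
    rw [e]
    refine (norm_add_le _ _).trans ?_
    rw [norm_smul, norm_smul, Real.norm_eq_abs, Real.norm_eq_abs, abs_div, abs_of_pos hn']
    have hσn : (σ : ℝ) / n ≤ 1 := by
      rw [div_le_one hn']
      exact_mod_cast (by omega : σ ≤ n)
    have hσ0 : 0 ≤ (σ : ℝ) / n := by positivity
    rw [abs_of_nonneg (by linarith : (0 : ℝ) ≤ 1 - (σ : ℝ) / n)]
    have h1 : (1 - (σ : ℝ) / n) * ‖a.1 - b.1‖ ≤ η := by
      have := h.2 a ha b hb
      have h0 := norm_nonneg (a.1 - b.1)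
      nlinarith
    have h2 : |(τ : ℝ) - σ| ≤ 1 := by
      rw [abs_le]
      have e1 : (τ : ℝ) ≤ σ + 1 := by exact_mod_cast (by omega : τ ≤ σ + 1)
      have e2 : (σ : ℝ) ≤ τ + 1 := by exact_mod_cast (by omega : σ ≤ τ + 1)
      constructor <;> linarith
    have h3 : ‖b.1 - (eV k).1‖ ≤ 2 := by
      refine (norm_sub_le _ _).trans ?_
      have e1 := norm_le_of_L1 (h.1 b hb).1
      have e2 : ‖(eV k).1‖ = 1 := by simp [eV]
      linarith
    have h4 : |(τ : ℝ) - σ| / n * ‖b.1 - (eV k).1‖ ≤ 2 / n := by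
      rw [div_mul_eq_mul_div]
      apply div_le_div_of_nonneg_right _ hn'.le
      have := abs_nonneg ((τ : ℝ) - σ)
      have := norm_nonneg (b.1 - (eV k).1)
      nlinarith
    linarith

lemma Gd_M0 {v : V} (hv : v ∈ dbl M0) : Gd 1 0 [v] := by
  have h : Gd 1 0 [eV 0] := by
    refine ⟨fun a ha => ?_, fun a ha b hb => ?_⟩
    · rw [List.mem_singleton] at ha
      subst ha
      refine ⟨by simp [L1, eV], fun i hi => ?_⟩
      have : i ≠ 0 := by rintro rfl; simp at hi
      simp [eV, this]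
    · rw [List.mem_singleton] at ha hb
      subst ha; subst hb
      simp
  unfold dbl M0 at hv
  simp only [List.map_cons, List.map_nil, List.cons_append, List.nil_append, List.mem_cons,
    List.not_mem_nil, or_false] at hv
  rcases hv with rfl | rfl
  · exact h
  · exact h.neg

lemma Gd_M1 {n : ℕ} (hn : 0 < n) {r : V × V} (hr : r ∈ M1 n) : Gd 2 (0 + 2 / n) (vs1 r) := by
  unfold M1 Q1 at hr
  simp only [List.mem_flatMap, List.mem_range, List.mem_singleton] at hr
  obtain ⟨s, hs, v, hv, rfl⟩ := hr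
  refine Gd_step (k := 1) hn hs (Gd_M0 hv) ?_
  intro x hx
  simp only [vs1, List.mem_cons, List.not_mem_nil, or_false] at hx
  exact ⟨v, by simp, hx⟩

lemma Gd_dM1 {n : ℕ} (hn : 0 < n) {r : V × V} (hr : r ∈ dbl (M1 n)) :
    Gd 2 (0 + 2 / n) (vs1 r) := by
  unfold dbl at hr
  rw [List.mem_append, List.mem_map] at hr
  rcases hr with hr | ⟨t, ht, rfl⟩
  · exact Gd_M1 hn hr
  · exact (Gd_M1 hn ht).neg

lemma Gd_M2 {n : ℕ} (hn : 0 < n) {r : V × V × V} (hr : r ∈ M2 n) :
    Gd 3 (0 + 2 / n + 2 / n) (vs2 r) := by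
  unfold M2 Q2 at hr
  simp only [List.mem_flatMap, List.mem_range] at hr
  obtain ⟨s, hs, v, hv, hr⟩ := hr
  refine Gd_step (k := 2) hn hs (Gd_dM1 hn hv) ?_
  intro x hx
  simp only [List.mem_cons, List.not_mem_nil, or_false] at hr
  rcases hr with rfl | rfl <;>
    simp only [vs2, List.mem_cons, List.not_mem_nil, or_false] at hx <;>
    rcases hx with rfl | rfl | rfl <;>
    simp [vs1]

lemma Gd_dM2 {n : ℕ} (hn : 0 < n) {r : V × V × V} (hr : r ∈ dbl (M2 n)) :
    Gd 3 (0 + 2 / n + 2 / n) (vs2 r) := by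
  unfold dbl at hr
  rw [List.mem_append, List.mem_map] at hr
  rcases hr with hr | ⟨t, ht, rfl⟩
  · exact Gd_M2 hn hr
  · exact (Gd_M2 hn ht).neg

lemma Gd_M3 {n : ℕ} (hn : 0 < n) {r : V × V × V × V} (hr : r ∈ M3 n) :
    Gd 4 (0 + 2 / n + 2 / n + 2 / n) (vs3 r) := by
  unfold M3 Q3 at hr
  simp only [List.mem_flatMap, List.mem_range] at hr
  obtain ⟨s, hs, v, hv, hr⟩ := hr
  refine Gd_step (k := 3) hn hs (Gd_dM2 hn hv) ?_
  intro x hx
  simp only [List.mem_cons, List.not_mem_nil, or_false] at hr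
  rcases hr with rfl | rfl | rfl <;>
    simp only [vs3, List.mem_cons, List.not_mem_nil, or_false] at hx <;>
    rcases hx with rfl | rfl | rfl | rfl <;>
    simp [vs2]

end Exist

theorem exist : S_exist := by
  intro δ hδ
  obtain ⟨n, hn⟩ := exists_nat_gt (6 / δ)
  have h0 : (0 : ℝ) < n := lt_trans (by positivity) hn
  have hn0 : 0 < n := by exact_mod_cast h0
  refine ⟨Exist.M3 n, Exist.cyc3 hn0, fun b b' b'' => Exist.J_M3 hn0 b b' b'', fun r hr => ?_⟩
  refine (Exist.Gd_M3 hn0 hr).Sm ?_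
  have h1 : 6 / (n : ℝ) < δ := by
    rw [div_lt_iff₀ h0]
    rw [div_lt_iff₀ hδ] at hn
    linarith
  have h2 : (0 : ℝ) + 2 / n + 2 / n + 2 / n = 6 / n := by ring
  rw [h2]
  exact h1.le

end Crest.Agent.BK
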