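import Crest.Agent.BK.Spec

/-!
Row 50 (S0069), chunk FACTC.  The transport lemmas `Sep2.comp`, `z_comp`, `z1_comp` and the
relabelling `exists_relabel` are reusable.
-/

set_option autoImplicit false

namespace Crest.Agent.BK

open scoped RealInnerProductSpace

/-! ### transport along a relabelling -/

lemma Sep2.comp {X : List (V × V × V)} {c : V → Fin 10} (hs : Sep2 X c) {J : Finset (Fin 10)}
    (hJ : ∀ r ∈ X, ∀ v ∈ vs2 r, c v ∈ J) {φ : Fin 10 → Fin 6} (hφ : Set.InjOn φ J) :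
    Sep2 X (fun v => φ (c v)) := by
  intro σ hσ τ hτ a ha b hb b' hb' hom x hx y hy h
  exact hs σ hσ τ hτ a ha b hb b' hb' hom x hx y hy
    (hφ (hJ σ hσ x hx) (hJ τ hτ y hy) h)

lemma lab2_comp (c : V → Fin 10) (φ : Fin 10 → Fin 6) (r : V × V × V) :
    lab2 (fun v => φ (c v)) r = (lab2 c r).image φ := by
  simp [lab2, Finset.image_insert]

lemma lab1_comp (c : V → Fin 10) (φ : Fin 10 → Fin 6) (r : V × V) :
    lab1 (fun v => φ (c v)) r = (lab1 c r).image φ := by
  simp [lab1, Finset.image_insert]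

lemma image_inj_of_injOn {J K L : Finset (Fin 10)} {φ : Fin 10 → Fin 6} (hφ : Set.InjOn φ J)
    (hK : K ⊆ J) (hL : L ⊆ J) : K.image φ = L.image φ ↔ K = L := by
  constructor
  · intro h
    ext x
    constructor
    · intro hx
      have : φ x ∈ L.image φ := by rw [← h]; exact Finset.mem_image_of_mem _ hx
      obtain ⟨y, hy, hxy⟩ := Finset.mem_image.mp this
      rwa [← hφ (hL hy) (hK hx) hxy]
    · intro hx
      have : φ x ∈ K.image φ := by rw [h]; exact Finset.mem_image_of_mem _ hx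
      obtain ⟨y, hy, hxy⟩ := Finset.mem_image.mp this
      rwa [← hφ (hK hy) (hL hx) hxy]
  · rintro rfl; rfl

lemma z_comp {X : List (V × V × V)} {c : V → Fin 10} {J : Finset (Fin 10)}
    (hJ : ∀ r ∈ X, ∀ v ∈ vs2 r, c v ∈ J) {φ : Fin 10 → Fin 6} (hφ : Set.InjOn φ J)
    {K : Finset (Fin 10)} (hK : K ⊆ J) :
    z X (fun v => φ (c v)) (K.image φ) = z X c K := by
  unfold z
  apply ev_congr
  intro r hr
  have hsub : lab2 c r ⊆ J := by
    intro x hx
    simp only [lab2, Finset.mem_insert, Finset.mem_singleton] at hx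
    rcases hx with rfl | rfl | rfl
    · exact hJ r hr _ (by simp [vs2])
    · exact hJ r hr _ (by simp [vs2])
    · exact hJ r hr _ (by simp [vs2])
  simp only [lab2_comp, image_inj_of_injOn hφ hsub hK]

lemma z1_comp {Y : List (V × V)} {c : V → Fin 10} {J : Finset (Fin 10)}
    (hJ : ∀ r ∈ Y, ∀ v ∈ vs1 r, c v ∈ J) {φ : Fin 10 → Fin 6} (hφ : Set.InjOn φ J)
    {e : Finset (Fin 10)} (he : e ⊆ J) :
    z1 Y (fun v => φ (c v)) (e.image φ) = z1 Y c e := by
  unfold z1
  apply ev_congr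
  intro r hr
  have hsub : lab1 c r ⊆ J := by
    intro x hx
    simp only [lab1, Finset.mem_insert, Finset.mem_singleton] at hx
    rcases hx with rfl | rfl
    · exact hJ r hr _ (by simp [vs1])
    · exact hJ r hr _ (by simp [vs1])
  simp only [lab1_comp, image_inj_of_injOn hφ hsub he]

/-- A relabelling `Fin 10 → Fin 6`, injective on `K ∪ K'`, with `K ↦ {0,2,4}`, `K' ↦ {1,3,5}`. -/
lemma exists_relabel (K K' : Finset (Fin 10)) (hK : K.card = 3) (hK' : K'.card = 3)
    (hd : Disjoint K K') : ∃ φ : Fin 10 → Fin 6, Set.InjOn φ (K ∪ K' : Finset (Fin 10)) ∧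
      K.image φ = {0, 2, 4} ∧ K'.image φ = {1, 3, 5} := by
  have e1 : K ≃ ({0, 2, 4} : Finset (Fin 6)) := Finset.equivOfCardEq (by rw [hK]; rfl)
  have e2 : K' ≃ ({1, 3, 5} : Finset (Fin 6)) := Finset.equivOfCardEq (by rw [hK']; rfl)
  let φ : Fin 10 → Fin 6 := fun x =>
    if h : x ∈ K then (e1 ⟨x, h⟩).1 else if h' : x ∈ K' then (e2 ⟨x, h'⟩).1 else 0
  have hφ1 : ∀ x (h : x ∈ K), φ x = (e1 ⟨x, h⟩).1 := fun x h => by simp [φ, h]
  have hφ2 : ∀ x (h : x ∈ K'), φ x = (e2 ⟨x, h⟩).1 := fun x h => by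
    have h' : x ∉ K := fun hx => (Finset.disjoint_left.mp hd hx) h
    simp [φ, h, h']
  have hdis : ∀ a ∈ ({0, 2, 4} : Finset (Fin 6)), a ∉ ({1, 3, 5} : Finset (Fin 6)) := by decide
  have hinj : Set.InjOn φ (K ∪ K' : Finset (Fin 10)) := by
    intro x hx y hy hxy
    rw [Finset.mem_coe, Finset.mem_union] at hx hy
    rcases hx with hx | hx <;> rcases hy with hy | hy
    · rw [hφ1 x hx, hφ1 y hy] at hxy
      have := e1.injective (Subtype.ext hxy)
      exact congrArg Subtype.val this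
    · rw [hφ1 x hx, hφ2 y hy] at hxy
      exfalso
      apply hdis _ (e1 ⟨x, hx⟩).2
      rw [hxy]
      exact (e2 ⟨y, hy⟩).2
    · rw [hφ2 x hx, hφ1 y hy] at hxy
      exfalso
      apply hdis _ (e1 ⟨y, hy⟩).2
      rw [← hxy]
      exact (e2 ⟨x, hx⟩).2
    · rw [hφ2 x hx, hφ2 y hy] at hxy
      have := e2.injective (Subtype.ext hxy)
      exact congrArg Subtype.val this
  refine ⟨φ, hinj, ?_, ?_⟩
  · apply Finset.eq_of_subset_of_card_le
    · intro a ha
      obtain ⟨x, hx, rfl⟩ := Finset.mem_image.mp ha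
      rw [hφ1 x hx]
      exact (e1 ⟨x, hx⟩).2
    · rw [Finset.card_image_of_injOn (hinj.mono (by
        intro x hx; rw [Finset.mem_coe] at hx ⊢; exact Finset.mem_union_left _ hx)), hK]
      rfl
  · apply Finset.eq_of_subset_of_card_le
    · intro a ha
      obtain ⟨x, hx, rfl⟩ := Finset.mem_image.mp ha
      rw [hφ2 x hx]
      exact (e2 ⟨x, hx⟩).2
    · rw [Finset.card_image_of_injOn (hinj.mono (by
        intro x hx; rw [Finset.mem_coe] at hx ⊢; exact Finset.mem_union_right _ hx)), hK']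
      rfl

/-- `z = 1` for a slice implies `R`. -/
lemma R_of_z {X : List (V × V × V × V)} {c : V → Fin 10} {b : V} {K : Finset (Fin 10)}
    (h : z (D3 b X) c K = 1) : R X c K := by
  obtain ⟨r, hr, h1⟩ := exists_of_ev_eq_one h
  obtain ⟨s, hs, -, rfl⟩ := mem_D3 hr
  have h2 : lab2 c s.2 = K := by
    by_contra hne
    rw [if_neg hne] at h1
    exact absurd h1 (by decide)
  refine ⟨s, hs, ?_⟩
  rw [← h2]
  intro x hx
  simp only [lab2, lab3, Finset.mem_insert, Finset.mem_singleton] at hx ⊢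
  tauto

theorem factC (hs : S_slice) (h3 : S_T3) (hF : S_factF) : S_factC := by
  intro δ ε X c hdat ρ hρ hcard K hK hKd
  obtain ⟨hCyc, hJ2, hNear, hlab, hsep⟩ := hs δ ε X c hdat ρ hρ
  set K' : Finset (Fin 10) := (lab3 c ρ)ᶜ \ K with hK'def
  have hKJ : K ⊆ (lab3 c ρ)ᶜ := by
    intro x hx
    rw [Finset.mem_compl]
    exact Finset.disjoint_left.mp hKd hx
  have hJcard : ((lab3 c ρ)ᶜ).card = 6 := by
    rw [Finset.card_compl, hcard]; rfl
  have hK' : K'.card = 3 := by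
    rw [hK'def, Finset.card_sdiff_of_subset hKJ, hJcard, hK]
  have hdis : Disjoint K K' := Finset.disjoint_sdiff
  have hunion : K ∪ K' = (lab3 c ρ)ᶜ := by
    rw [hK'def, Finset.union_sdiff_of_subset hKJ]
  obtain ⟨φ, hφ, hφK, hφK'⟩ := exists_relabel K K' hK hK' hdis
  rw [hunion] at hφ
  have hlab' : ∀ r ∈ D3 ρ.1 X, ∀ v ∈ vs2 r, c v ∈ (lab3 c ρ)ᶜ := by
    intro r hr v hv
    rw [Finset.mem_compl]
    exact hlab r hr v hv
  have hz := h3 δ ρ.1 (D3 ρ.1 X) (fun v => φ (c v)) hdat.hδ hdat.hδ' hCyc hJ2 hNear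
    (fun v => by simp only [hdat.even]) (hsep.comp hlab' hφ)
  rw [← hφK, ← hφK', z_comp hlab' hφ hKJ, z_comp hlab' hφ (by rw [hK'def]; exact Finset.sdiff_subset)]
    at hz
  have hnot : ¬ (R X c K ∧ R X c K') := by
    rintro ⟨⟨r, hr, hr'⟩, ⟨s, hs, hs'⟩⟩
    apply hF δ ε X c hdat ρ hρ r hr s hs
    rw [Finset.eq_univ_iff_forall]
    intro x
    by_cases hx : x ∈ lab3 c ρ
    · simp [hx]
    · have : x ∈ K ∪ K' := by rw [hunion, Finset.mem_compl]; exact hx
      rw [Finset.mem_union] at this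
      rcases this with h | h
      · simp [hr' h]
      · simp [hs' h]
  rcases zmod2_cases (z (D3 ρ.1 X) c K) with h0 | h1
  · rw [h0, zero_add] at hz
    have hRK' := R_of_z hz
    have hRK : ¬ R X c K := fun h => hnot ⟨h, hRK'⟩
    constructor
    · constructor
      · intro h; exact R_of_z h
      · intro h; exact absurd h hRK
    · constructor
      · intro h; exact absurd h hRK
      · intro h; exact absurd hRK' h
  · have hRK := R_of_z h1
    have hRK' : ¬ R X c K' := fun h => hnot ⟨hRK, h⟩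
    exact ⟨⟨fun _ => hRK, fun _ => h1⟩, ⟨fun _ => hRK', fun _ => hRK⟩⟩

end Crest.Agent.BK
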