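import Crest.Agent.BK.Spec

/-!
Row 50 (S0069), chunks SLICE, FACTF, FACTB.
-/

set_option autoImplicit false

namespace Crest.Agent.BK

open scoped RealInnerProductSpace

namespace Facts1

variable {δ ε : ℝ} {X : List (V × V × V × V)} {c : V → Fin 10}

/-- If `a^⊥` separates two vertices of the small simplex `r`, then every vertex of `r` is nearly
orthogonal to `a`. -/
lemma near_single (H : Dat δ ε X c) {a : V} {r : V × V × V × V} (hr : r ∈ X) {b b' : V}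
    (hb : b ∈ vs3 r) (hb' : b' ∈ vs3 r) (h : om a b b' = 1) {y : V} (hy : y ∈ vs3 r) :
    |⟪a.1, y.1⟫| ≤ 2 * δ * ‖a.1‖ := by
  have h1 : |⟪a.1, b.1⟫| ≤ ‖a.1‖ * ‖b.1 - b'.1‖ := om_near h
  have h2 : ‖b.1 - b'.1‖ ≤ δ := (H.small r hr).2 b hb b' hb'
  have h3 : ‖y.1 - b.1‖ ≤ δ := (H.small r hr).2 y hy b hb
  have h4 : |⟪a.1, y.1 - b.1⟫| ≤ ‖a.1‖ * ‖y.1 - b.1‖ := abs_real_inner_le_norm _ _
  have h5 : ⟪a.1, y.1⟫ = ⟪a.1, b.1⟫ + ⟪a.1, y.1 - b.1⟫ := by rw [inner_sub_right]; ring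
  have h0 : 0 ≤ ‖a.1‖ := norm_nonneg _
  have h6 : ‖a.1‖ * ‖b.1 - b'.1‖ ≤ ‖a.1‖ * δ := mul_le_mul_of_nonneg_left h2 h0
  have h7 : ‖a.1‖ * ‖y.1 - b.1‖ ≤ ‖a.1‖ * δ := mul_le_mul_of_nonneg_left h3 h0
  rw [h5]
  refine le_trans (abs_add_le _ _) ?_
  nlinarith

lemma ne_single (H : Dat δ ε X c) {a : V} {r : V × V × V × V} (hr : r ∈ X) {b b' : V}
    (hb : b ∈ vs3 r) (hb' : b' ∈ vs3 r) (h : om a b b' = 1) {y : V} (hy : y ∈ vs3 r) :
    c a ≠ c y := by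
  intro hc
  have h1 := near_single H hr hb hb' h hy
  have h2 := H.sep a y hc
  have h3 : 1 / 2 ≤ ‖y.1‖ := ((H.small r hr).1 y hy).1
  have h4 : 0 < ‖a.1‖ := norm_pos_iff.mpr a.2
  have h5 := H.hδ
  have h6 := H.hε
  have h7 : 0 < ε := by linarith
  have h8 : ε * ‖a.1‖ * (1 / 2) ≤ ε * ‖a.1‖ * ‖y.1‖ :=
    mul_le_mul_of_nonneg_left h3 (by positivity)
  have h9 : ε * ‖a.1‖ * (1 / 2) ≤ 2 * δ * ‖a.1‖ := by linarith
  have h10 : (ε * (1 / 2)) * ‖a.1‖ ≤ (2 * δ) * ‖a.1‖ := by linarith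
  have h11 := le_of_mul_le_mul_right h10 h4
  linarith

lemma ne_pair (H : Dat δ ε X c) {s r : V × V × V × V} (hs : s ∈ X) (hr : r ∈ X) {a b b' : V}
    (ha : a ∈ vs3 s) (hb : b ∈ vs3 r) (hb' : b' ∈ vs3 r) (h : om a b b' = 1) {x y : V}
    (hx : x ∈ vs3 s) (hy : y ∈ vs3 r) : c x ≠ c y := by
  intro hc
  have h1 := near_single H hr hb hb' h hy
  have ha1 : ‖a.1‖ ≤ 1 := ((H.small s hs).1 a ha).2
  have hx1 : 1 / 2 ≤ ‖x.1‖ := ((H.small s hs).1 x hx).1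
  have hy1 : 1 / 2 ≤ ‖y.1‖ := ((H.small r hr).1 y hy).1
  have hy2 : ‖y.1‖ ≤ 1 := ((H.small r hr).1 y hy).2
  have h2 := H.sep x y hc
  have h3 : ‖x.1 - a.1‖ ≤ δ := (H.small s hs).2 x hx a ha
  have h4 : |⟪x.1 - a.1, y.1⟫| ≤ ‖x.1 - a.1‖ * ‖y.1‖ := abs_real_inner_le_norm _ _
  have h5 : ⟪x.1, y.1⟫ = ⟪a.1, y.1⟫ + ⟪x.1 - a.1, y.1⟫ := by rw [inner_sub_left]; ring
  have hδ := H.hδ
  have hε := H.hε
  have h6 : |⟪x.1, y.1⟫| ≤ 3 * δ := by
    rw [h5]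
    refine le_trans (abs_add_le _ _) ?_
    have h7 : ‖x.1 - a.1‖ * ‖y.1‖ ≤ δ * 1 :=
      mul_le_mul h3 hy2 (norm_nonneg _) hδ.le
    have h8 : 2 * δ * ‖a.1‖ ≤ 2 * δ * 1 := mul_le_mul_of_nonneg_left ha1 (by linarith)
    linarith
  have h9 : (1 / 2) * (1 / 2) ≤ ‖x.1‖ * ‖y.1‖ :=
    mul_le_mul hx1 hy1 (by norm_num) (norm_nonneg _)
  have h10 : ε * ((1 / 2) * (1 / 2)) ≤ ε * (‖x.1‖ * ‖y.1‖) :=
    mul_le_mul_of_nonneg_left h9 (by linarith)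
  have h11 : ε * ‖x.1‖ * ‖y.1‖ = ε * (‖x.1‖ * ‖y.1‖) := by ring
  rw [h11] at h2
  linarith

lemma vs2_sub (r : V × V × V × V) {v : V} (h : v ∈ vs2 r.2) : v ∈ vs3 r := by
  simp only [vs2, vs3, List.mem_cons, List.not_mem_nil, or_false] at h ⊢
  tauto

lemma mem_lab3 {r : V × V × V × V} {l : Fin 10} (h : l ∈ lab3 c r) : ∃ v ∈ vs3 r, c v = l := by
  simp only [lab3, Finset.mem_insert, Finset.mem_singleton] at h
  rcases h with h | h | h | h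
  · exact ⟨r.1, by simp [vs3], h.symm⟩
  · exact ⟨r.2.1, by simp [vs3], h.symm⟩
  · exact ⟨r.2.2.1, by simp [vs3], h.symm⟩
  · exact ⟨r.2.2.2, by simp [vs3], h.symm⟩

end Facts1

open Facts1

theorem slice : S_slice := by
  intro δ ε X c H ρ hρ
  refine ⟨H.cyc.D3 _, H.j.D3 _, ⟨(H.small ρ hρ).1 ρ.1 (by simp [vs3]), ?_⟩, ?_, ?_⟩
  · intro r hr
    obtain ⟨r', hr', hom, rfl⟩ := mem_D3 hr
    refine ⟨⟨fun a ha => (H.small r' hr').1 a (vs2_sub r' ha),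
      fun a ha b hb => (H.small r' hr').2 a (vs2_sub r' ha) b (vs2_sub r' hb)⟩, ?_⟩
    intro v hv
    have h1 := near_single H hr' (b := r'.1) (b' := r'.2.1) (by simp [vs3]) (by simp [vs3]) hom
      (vs2_sub r' hv)
    have h2 : ‖ρ.1.1‖ ≤ 1 := ((H.small ρ hρ).1 ρ.1 (by simp [vs3])).2
    have hδ := H.hδ
    have h8 : 2 * δ * ‖ρ.1.1‖ ≤ 2 * δ * 1 := mul_le_mul_of_nonneg_left h2 (by linarith)
    linarith
  · intro r hr v hv hmem
    obtain ⟨r', hr', hom, rfl⟩ := mem_D3 hr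
    obtain ⟨x, hx, hxc⟩ := mem_lab3 hmem
    exact ne_pair H hρ hr' (a := ρ.1) (by simp [vs3]) (by simp [vs3]) (by simp [vs3]) hom hx
      (vs2_sub r' hv) hxc
  · intro σ hσ τ hτ a ha b hb b' hb' hom x hx y hy
    obtain ⟨σ', hσ', -, rfl⟩ := mem_D3 hσ
    obtain ⟨τ', hτ', -, rfl⟩ := mem_D3 hτ
    exact ne_pair H hσ' hτ' (vs2_sub σ' ha) (vs2_sub τ' hb) (vs2_sub τ' hb') hom
      (vs2_sub σ' hx) (vs2_sub τ' hy)

theorem factF : S_factF := by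
  intro δ ε X c H r hr s hs t ht hun
  obtain ⟨η, hη, h⟩ := exists_of_ev_eq_one (H.j r.1 s.1 t.1)
  have h' : om r.1 η.1 η.2.1 = 1 ∧ om s.1 η.2.1 η.2.2.1 = 1 ∧ om t.1 η.2.2.1 η.2.2.2 = 1 := by
    revert h
    generalize om r.1 η.1 η.2.1 = x
    generalize om s.1 η.2.1 η.2.2.1 = y
    generalize om t.1 η.2.2.1 η.2.2.2 = z
    revert x y z; decide
  obtain ⟨h1, h2, h3⟩ := h'
  have hmem : c η.1 ∈ lab3 c r ∪ lab3 c s ∪ lab3 c t := by rw [hun]; exact Finset.mem_univ _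
  rw [Finset.mem_union, Finset.mem_union] at hmem
  rcases hmem with (hm | hm) | hm
  · obtain ⟨x, hx, hxc⟩ := mem_lab3 hm
    exact ne_pair H hr hη (a := r.1) (by simp [vs3]) (by simp [vs3]) (by simp [vs3]) h1 hx
      (by simp [vs3]) hxc
  · obtain ⟨x, hx, hxc⟩ := mem_lab3 hm
    exact ne_pair H hs hη (a := s.1) (by simp [vs3]) (by simp [vs3]) (by simp [vs3]) h2 hx
      (by simp [vs3]) hxc
  · obtain ⟨x, hx, hxc⟩ := mem_lab3 hm
    exact ne_pair H ht hη (a := t.1) (by simp [vs3]) (by simp [vs3]) (by simp [vs3]) h3 hx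
      (by simp [vs3]) hxc

theorem factB (h : S_fan3) : S_factB := by
  classical
  intro δ ε X c H
  -- a vector of each occurring label
  let U : Fin 10 → V → V := fun l v => if hl : ∃ u, c u = l then hl.choose else v
  have hU : ∀ v w, c (U (c v) w) = c v := by
    intro v w
    have hl : ∃ u, c u = c v := ⟨v, rfl⟩
    simp only [U, dif_pos hl]
    exact hl.choose_spec
  have hU2 : ∀ v w w', U (c v) w = U (c v) w' := by
    intro v w w'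
    have hl : ∃ u, c u = c v := ⟨v, rfl⟩
    simp only [U, dif_pos hl]
  obtain ⟨r, hr, hnd⟩ := h X c (fun v => p (U (c v) v) v) H.cyc H.j H.even (by
    intro v
    show p (U (c (-v)) (-v)) (-v) = p (U (c v) v) v + 1
    rw [H.even v, hU2 v (-v) v, p_neg_right]) (by
    intro r hr a ha b hb hab
    show p (U (c a) a) a = p (U (c b) b) b
    rw [← hab, hU2 a b a]
    by_contra hne
    have hom : om (U (c a) a) a b = 1 := zmod2_add_eq_one.mpr hne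
    exact ne_single H hr ha hb hom ha (hU a a))
  refine ⟨lab3 c r, ?_, r, hr, subset_rfl⟩
  simp only [vs3, List.map_cons, List.map_nil, List.nodup_cons, List.mem_cons, List.not_mem_nil,
    or_false, not_or, not_false_eq_true, List.nodup_nil, and_true] at hnd
  obtain ⟨⟨h1, h2, h3⟩, ⟨h4, h5⟩, h6⟩ := hnd
  simp only [lab3]
  rw [Finset.card_insert_of_notMem, Finset.card_insert_of_notMem, Finset.card_insert_of_notMem,
    Finset.card_singleton]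
  · simpa using h6
  · simp only [Finset.mem_insert, Finset.mem_singleton, not_or]; exact ⟨h4, h5⟩
  · simp only [Finset.mem_insert, Finset.mem_singleton, not_or]; exact ⟨h1, h2, h3⟩

end Crest.Agent.BK
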