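import Crest.Agent.BK.Spec

/-!
Row 50 (S0069), chunks FACTD0, FACTD1, FACTE.
-/

set_option autoImplicit false
set_option linter.unusedSimpArgs false

namespace Crest.Agent.BK

open scoped RealInnerProductSpace

namespace Facts2

variable {α : Type} [DecidableEq α]

lemma pair_ne_of_card {a : α} {e : Finset α} (he : e.card = 2) : ({a, a} : Finset α) ≠ e := by
  intro h
  rw [← h] at he
  simp at he

lemma pair_eq_pair (a b x y : α) :
    (({a, b} : Finset α) = {x, y}) ↔ (a = x ∧ b = y) ∨ (a = y ∧ b = x) := by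
  rw [← Finset.coe_inj]
  push_cast
  exact Set.pair_eq_pair_iff

/-- two-dimensional face identity -/
lemma face2 (a b d : α) (e : Finset α) (he : e.card = 2) :
    ((if ({b, d} : Finset α) = e then 1 else 0) + (if ({a, d} : Finset α) = e then 1 else 0) +
      (if ({a, b} : Finset α) = e then 1 else 0) : ZMod 2) =
    if e ⊆ ({a, b, d} : Finset α) ∧ ({a, b, d} : Finset α).card = 3 then 1 else 0 := by
  have two : (1 + 1 : ZMod 2) = 0 := by decide
  by_cases hab : a = b
  · subst hab
    have h1 : ¬ (({a, a, d} : Finset α).card = 3) := by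
      have : ({a, a, d} : Finset α).card ≤ 2 := by
        rw [Finset.insert_idem]; exact Finset.card_le_two
      omega
    have hr : ¬ (e ⊆ ({a, a, d} : Finset α) ∧ ({a, a, d} : Finset α).card = 3) := fun h => h1 h.2
    rw [if_neg hr, if_neg (show ¬ (({a, a} : Finset α) = e) from pair_ne_of_card he), add_zero]
    split_ifs
    · exact two
    · simp
  by_cases had : a = d
  · subst had
    have h1 : ¬ (({a, b, a} : Finset α).card = 3) := by
      have : ({a, b, a} : Finset α).card ≤ 2 := by
        have e1 : ({a, b, a} : Finset α) = {a, b} := by ext t; simp; tauto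
        rw [e1]
        exact Finset.card_le_two
      omega
    have hr : ¬ (e ⊆ ({a, b, a} : Finset α) ∧ ({a, b, a} : Finset α).card = 3) := fun h => h1 h.2
    rw [if_neg hr, if_neg (show ¬ (({a, a} : Finset α) = e) from pair_ne_of_card he), add_zero,
      Finset.pair_comm b a]
    split_ifs
    · exact two
    · simp
  by_cases hbd : b = d
  · subst hbd
    have h1 : ¬ (({a, b, b} : Finset α).card = 3) := by
      have : ({a, b, b} : Finset α).card ≤ 2 := by
        simpa using (Finset.card_le_two : ({a, b} : Finset α).card ≤ 2)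
      omega
    have hr : ¬ (e ⊆ ({a, b, b} : Finset α) ∧ ({a, b, b} : Finset α).card = 3) := fun h => h1 h.2
    rw [if_neg hr, if_neg (show ¬ (({b, b} : Finset α) = e) from pair_ne_of_card he), zero_add]
    split_ifs
    · exact two
    · simp
  have h3 : ({a, b, d} : Finset α).card = 3 := by
    rw [Finset.card_eq_three]
    exact ⟨a, b, d, hab, had, hbd, rfl⟩
  simp only [h3, and_true]
  obtain ⟨x, y, hxy, rfl⟩ := Finset.card_eq_two.1 he
  simp only [pair_eq_pair, Finset.insert_subset_iff, Finset.singleton_subset_iff,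
    Finset.mem_insert, Finset.mem_singleton]
  rcases eq_or_ne x a with rfl | h1
  · rcases eq_or_ne y b with rfl | h2
    · simp [hab, had, hbd, Ne.symm hab, Ne.symm had, Ne.symm hbd]
    · rcases eq_or_ne y d with rfl | h4
      · simp [hab, had, hbd, Ne.symm hab, Ne.symm had, Ne.symm hbd]
      · simp [hab, had, hbd, hxy, hxy.symm, h2, h4, h2.symm, h4.symm, Ne.symm hab, Ne.symm had,
          Ne.symm hbd]
  · rcases eq_or_ne x b with rfl | h2
    · rcases eq_or_ne y a with rfl | h4
      · simp [hab, had, hbd, Ne.symm hab, Ne.symm had, Ne.symm hbd]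
      · rcases eq_or_ne y d with rfl | h5
        · simp [hab, had, hbd, Ne.symm hab, Ne.symm had, Ne.symm hbd]
        · simp [hab, had, hbd, hxy, hxy.symm, h4, h5, h4.symm, h5.symm, Ne.symm hab, Ne.symm had,
            Ne.symm hbd]
    · rcases eq_or_ne x d with rfl | h4
      · rcases eq_or_ne y a with rfl | h5
        · simp [hab, had, hbd, Ne.symm hab, Ne.symm had, Ne.symm hbd]
        · rcases eq_or_ne y b with rfl | h6
          · simp [hab, had, hbd, Ne.symm hab, Ne.symm had, Ne.symm hbd]
          · simp [hab, had, hbd, hxy, hxy.symm, h5, h6, h5.symm, h6.symm, Ne.symm hab, Ne.symm had,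
              Ne.symm hbd]
      · simp [h1, h2, h4, h1.symm, h2.symm, h4.symm]

/-- three-dimensional face identity -/
lemma face3 (a b c d : α) (L : Finset α) (hL : L.card = 3) (h : ({a, b, c, d} : Finset α) = L) :
    ((if ({b, c, d} : Finset α) = L then 1 else 0) + (if ({a, c, d} : Finset α) = L then 1 else 0) +
      (if ({a, b, d} : Finset α) = L then 1 else 0) +
      (if ({a, b, c} : Finset α) = L then 1 else 0) : ZMod 2) = 0 := by
  have two : (1 + 1 : ZMod 2) = 0 := by decide
  have key : ∀ x y : α, ({x, x, y} : Finset α) ≠ L ∧ ({x, y, x} : Finset α) ≠ L ∧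
      ({y, x, x} : Finset α) ≠ L := by
    intro x y
    have h2 : ({x, y} : Finset α).card ≤ 2 := Finset.card_le_two
    have e1 : ({x, x, y} : Finset α) = {x, y} := by ext t; simp
    have e2 : ({x, y, x} : Finset α) = {x, y} := by ext t; simp <;> tauto
    have e3 : ({y, x, x} : Finset α) = {x, y} := by ext t; simp <;> tauto
    refine ⟨?_, ?_, ?_⟩ <;> intro h3 <;> rw [← h3] at hL
    · rw [e1] at hL; omega
    · rw [e2] at hL; omega
    · rw [e3] at hL; omega
  by_cases hab : a = b
  · subst hab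
    have e : ({a, c, d} : Finset α) = L := by rw [← h]; ext t; simp
    rw [if_pos e, if_neg (key a d).1, if_neg (key a c).1]
    simpa using two
  by_cases hac : a = c
  · subst hac
    have e : ({a, b, d} : Finset α) = L := by rw [← h]; ext t; simp <;> tauto
    have e' : ({b, a, d} : Finset α) = L := by rw [← h]; ext t; simp <;> tauto
    rw [if_pos e, if_pos e', if_neg (key a d).1, if_neg (key a b).2.1]
    simpa using two
  by_cases had : a = d
  · subst had
    have e : ({a, b, c} : Finset α) = L := by rw [← h]; ext t; simp <;> tauto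
    have e' : ({b, c, a} : Finset α) = L := by rw [← h]; ext t; simp <;> tauto
    rw [if_pos e, if_pos e', if_neg (key a c).2.1, if_neg (key a b).2.1]
    simpa using two
  by_cases hbc : b = c
  · subst hbc
    have e : ({a, b, d} : Finset α) = L := by rw [← h]; ext t; simp
    rw [if_pos e, if_neg (key b d).1, if_neg (key b a).2.2]
    simpa using two
  by_cases hbd : b = d
  · subst hbd
    have e : ({a, b, c} : Finset α) = L := by rw [← h]; ext t; simp <;> tauto
    have e' : ({a, c, b} : Finset α) = L := by rw [← h]; ext t; simp <;> tauto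
    rw [if_pos e, if_pos e', if_neg (key b c).2.1, if_neg (key b a).2.2]
    simpa using two
  by_cases hcd : c = d
  · subst hcd
    have e : ({a, b, c} : Finset α) = L := by rw [← h]; ext t; simp
    rw [if_pos e, if_neg (key c b).2.2, if_neg (key c a).2.2]
    simpa using two
  exfalso
  have h4 : ({a, b, c, d} : Finset α).card = 4 := by
    rw [Finset.card_insert_of_notMem (by simp [hab, hac, had]),
      Finset.card_insert_of_notMem (by simp [hbc, hbd]), Finset.card_pair hcd]
  rw [h, hL] at h4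
  omega

lemma ev_sum {β : Type} {ι : Type} (X : List β) (s : Finset ι) (g : ι → β → ZMod 2) :
    ∑ i ∈ s, ev X (g i) = ev X (fun x => ∑ i ∈ s, g i x) := by
  classical
  induction s using Finset.induction_on with
  | empty => simp [ev_zero]
  | insert a s ha ih =>
    rw [Finset.sum_insert ha, ih, ← ev_add]
    apply ev_congr
    intro x _
    rw [Finset.sum_insert ha]

/-- the sum over the third label -/
lemma sum_third (A T e : Finset (Fin 10)) (he : e.card = 2) (hA : Disjoint A T) :
    (∑ s ∈ (T ∪ e)ᶜ, (if A = insert s e then 1 else 0 : ZMod 2)) =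
      if e ⊆ A ∧ A.card = 3 then 1 else 0 := by
  by_cases h : e ⊆ A ∧ A.card = 3
  · rw [if_pos h]
    have h1 : (A \ e).card = 1 := by
      rw [Finset.card_sdiff_of_subset h.1, h.2, he]
    obtain ⟨s0, hs0⟩ := Finset.card_eq_one.1 h1
    have hs0A : s0 ∈ A \ e := by rw [hs0]; simp
    have hAe : A = insert s0 e := by
      rw [← Finset.sdiff_union_of_subset h.1, hs0]
      rfl
    have hmem : s0 ∈ (T ∪ e)ᶜ := by
      rw [Finset.mem_compl, Finset.mem_union, not_or]
      exact ⟨fun ht => Finset.disjoint_left.1 hA (Finset.mem_sdiff.1 hs0A).1 ht,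
        (Finset.mem_sdiff.1 hs0A).2⟩
    rw [Finset.sum_eq_single_of_mem s0 hmem]
    · rw [if_pos hAe]
    · intro s hs hne
      rw [if_neg]
      intro hcon
      apply hne
      have hs' : s ∉ e := by
        rw [Finset.mem_compl, Finset.mem_union, not_or] at hs
        exact hs.2
      have : s ∈ A \ e := by
        rw [Finset.mem_sdiff]
        exact ⟨by rw [hcon]; simp, hs'⟩
      rw [hs0] at this
      simpa using this
  · rw [if_neg h]
    apply Finset.sum_eq_zero
    intro s hs
    rw [if_neg]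
    intro hcon
    apply h
    rw [Finset.mem_compl, Finset.mem_union, not_or] at hs
    refine ⟨by rw [hcon]; exact Finset.subset_insert _ _, ?_⟩
    rw [hcon, Finset.card_insert_of_notMem hs.2, he]

/-- the coboundary of the indicator of an edge label set -/
lemma d2_ind (c : V → Fin 10) (e : Finset (Fin 10)) (he : e.card = 2) (r : V × V × V) :
    d2 (fun f => if lab1 c f = e then 1 else 0) r =
      if e ⊆ lab2 c r ∧ (lab2 c r).card = 3 then 1 else 0 :=
  face2 (c r.1) (c r.2.1) (c r.2.2) e he

lemma inv_ind1 (c : V → Fin 10) (hc : ∀ v, c (-v) = c v) (e : Finset (Fin 10)) :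
    Inv (fun f : V × V => if lab1 c f = e then (1 : ZMod 2) else 0) := by
  intro t
  have : lab1 c (-t) = lab1 c t := by
    unfold lab1
    rw [Prod.fst_neg, Prod.snd_neg, hc, hc]
  show (if lab1 c (-t) = e then (1 : ZMod 2) else 0) = _
  rw [this]

lemma inv_ind2 (c : V → Fin 10) (hc : ∀ v, c (-v) = c v) (e : Finset (Fin 10)) :
    Inv (fun f : V × V × V => if lab2 c f = e then (1 : ZMod 2) else 0) := by
  intro t
  have : lab2 c (-t) = lab2 c t := by
    unfold lab2
    rw [Prod.fst_neg, Prod.snd_neg, Prod.fst_neg, Prod.snd_neg, hc, hc, hc]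
  show (if lab2 c (-t) = e then (1 : ZMod 2) else 0) = _
  rw [this]

lemma lab2_sub_lab3 (c : V → Fin 10) (r : V × V × V × V) : lab2 c r.2 ⊆ lab3 c r := by
  unfold lab2 lab3
  exact Finset.subset_insert _ _

end Facts2

open Facts2

/-- Chunk FACTD0. -/
theorem factD0 (hs : S_slice) : S_factD0 := by
  intro δ ε X c hD ρ hρ hcard e he hde
  obtain ⟨hcyc, -, -, hlab, -⟩ := hs δ ε X c hD ρ hρ
  have h0 := hcyc (fun f => if lab1 c f = e then 1 else 0) (inv_ind1 c hD.even e)
  unfold z
  rw [ev_sum]
  refine Eq.trans ?_ h0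
  apply ev_congr
  intro r hr
  rw [d2_ind c e he r]
  apply sum_third _ _ _ he
  rw [Finset.disjoint_left]
  intro t ht
  unfold lab2 at ht
  simp only [Finset.mem_insert, Finset.mem_singleton] at ht
  rcases ht with rfl | rfl | rfl
  · exact hlab r hr _ (by simp [vs2])
  · exact hlab r hr _ (by simp [vs2])
  · exact hlab r hr _ (by simp [vs2])

/-- Chunk FACTD1. -/
theorem factD1 (hs : S_slice) (hC : S_factC) (hT : S_T2X) : S_factD1 := by
  intro δ ε X c hD ρ hρ hcard e he hde
  obtain ⟨hcyc, hJ2, hnear, hlab, hsep⟩ := hs δ ε X c hD ρ hρ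
  by_contra hno
  push Not at hno
  set X2 := D3 ρ.1 X with hX2
  set J : Finset (Fin 10) := (lab3 c ρ)ᶜ with hJ
  have hJcard : J.card = 6 := by
    rw [hJ, Finset.card_compl, hcard]; rfl
  have heJ : e ⊆ J := by
    intro t ht
    rw [hJ, Finset.mem_compl]
    exact Finset.disjoint_left.1 hde ht
  have hJe : (J \ e).card = 4 := by
    rw [Finset.card_sdiff_of_subset heJ, hJcard, he]
  -- choose `K ⊆ J \ e` with three elements
  obtain ⟨K, hKsub, hK3⟩ := Finset.exists_subset_card_eq (s := J \ e) (n := 3) (by omega)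
  have hKJ : K ⊆ J := hKsub.trans Finset.sdiff_subset
  have hKe : Disjoint K e := by
    rw [Finset.disjoint_left]
    intro t ht
    exact (Finset.mem_sdiff.1 (hKsub ht)).2
  have hKρ : Disjoint K (lab3 c ρ) := by
    rw [Finset.disjoint_left]
    intro t ht
    have := hKJ ht
    rwa [hJ, Finset.mem_compl] at this
  obtain ⟨hz, hR⟩ := hC δ ε X c hD ρ hρ hcard K hK3 hKρ
  have hRK : R X c K := by
    rw [hR]
    have h1 : ((J \ e) \ K).card = 1 := by
      rw [Finset.card_sdiff_of_subset hKsub, hJe, hK3]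
    obtain ⟨s0, hs0⟩ := Finset.card_eq_one.1 h1
    have hs0m : s0 ∈ (J \ e) \ K := by rw [hs0]; simp
    rw [Finset.mem_sdiff, Finset.mem_sdiff] at hs0m
    have h2 : J \ K = insert s0 e := by
      ext t
      rw [Finset.mem_sdiff, Finset.mem_insert]
      constructor
      · rintro ⟨h3, h4⟩
        by_cases h5 : t ∈ e
        · exact Or.inr h5
        · left
          have : t ∈ (J \ e) \ K := by
            rw [Finset.mem_sdiff, Finset.mem_sdiff]; exact ⟨⟨h3, h5⟩, h4⟩
          rw [hs0] at this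
          simpa using this
      · rintro (rfl | h3)
        · exact ⟨hs0m.1.1, hs0m.2⟩
        · exact ⟨heJ h3, fun h4 => Finset.disjoint_left.1 hKe h4 h3⟩
    rw [h2]
    apply hno
    rw [Finset.mem_union, not_or]
    refine ⟨?_, hs0m.1.2⟩
    have := hs0m.1.1
    rwa [hJ, Finset.mem_compl] at this
  have hzK := hz.2 hRK
  obtain ⟨σ, hσ, hσK⟩ := exists_of_ev_eq_one hzK
  have hσlab : lab2 c σ = K := by
    by_contra hne
    rw [if_neg hne] at hσK
    exact absurd hσK (by decide)
  -- an injection of `J` into `Fin 6`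
  obtain ⟨φ, hφ⟩ : ∃ φ : Fin 10 → Fin 6, Set.InjOn φ (J : Set (Fin 10)) := by
    have e0 : J ≃ Fin 6 := Finset.equivFinOfCardEq hJcard
    refine ⟨fun t => if h : t ∈ J then e0 ⟨t, h⟩ else 0, ?_⟩
    intro a ha b hb hab
    have ha' : a ∈ J := ha
    have hb' : b ∈ J := hb
    simp only [ha', hb', dif_pos] at hab
    have := e0.injective hab
    exact congrArg Subtype.val this
  have hlabJ : ∀ r ∈ X2, ∀ v ∈ vs2 r, c v ∈ J := by
    intro r hr v hv
    rw [hJ, Finset.mem_compl]
    exact hlab r hr v hv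
  have hsep' : Sep2 X2 (fun v => φ (c v)) := by
    intro σ' hσ' τ hτ a ha b hb b' hb' ho x hx y hy hxy
    exact hsep σ' hσ' τ hτ a ha b hb b' hb' ho x hx y hy
      (hφ (hlabJ σ' hσ' x hx) (hlabJ τ hτ y hy) hxy)
  have hT2 := hT δ ρ.1 X2 (fun v => φ (c v)) hD.hδ hD.hδ' hcyc hJ2 hnear
    (fun v => by show φ (c (-v)) = φ (c v); rw [hD.even]) hsep'
  have im2 : ∀ r : V × V × V, lab2 (fun v => φ (c v)) r = (lab2 c r).image φ := by
    intro r; unfold lab2; simp [Finset.image_insert]
  have im1 : ∀ r : V × V, lab1 (fun v => φ (c v)) r = (lab1 c r).image φ := by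
    intro r; unfold lab1; simp [Finset.image_insert]
  have hKim : (lab2 (fun v => φ (c v)) σ).card = 3 := by
    rw [im2, hσlab, Finset.card_image_of_injOn (hφ.mono (by exact_mod_cast hKJ)), hK3]
  have heim : (e.image φ).card = 2 := by
    rw [Finset.card_image_of_injOn (hφ.mono (by exact_mod_cast heJ)), he]
  have hdisim : Disjoint (e.image φ) (lab2 (fun v => φ (c v)) σ) := by
    rw [im2, hσlab, Finset.disjoint_left]
    intro t ht ht'
    rw [Finset.mem_image] at ht ht'
    obtain ⟨x, hx, rfl⟩ := ht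
    obtain ⟨y, hy, hxy⟩ := ht'
    have : y = x := hφ (hKJ hy) (heJ hx) hxy
    rw [this] at hy
    exact Finset.disjoint_left.1 hKe hy hx
  have hz1 := hT2 σ hσ hKim (e.image φ) heim hdisim
  have hz1c : ev (D2 σ.1 X2) (fun f => if lab1 c f = e then 1 else 0) = 1 := by
    refine Eq.trans ?_ hz1
    unfold z1
    apply ev_congr
    intro f hf
    obtain ⟨r, hr, -, rfl⟩ := mem_D2 hf
    have hsub : lab1 c r.2 ⊆ J := by
      intro t ht
      unfold lab1 at ht
      simp only [Finset.mem_insert, Finset.mem_singleton] at ht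
      rcases ht with rfl | rfl
      · exact hlabJ r hr _ (by simp [vs2])
      · exact hlabJ r hr _ (by simp [vs2])
    have hiff : lab1 c r.2 = e ↔ lab1 (fun v => φ (c v)) r.2 = e.image φ := by
      rw [im1]
      constructor
      · intro h; rw [h]
      · intro h
        apply Finset.Subset.antisymm
        · intro t ht
          have h1 : φ t ∈ e.image φ := by rw [← h]; exact Finset.mem_image_of_mem φ ht
          obtain ⟨y, hy, hyt⟩ := Finset.mem_image.1 h1
          have : y = t := hφ (heJ hy) (hsub ht) hyt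
          rwa [← this]
        · intro t ht
          have h1 : φ t ∈ (lab1 c r.2).image φ := by rw [h]; exact Finset.mem_image_of_mem φ ht
          obtain ⟨y, hy, hyt⟩ := Finset.mem_image.1 h1
          have : y = t := hφ (hsub hy) (heJ ht) hyt
          rwa [← this]
    by_cases h : lab1 c r.2 = e
    · rw [if_pos h, if_pos (hiff.1 h)]
    · rw [if_neg h, if_neg (fun h' => h (hiff.2 h'))]
  obtain ⟨f, hf, hfe⟩ := exists_of_ev_eq_one hz1c
  have hflab : lab1 c f = e := by
    by_contra hne
    rw [if_neg hne] at hfe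
    exact absurd hfe (by decide)
  obtain ⟨σ0, hσ0, -, hσ0f⟩ := mem_D2 hf
  have hzero : ev (D2 f.1 X2) (fun f => if lab1 c f = e then 1 else 0) = 0 := by
    refine Eq.trans (ev_congr (h := fun _ => 0) ?_) (ev_zero (D2 f.1 X2))
    intro f' hf'
    obtain ⟨τ, hτ, hom, rfl⟩ := mem_D2 hf'
    refine if_neg ?_
    intro hcon
    have hmem : c f.1 ∈ lab1 c τ.2 := by
      rw [hcon, ← hflab]; unfold lab1; simp
    have hf1 : f.1 ∈ vs2 σ0 := by rw [← hσ0f]; simp [vs2]
    have hne := hsep σ0 hσ0 τ hτ f.1 hf1 τ.1 (by simp [vs2]) τ.2.1 (by simp [vs2]) hom f.1 hf1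
    unfold lab1 at hmem
    simp only [Finset.mem_insert, Finset.mem_singleton] at hmem
    rcases hmem with h | h
    · exact hne τ.2.1 (by simp [vs2]) h
    · exact hne τ.2.2 (by simp [vs2]) h
  have hh := homotopy2 hcyc σ.1 f.1 _ (inv_ind1 c hD.even e)
  rw [hz1c, hzero, add_zero] at hh
  obtain ⟨r, hr, hr1⟩ := exists_of_ev_eq_one hh.symm
  rw [d2_ind c e he r] at hr1
  have hcond : e ⊆ lab2 c r ∧ (lab2 c r).card = 3 := by
    by_contra hne
    rw [if_neg hne, mul_zero] at hr1
    exact absurd hr1 (by decide)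
  have h1 : (lab2 c r \ e).card = 1 := by
    rw [Finset.card_sdiff_of_subset hcond.1, hcond.2, he]
  obtain ⟨s0, hs0⟩ := Finset.card_eq_one.1 h1
  have hs0m : s0 ∈ lab2 c r \ e := by rw [hs0]; simp
  rw [Finset.mem_sdiff] at hs0m
  obtain ⟨r', hr', -, hrr⟩ := mem_D3 hr
  apply hno s0
  · rw [Finset.mem_union, not_or]
    refine ⟨?_, hs0m.2⟩
    have h2 := hs0m.1
    unfold lab2 at h2
    simp only [Finset.mem_insert, Finset.mem_singleton] at h2
    rcases h2 with h | h | h
    · rw [h]; exact hlab r hr _ (by simp [vs2])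
    · rw [h]; exact hlab r hr _ (by simp [vs2])
    · rw [h]; exact hlab r hr _ (by simp [vs2])
  · refine ⟨r', hr', ?_⟩
    rw [Finset.insert_subset_iff]
    have h3 : lab2 c r ⊆ lab3 c r' := by rw [← hrr]; exact lab2_sub_lab3 c r'
    exact ⟨h3 hs0m.1, hcond.1.trans h3⟩

/-- Chunk FACTE. -/
theorem factE (hs : S_slice) (hC : S_factC) : S_factE := by
  intro δ ε X c hD ρ hρ hcard L hL hLd hRL
  have hzL := (hC δ ε X c hD ρ hρ hcard L hL hLd).1.2 hRL
  obtain ⟨r0, hr0, hLr0⟩ := hRL
  have hne : L.Nonempty := by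
    rw [← Finset.card_pos, hL]; norm_num
  obtain ⟨ℓ, hℓ⟩ := hne
  obtain ⟨b', hb', hb'ℓ⟩ : ∃ b' ∈ vs3 r0, c b' = ℓ := by
    have := hLr0 hℓ
    unfold lab3 at this
    simp only [Finset.mem_insert, Finset.mem_singleton] at this
    rcases this with h | h | h | h
    · exact ⟨_, by simp [vs3], h.symm⟩
    · exact ⟨_, by simp [vs3], h.symm⟩
    · exact ⟨_, by simp [vs3], h.symm⟩
    · exact ⟨_, by simp [vs3], h.symm⟩
  have hδ := hD.hδ
  have hε := hD.hε
  have hfar : ∀ r ∈ X, om b' r.1 r.2.1 = 1 → ∀ v ∈ vs3 r, c v ≠ c b' := by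
    intro r hr ho v hv hcv
    have hbn := (hD.small r0 hr0).1 b' hb'
    have hvn := (hD.small r hr).1 v hv
    have h1n := (hD.small r hr).1 r.1 (by simp [vs3])
    have hd1 := (hD.small r hr).2 r.1 (by simp [vs3]) r.2.1 (by simp [vs3])
    have hd2 := (hD.small r hr).2 v hv r.1 (by simp [vs3])
    have a1 := om_near ho
    have a2 : |⟪b'.1, r.1.1⟫| ≤ 1 * δ :=
      a1.trans (mul_le_mul hbn.2 hd1 (norm_nonneg _) (by norm_num))
    have a3 : |⟪b'.1, v.1 - r.1.1⟫| ≤ 1 * δ :=
      (abs_real_inner_le_norm _ _).trans (mul_le_mul hbn.2 hd2 (norm_nonneg _) (by norm_num))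
    have a4 : |⟪b'.1, v.1⟫| ≤ 2 * δ := by
      have : ⟪b'.1, v.1⟫ = ⟪b'.1, r.1.1⟫ + ⟪b'.1, v.1 - r.1.1⟫ := by
        rw [← inner_add_right]; congr 1; abel
      rw [this]
      have := abs_add_le ⟪b'.1, r.1.1⟫ ⟪b'.1, v.1 - r.1.1⟫
      linarith
    have a5 := hD.sep b' v hcv.symm
    have hε0 : 0 < ε := by linarith
    have a6 : ε * (1 / 2) * (1 / 2) ≤ ε * ‖b'.1‖ * ‖v.1‖ := by
      apply mul_le_mul _ hvn.1 (by norm_num) (by positivity)
      exact mul_le_mul_of_nonneg_left hbn.1 hε0.le
    linarith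
  have hzero : ev (D3 b' X) (fun r => if lab2 c r = L then 1 else 0) = 0 := by
    refine Eq.trans (ev_congr (h := fun _ => 0) ?_) (ev_zero (D3 b' X))
    intro t ht
    obtain ⟨r, hr, hom, rfl⟩ := mem_D3 ht
    refine if_neg ?_
    intro hcon
    have hmem : c b' ∈ lab2 c r.2 := by rw [hcon, hb'ℓ]; exact hℓ
    unfold lab2 at hmem
    simp only [Finset.mem_insert, Finset.mem_singleton] at hmem
    rcases hmem with h | h | h
    · exact hfar r hr hom r.2.1 (by simp [vs3]) h.symm
    · exact hfar r hr hom r.2.2.1 (by simp [vs3]) h.symm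
    · exact hfar r hr hom r.2.2.2 (by simp [vs3]) h.symm
  have hh := homotopy3 hD.cyc ρ.1 b' _ (inv_ind2 c hD.even L)
  have hone : ev (D3 ρ.1 X) (fun r => if lab2 c r = L then 1 else 0) = 1 := hzL
  rw [hone, hzero, add_zero] at hh
  obtain ⟨r, hr, hr1⟩ := exists_of_ev_eq_one hh.symm
  have hd3 : d3 (fun f : V × V × V => if lab2 c f = L then (1 : ZMod 2) else 0) r ≠ 0 := by
    intro h0
    rw [h0, mul_zero] at hr1
    exact absurd hr1 (by decide)
  have hsub : L ⊆ lab3 c r := by
    by_contra hnot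
    apply hd3
    have k1 : lab2 c (r.2.1, r.2.2.1, r.2.2.2) ≠ L := by
      intro h; apply hnot; rw [← h]; unfold lab2 lab3; intro t; simp; tauto
    have k2 : lab2 c (r.1, r.2.2.1, r.2.2.2) ≠ L := by
      intro h; apply hnot; rw [← h]; unfold lab2 lab3; intro t; simp; tauto
    have k3 : lab2 c (r.1, r.2.1, r.2.2.2) ≠ L := by
      intro h; apply hnot; rw [← h]; unfold lab2 lab3; intro t; simp; tauto
    have k4 : lab2 c (r.1, r.2.1, r.2.2.1) ≠ L := by
      intro h; apply hnot; rw [← h]; unfold lab2 lab3; intro t; simp; tauto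
    simp only [d3]
    rw [if_neg k1, if_neg k2, if_neg k3, if_neg k4]
    simp
  by_cases heq : lab3 c r = L
  · exfalso
    apply hd3
    exact face3 (c r.1) (c r.2.1) (c r.2.2.1) (c r.2.2.2) L hL heq
  · have hss : L ⊂ lab3 c r := Finset.ssubset_iff_subset_ne.2 ⟨hsub, fun h => heq h.symm⟩
    obtain ⟨k, hk, hkL⟩ := Finset.exists_of_ssubset hss
    exact ⟨k, hkL, r, hr, Finset.insert_subset hk hsub⟩

end Crest.Agent.BK
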