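import Crest.Agent.BK.Spec

/-!
Row 50 (S0069), chunks FAN2 and FAN3: Ky Fan's lemma for projective mod-2 cycles.
-/

set_option autoImplicit false

namespace Crest.Agent.BK

open scoped RealInnerProductSpace

/-! ### alternation of signed labels -/

section alt
variable {n : ℕ}

/-- no complementary pair -/
def NC (x y : Fin n × ZMod 2) : Prop := x.1 = y.1 → x.2 = y.2

instance (x y : Fin n × ZMod 2) : Decidable (NC x y) := by unfold NC; infer_instance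

def fa1 (x y : Fin n × ZMod 2) : ZMod 2 :=
  if x.1 ≠ y.1 ∧ x.2 + lt01 y.1 x.1 = y.2 + lt01 x.1 y.1 then 1 else 0

def fa2 (x y z : Fin n × ZMod 2) : ZMod 2 :=
  if Alt2 x y z then 1 else 0

def fa3 (x y z w : Fin n × ZMod 2) : ZMod 2 :=
  if (x.1 ≠ y.1 ∧ x.1 ≠ z.1 ∧ x.1 ≠ w.1 ∧ y.1 ≠ z.1 ∧ y.1 ≠ w.1 ∧ z.1 ≠ w.1) ∧
    x.2 + lt01 y.1 x.1 + lt01 z.1 x.1 + lt01 w.1 x.1 =
      y.2 + lt01 x.1 y.1 + lt01 z.1 y.1 + lt01 w.1 y.1 ∧
    x.2 + lt01 y.1 x.1 + lt01 z.1 x.1 + lt01 w.1 x.1 =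
      z.2 + lt01 x.1 z.1 + lt01 y.1 z.1 + lt01 w.1 z.1 ∧
    x.2 + lt01 y.1 x.1 + lt01 z.1 x.1 + lt01 w.1 x.1 =
      w.2 + lt01 x.1 w.1 + lt01 y.1 w.1 + lt01 z.1 w.1 then 1 else 0

def fp1 (x y : Fin n × ZMod 2) : ZMod 2 :=
  if x.1 ≠ y.1 ∧ x.2 + lt01 y.1 x.1 = y.2 + lt01 x.1 y.1 ∧ x.2 + lt01 y.1 x.1 = 1 then 1 else 0

def fp2 (x y z : Fin n × ZMod 2) : ZMod 2 :=
  if Alt2 x y z ∧ x.2 + lt01 y.1 x.1 + lt01 z.1 x.1 = 1 then 1 else 0

lemma rank_iff (S : Finset (Fin n)) {a b : Fin n} (ha : a ∈ S) :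
    (a < b ↔ (S.filter (· < a)).card < (S.filter (· < b)).card) := by
  constructor
  · intro h
    apply Finset.card_lt_card
    rw [Finset.ssubset_iff_of_subset]
    · exact ⟨a, by simp [ha, h], by simp⟩
    · intro x hx
      simp only [Finset.mem_filter] at hx ⊢
      exact ⟨hx.1, hx.2.trans h⟩
  · intro h
    by_contra hab
    push Not at hab
    have : (S.filter (· < b)).card ≤ (S.filter (· < a)).card := by
      apply Finset.card_le_card
      intro x hx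
      simp only [Finset.mem_filter] at hx ⊢
      exact ⟨hx.1, hx.2.trans_le hab⟩
    omega

lemma exists_rank (m : ℕ) (S : Finset (Fin n)) (hS : S.card ≤ m + 1) :
    ∃ f : Fin n → Fin (m + 1), ∀ a ∈ S, ∀ b ∈ S, (a < b ↔ f a < f b) := by
  have hlt : ∀ a ∈ S, (S.filter (· < a)).card < m + 1 := by
    intro a ha
    have : (S.filter (· < a)).card < S.card := by
      apply Finset.card_lt_card
      rw [Finset.ssubset_iff_of_subset (Finset.filter_subset _ _)]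
      exact ⟨a, ha, by simp⟩
    omega
  refine ⟨fun a => ⟨min (S.filter (· < a)).card m, by omega⟩, fun a ha b hb => ?_⟩
  rw [rank_iff S ha, Fin.lt_def]
  have h1 := hlt a ha
  have h2 := hlt b hb
  simp only
  omega

lemma eq_iff_of_lt {m : ℕ} {S : Finset (Fin n)} {f : Fin n → Fin m}
    (hf : ∀ a ∈ S, ∀ b ∈ S, (a < b ↔ f a < f b)) {a b : Fin n} (ha : a ∈ S) (hb : b ∈ S) :
    (a = b ↔ f a = f b) := by
  have h1 := hf a ha b hb
  have h2 := hf b hb a ha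
  constructor
  · rintro rfl; rfl
  · intro h
    rw [h] at h1 h2
    have h3 : ¬ a < b := by rw [h1]; exact lt_irrefl _
    have h4 : ¬ b < a := by rw [h2]; exact lt_irrefl _
    exact le_antisymm (not_lt.mp h4) (not_lt.mp h3)

lemma fan_id3_aux : ∀ x y z : Fin 3 × ZMod 2, NC x y → NC x z → NC y z →
    fp1 y z + fp1 x z + fp1 x y = fa2 x y z ∧ fa1 y z + fa1 x z + fa1 x y = 0 := by
  decide +kernel

lemma fan_id4_aux : ∀ x y z w : Fin 4 × ZMod 2, NC x y → NC x z → NC x w → NC y z → NC y w →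
    NC z w →
    fp2 y z w + fp2 x z w + fp2 x y w + fp2 x y z = fa3 x y z w ∧
      fa2 y z w + fa2 x z w + fa2 x y w + fa2 x y z = 0 := by
  decide +kernel

/-- `f` preserves the comparison of the two labels -/
def Cmp {m : ℕ} (f : Fin n → Fin m) (a b : Fin n) : Prop :=
  (a = b ↔ f a = f b) ∧ lt01 a b = lt01 (f a) (f b) ∧ lt01 b a = lt01 (f b) (f a)

lemma cmp_of {m : ℕ} {S : Finset (Fin n)} {f : Fin n → Fin m}
    (hf : ∀ a ∈ S, ∀ b ∈ S, (a < b ↔ f a < f b)) {a b : Fin n} (ha : a ∈ S) (hb : b ∈ S) :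
    Cmp f a b :=
  ⟨eq_iff_of_lt hf ha hb, if_congr (hf a ha b hb) rfl rfl, if_congr (hf b hb a ha) rfl rfl⟩

section map
variable {m : ℕ} (f : Fin n → Fin m)

/-- relabelled signed label -/
def fm (x : Fin n × ZMod 2) : Fin m × ZMod 2 := (f x.1, x.2)

lemma fa1_map {x y : Fin n × ZMod 2} (h : Cmp f x.1 y.1) : fa1 (fm f x) (fm f y) = fa1 x y := by
  obtain ⟨h1, h2, h3⟩ := h
  refine if_congr ?_ rfl rfl
  simp only [fm, ne_eq, ← h1, ← h2, ← h3]

lemma fp1_map {x y : Fin n × ZMod 2} (h : Cmp f x.1 y.1) : fp1 (fm f x) (fm f y) = fp1 x y := by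
  obtain ⟨h1, h2, h3⟩ := h
  refine if_congr ?_ rfl rfl
  simp only [fm, ne_eq, ← h1, ← h2, ← h3]

lemma fa2_map {x y z : Fin n × ZMod 2} (h : Cmp f x.1 y.1) (h' : Cmp f x.1 z.1)
    (h'' : Cmp f y.1 z.1) : fa2 (fm f x) (fm f y) (fm f z) = fa2 x y z := by
  obtain ⟨h1, h2, h3⟩ := h
  obtain ⟨h4, h5, h6⟩ := h'
  obtain ⟨h7, h8, h9⟩ := h''
  refine if_congr ?_ rfl rfl
  simp only [Alt2, fm, ne_eq, ← h1, ← h2, ← h3, ← h4, ← h5, ← h6, ← h7, ← h8, ← h9]

lemma fp2_map {x y z : Fin n × ZMod 2} (h : Cmp f x.1 y.1) (h' : Cmp f x.1 z.1)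
    (h'' : Cmp f y.1 z.1) : fp2 (fm f x) (fm f y) (fm f z) = fp2 x y z := by
  obtain ⟨h1, h2, h3⟩ := h
  obtain ⟨h4, h5, h6⟩ := h'
  obtain ⟨h7, h8, h9⟩ := h''
  refine if_congr ?_ rfl rfl
  simp only [Alt2, fm, ne_eq, ← h1, ← h2, ← h3, ← h4, ← h5, ← h6, ← h7, ← h8, ← h9]

lemma fa3_map {x y z w : Fin n × ZMod 2} (h : Cmp f x.1 y.1) (h' : Cmp f x.1 z.1)
    (h'' : Cmp f y.1 z.1) (k : Cmp f x.1 w.1) (k' : Cmp f y.1 w.1) (k'' : Cmp f z.1 w.1) :
    fa3 (fm f x) (fm f y) (fm f z) (fm f w) = fa3 x y z w := by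
  obtain ⟨h1, h2, h3⟩ := h
  obtain ⟨h4, h5, h6⟩ := h'
  obtain ⟨h7, h8, h9⟩ := h''
  obtain ⟨k1, k2, k3⟩ := k
  obtain ⟨k4, k5, k6⟩ := k'
  obtain ⟨k7, k8, k9⟩ := k''
  refine if_congr ?_ rfl rfl
  simp only [fm, ne_eq, ← h1, ← h2, ← h3, ← h4, ← h5, ← h6, ← h7, ← h8, ← h9, ← k1, ← k2, ← k3,
    ← k4, ← k5, ← k6, ← k7, ← k8, ← k9]

end map

lemma fan_id3 (x y z : Fin n × ZMod 2) (h1 : NC x y) (h2 : NC x z) (h3 : NC y z) :
    fp1 y z + fp1 x z + fp1 x y = fa2 x y z ∧ fa1 y z + fa1 x z + fa1 x y = 0 := by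
  obtain ⟨f, hf⟩ := exists_rank 2 ({x.1, y.1, z.1} : Finset (Fin n)) Finset.card_le_three
  have hx : x.1 ∈ ({x.1, y.1, z.1} : Finset (Fin n)) := by simp
  have hy : y.1 ∈ ({x.1, y.1, z.1} : Finset (Fin n)) := by simp
  have hz : z.1 ∈ ({x.1, y.1, z.1} : Finset (Fin n)) := by simp
  have cxy := cmp_of hf hx hy
  have cxz := cmp_of hf hx hz
  have cyz := cmp_of hf hy hz
  have key := fan_id3_aux (fm f x) (fm f y) (fm f z)
    (fun h => h1 (cxy.1.mpr h)) (fun h => h2 (cxz.1.mpr h)) (fun h => h3 (cyz.1.mpr h))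
  rwa [fp1_map f cyz, fp1_map f cxz, fp1_map f cxy, fa1_map f cyz, fa1_map f cxz, fa1_map f cxy,
    fa2_map f cxy cxz cyz] at key

lemma fan_id4 (x y z w : Fin n × ZMod 2) (h1 : NC x y) (h2 : NC x z) (h3 : NC x w)
    (h4 : NC y z) (h5 : NC y w) (h6 : NC z w) :
    fp2 y z w + fp2 x z w + fp2 x y w + fp2 x y z = fa3 x y z w ∧
      fa2 y z w + fa2 x z w + fa2 x y w + fa2 x y z = 0 := by
  obtain ⟨f, hf⟩ := exists_rank 3 ({x.1, y.1, z.1, w.1} : Finset (Fin n)) Finset.card_le_four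
  have hx : x.1 ∈ ({x.1, y.1, z.1, w.1} : Finset (Fin n)) := by simp
  have hy : y.1 ∈ ({x.1, y.1, z.1, w.1} : Finset (Fin n)) := by simp
  have hz : z.1 ∈ ({x.1, y.1, z.1, w.1} : Finset (Fin n)) := by simp
  have hw : w.1 ∈ ({x.1, y.1, z.1, w.1} : Finset (Fin n)) := by simp
  have cxy := cmp_of hf hx hy
  have cxz := cmp_of hf hx hz
  have cyz := cmp_of hf hy hz
  have cxw := cmp_of hf hx hw
  have cyw := cmp_of hf hy hw
  have czw := cmp_of hf hz hw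
  have key := fan_id4_aux (fm f x) (fm f y) (fm f z) (fm f w)
    (fun h => h1 (cxy.1.mpr h)) (fun h => h2 (cxz.1.mpr h)) (fun h => h3 (cxw.1.mpr h))
    (fun h => h4 (cyz.1.mpr h)) (fun h => h5 (cyw.1.mpr h)) (fun h => h6 (czw.1.mpr h))
  rwa [fp2_map f cyz cyw czw, fp2_map f cxz cxw czw, fp2_map f cxy cxw cyw,
    fp2_map f cxy cxz cyz, fa2_map f cyz cyw czw, fa2_map f cxz cxw czw, fa2_map f cxy cxw cyw,
    fa2_map f cxy cxz cyz, fa3_map f cxy cxz cyz cxw cyw czw] at key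

lemma fa1_eq (x y : Fin n × ZMod 2) (h : NC x y) : fa1 x y = y.2 + x.2 := by
  obtain ⟨a, s⟩ := x
  obtain ⟨b, t⟩ := y
  simp only [NC] at h
  unfold fa1 lt01
  rcases lt_trichotomy a b with hab | hab | hab
  · have h1 : ¬ b < a := not_lt.mpr hab.le
    simp only [hab, h1, hab.ne, ne_eq, not_false_eq_true, true_and, if_true, if_false]
    clear h; revert s t; decide
  · subst hab
    have := h rfl
    subst this
    simp [zmod2_add_self]
  · have h1 : ¬ a < b := not_lt.mpr hab.le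
    simp only [hab, h1, hab.ne', ne_eq, not_false_eq_true, true_and, if_true, if_false]
    clear h; revert s t; decide

lemma fa1_flip (x y : Fin n × ZMod 2) : fa1 (x.1, x.2 + 1) (y.1, y.2 + 1) = fa1 x y := by
  unfold fa1
  simp only
  congr 1
  generalize lt01 y.1 x.1 = a
  generalize lt01 x.1 y.1 = b
  generalize x.2 = s
  generalize y.2 = t
  have : ∀ a b s t : ZMod 2, (s + 1 + a = t + 1 + b) = (s + a = t + b) := by
    intro a b s t
    apply propext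
    revert a b s t; decide
  rw [this]

lemma fp1_flip (x y : Fin n × ZMod 2) :
    fp1 (x.1, x.2 + 1) (y.1, y.2 + 1) = fa1 x y + fp1 x y := by
  unfold fa1 fp1
  simp only
  generalize lt01 y.1 x.1 = a
  generalize lt01 x.1 y.1 = b
  generalize x.2 = s
  generalize y.2 = t
  by_cases h : x.1 = y.1
  · simp [h]
  · simp only [ne_eq, h, not_false_eq_true, true_and]
    revert a b s t; decide

lemma fa2_flip (x y z : Fin n × ZMod 2) :
    fa2 (x.1, x.2 + 1) (y.1, y.2 + 1) (z.1, z.2 + 1) = fa2 x y z := by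
  have e : ∀ p q r p' q' r' : ZMod 2, (p + 1 + q + r = p' + 1 + q' + r') = (p + q + r = p' + q' + r') := by
    intro p q r p' q' r'
    apply propext
    constructor
    · intro h; linear_combination h
    · intro h; linear_combination h
  refine if_congr ?_ rfl rfl
  simp only [Alt2, e]

lemma fp2_flip (x y z : Fin n × ZMod 2) :
    fp2 (x.1, x.2 + 1) (y.1, y.2 + 1) (z.1, z.2 + 1) = fa2 x y z + fp2 x y z := by
  have h := fa2_flip x y z
  unfold fp2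
  unfold fa2 at h ⊢
  by_cases h1 : Alt2 x y z
  · have h2 : Alt2 (x.1, x.2 + 1) (y.1, y.2 + 1) (z.1, z.2 + 1) := by
      by_contra h3
      rw [if_neg h3, if_pos h1] at h
      exact absurd h (by decide)
    simp only [h1, h2, true_and, if_true]
    generalize lt01 y.1 x.1 = a
    generalize lt01 z.1 x.1 = b
    generalize x.2 = s
    revert a b s; decide
  · have h2 : ¬ Alt2 (x.1, x.2 + 1) (y.1, y.2 + 1) (z.1, z.2 + 1) := by
      intro h3
      rw [if_neg h1, if_pos h3] at h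
      exact absurd h (by decide)
    simp [h1, h2]

end alt

/-! ### the cap product reduces the alternation number -/

section fan
variable {n : ℕ} (c : V → Fin n) (s : V → ZMod 2)

/-- signed label -/
def sl (v : V) : Fin n × ZMod 2 := (c v, s v)

lemma sl_neg (hc : ∀ v, c (-v) = c v) (hs : ∀ v, s (-v) = s v + 1) (v : V) :
    sl c s (-v) = ((sl c s v).1, (sl c s v).2 + 1) := by
  simp only [sl, hc, hs]

theorem fan_step1 (hs : ∀ v, s (-v) = s v + 1) (Y : List (V × V))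
    (hY : Cyc1 Y) (hJ : J1 Y) (hn : ∀ r ∈ Y, NC (sl c s r.1) (sl c s r.2)) (b : V) :
    ev Y (fun r => fa1 (sl c s r.1) (sl c s r.2)) = 1 := by
  rw [← hJ b, ← zmod2_add_eq_zero, ← ev_add]
  have := hY (fun v => s v + p b v) (by
    intro v
    show s (-v) + p b (-v) = s v + p b v
    rw [hs, p_neg_right]
    generalize s v = x
    generalize p b v = y
    revert x y; decide)
  rw [← this]
  apply ev_congr
  intro r hr
  rw [fa1_eq _ _ (hn r hr)]
  simp only [d1, sl, om]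
  ring

theorem fan_step2 (hc : ∀ v, c (-v) = c v) (hs : ∀ v, s (-v) = s v + 1) (X : List (V × V × V))
    (hX : Cyc2 X)
    (hn : ∀ r ∈ X, NC (sl c s r.1) (sl c s r.2.1) ∧ NC (sl c s r.1) (sl c s r.2.2) ∧
      NC (sl c s r.2.1) (sl c s r.2.2)) (b : V) :
    ev X (fun r => fa2 (sl c s r.1) (sl c s r.2.1) (sl c s r.2.2)) =
      ev (D2 b X) (fun r => fa1 (sl c s r.1) (sl c s r.2)) := by
  rw [ev_D2, ← zmod2_add_eq_zero, ← ev_add]
  have := hX (fun t => fp1 (sl c s t.1) (sl c s t.2) + p b t.1 * fa1 (sl c s t.1) (sl c s t.2)) (by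
    intro t
    simp only [Prod.fst_neg, Prod.snd_neg]
    rw [sl_neg c s hc hs, sl_neg c s hc hs, fp1_flip, fa1_flip, p_neg_right]
    generalize fa1 (sl c s t.1) (sl c s t.2) = x
    generalize fp1 (sl c s t.1) (sl c s t.2) = y
    generalize p b t.1 = z
    revert x y z; decide)
  rw [← this]
  apply ev_congr
  intro r hr
  obtain ⟨h1, h2, h3⟩ := hn r hr
  obtain ⟨e1, e2⟩ := fan_id3 _ _ _ h1 h2 h3
  simp only [d2, om]
  rw [← e1]
  revert e2
  generalize fa1 (sl c s r.2.1) (sl c s r.2.2) = a0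
  generalize fa1 (sl c s r.1) (sl c s r.2.2) = a1
  generalize fa1 (sl c s r.1) (sl c s r.2.1) = a2
  generalize fp1 (sl c s r.2.1) (sl c s r.2.2) = b0
  generalize fp1 (sl c s r.1) (sl c s r.2.2) = b1
  generalize fp1 (sl c s r.1) (sl c s r.2.1) = b2
  generalize p b r.1 = x
  generalize p b r.2.1 = y
  revert a0 a1 a2 b0 b1 b2 x y; decide +kernel

theorem fan_step3 (hc : ∀ v, c (-v) = c v) (hs : ∀ v, s (-v) = s v + 1)
    (X : List (V × V × V × V)) (hX : Cyc3 X)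
    (hn : ∀ r ∈ X, NC (sl c s r.1) (sl c s r.2.1) ∧ NC (sl c s r.1) (sl c s r.2.2.1) ∧
      NC (sl c s r.1) (sl c s r.2.2.2) ∧ NC (sl c s r.2.1) (sl c s r.2.2.1) ∧
      NC (sl c s r.2.1) (sl c s r.2.2.2) ∧ NC (sl c s r.2.2.1) (sl c s r.2.2.2)) (b : V) :
    ev X (fun r => fa3 (sl c s r.1) (sl c s r.2.1) (sl c s r.2.2.1) (sl c s r.2.2.2)) =
      ev (D3 b X) (fun r => fa2 (sl c s r.1) (sl c s r.2.1) (sl c s r.2.2)) := by
  rw [ev_D3, ← zmod2_add_eq_zero, ← ev_add]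
  have := hX (fun t => fp2 (sl c s t.1) (sl c s t.2.1) (sl c s t.2.2) +
      p b t.1 * fa2 (sl c s t.1) (sl c s t.2.1) (sl c s t.2.2)) (by
    intro t
    simp only [Prod.fst_neg, Prod.snd_neg]
    rw [sl_neg c s hc hs, sl_neg c s hc hs, sl_neg c s hc hs, fp2_flip, fa2_flip, p_neg_right]
    generalize fa2 (sl c s t.1) (sl c s t.2.1) (sl c s t.2.2) = x
    generalize fp2 (sl c s t.1) (sl c s t.2.1) (sl c s t.2.2) = y
    generalize p b t.1 = z
    revert x y z; decide)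
  rw [← this]
  apply ev_congr
  intro r hr
  obtain ⟨h1, h2, h3, h4, h5, h6⟩ := hn r hr
  obtain ⟨e1, e2⟩ := fan_id4 _ _ _ _ h1 h2 h3 h4 h5 h6
  simp only [d3, om]
  rw [← e1]
  revert e2
  generalize fa2 (sl c s r.2.1) (sl c s r.2.2.1) (sl c s r.2.2.2) = a0
  generalize fa2 (sl c s r.1) (sl c s r.2.2.1) (sl c s r.2.2.2) = a1
  generalize fa2 (sl c s r.1) (sl c s r.2.1) (sl c s r.2.2.2) = a2
  generalize fa2 (sl c s r.1) (sl c s r.2.1) (sl c s r.2.2.1) = a3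
  generalize fp2 (sl c s r.2.1) (sl c s r.2.2.1) (sl c s r.2.2.2) = b0
  generalize fp2 (sl c s r.1) (sl c s r.2.2.1) (sl c s r.2.2.2) = b1
  generalize fp2 (sl c s r.1) (sl c s r.2.1) (sl c s r.2.2.2) = b2
  generalize fp2 (sl c s r.1) (sl c s r.2.1) (sl c s r.2.2.1) = b3
  generalize p b r.1 = x
  generalize p b r.2.1 = y
  revert a0 a1 a2 a3 b0 b1 b2 b3 x y; decide +kernel

end fan

/-- some vector -/
noncomputable def v0 : V := ⟨EuclideanSpace.single 0 1, by simp⟩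

theorem fan_count2 {n : ℕ} (X : List (V × V × V)) (κ : V → Fin n) (s : V → ZMod 2)
    (hX : Cyc2 X) (hJ : J2 X) (hκ : ∀ v, κ (-v) = κ v) (hs : ∀ v, s (-v) = s v + 1)
    (hn : ∀ r ∈ X, ∀ a ∈ vs2 r, ∀ b ∈ vs2 r, κ a = κ b → s a = s b) :
    ev X (fun r => fa2 (sl κ s r.1) (sl κ s r.2.1) (sl κ s r.2.2)) = 1 := by
  have hn' : ∀ r ∈ X, NC (sl κ s r.1) (sl κ s r.2.1) ∧ NC (sl κ s r.1) (sl κ s r.2.2) ∧
      NC (sl κ s r.2.1) (sl κ s r.2.2) := by
    intro r hr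
    have h := hn r hr
    exact ⟨h r.1 (by simp [vs2]) r.2.1 (by simp [vs2]), h r.1 (by simp [vs2]) r.2.2 (by simp [vs2]),
      h r.2.1 (by simp [vs2]) r.2.2 (by simp [vs2])⟩
  rw [fan_step2 κ s hκ hs X hX hn' v0]
  refine fan_step1 κ s hs _ (hX.D2 v0) (hJ.D2 v0) ?_ v0
  intro t ht
  obtain ⟨r, hr, _, rfl⟩ := mem_D2 ht
  exact (hn' r hr).2.2

theorem fan2 : S_fan2 := by
  intro X κ s hX hJ hκ hs hn
  exact fan_count2 X κ s hX hJ hκ hs hn

end Crest.Agent.BK
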