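import Crest.Agent.BK.Fan2

/-!
Row 50 (S0069), chunk FAN3: Ky Fan's lemma for projective mod-2 3-cycles.
-/

set_option autoImplicit false

namespace Crest.Agent.BK

open scoped RealInnerProductSpace

theorem fan3 : S_fan3 := by
  intro X c s hX hJ hc hs hn
  have hn' : ∀ r ∈ X, NC (sl c s r.1) (sl c s r.2.1) ∧ NC (sl c s r.1) (sl c s r.2.2.1) ∧
      NC (sl c s r.1) (sl c s r.2.2.2) ∧ NC (sl c s r.2.1) (sl c s r.2.2.1) ∧
      NC (sl c s r.2.1) (sl c s r.2.2.2) ∧ NC (sl c s r.2.2.1) (sl c s r.2.2.2) := by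
    intro r hr
    have h := hn r hr
    refine ⟨h r.1 ?_ r.2.1 ?_, h r.1 ?_ r.2.2.1 ?_, h r.1 ?_ r.2.2.2 ?_, h r.2.1 ?_ r.2.2.1 ?_,
      h r.2.1 ?_ r.2.2.2 ?_, h r.2.2.1 ?_ r.2.2.2 ?_⟩ <;> simp [vs3]
  have h1 := fan_step3 c s hc hs X hX hn' v0
  rw [fan_count2 (D3 v0 X) c s (hX.D3 v0) (hJ.D3 v0) hc hs (by
    intro t ht a ha b hb
    obtain ⟨r, hr, _, rfl⟩ := mem_D3 ht
    have ha' : a ∈ vs3 r := by
      simp only [vs2, vs3, List.mem_cons, List.not_mem_nil, or_false] at ha ⊢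
      tauto
    have hb' : b ∈ vs3 r := by
      simp only [vs2, vs3, List.mem_cons, List.not_mem_nil, or_false] at hb ⊢
      tauto
    exact hn r hr a ha' b hb')] at h1
  obtain ⟨r, hr, h2⟩ := exists_of_ev_eq_one h1
  refine ⟨r, hr, ?_⟩
  unfold fa3 at h2
  split_ifs at h2 with h3
  · obtain ⟨⟨a1, a2, a3, a4, a5, a6⟩, -⟩ := h3
    simp only [sl] at a1 a2 a3 a4 a5 a6
    simp [vs3, a1, a2, a3, a4, a5, a6]
  · exact absurd h2 (by decide)

end Crest.Agent.BK
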