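import Crest.Agent.BK.Spec

/-!
Row 50 (S0069).  Chunk R3CELL.
-/

set_option autoImplicit false

namespace Crest.Agent.BK

/-- Parametrisation of the model cell: with `m = |x|`, either `y = z + u`, `m ≤ z + u / 2` or
`y = u + v`, `z = 2 u + v`, `m ≤ v`. -/
theorem cell_param {x y z : ℝ} (h1 : |2 * y - z| ≤ 2 * y + z) (h2 : |-2 * x - y| ≤ 2 * y + z)
    (h3 : |-2 * x + y| ≤ 2 * y + z) (h4 : |x + 2 * z| ≤ 2 * y + z) (h5 : |-x + 2 * z| ≤ 2 * y + z) :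
    (∃ u : ℝ, 0 ≤ u ∧ 0 ≤ z ∧ y = z + u ∧ |x| ≤ z + u / 2) ∨
    (∃ u v : ℝ, 0 ≤ u ∧ 0 ≤ v ∧ y = u + v ∧ z = 2 * u + v ∧ |x| ≤ v) := by
  rw [abs_le] at h1 h2 h3 h4 h5
  rcases le_total z y with h | h
  · left
    refine ⟨y - z, by linarith, by linarith [h1.2], by ring, ?_⟩
    rw [abs_le]
    constructor <;> linarith [h1.1, h1.2, h2.1, h2.2, h3.1, h3.2, h4.1, h4.2, h5.1, h5.2]
  · right
    refine ⟨z - y, 2 * y - z, by linarith, ?_, by ring, by ring, ?_⟩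
    · linarith [h1.1, h1.2, h2.1, h2.2, h3.1, h3.2, h4.1, h4.2, h5.1, h5.2]
    · rw [abs_le]
      constructor <;> linarith [h1.1, h1.2, h2.1, h2.2, h3.1, h3.2, h4.1, h4.2, h5.1, h5.2]

theorem abs_mul_bound {x x' a b : ℝ} (h : |x| ≤ a) (h' : |x'| ≤ b) : -(a * b) ≤ x * x' := by
  have h1 : |x * x'| ≤ a * b := by
    rw [abs_mul]
    exact mul_le_mul h h' (abs_nonneg _) ((abs_nonneg _).trans h)
  exact (abs_le.1 h1).1

theorem cell_model {x y z x' y' z' : ℝ} (h1 : |2 * y - z| ≤ 2 * y + z)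
    (h2 : |-2 * x - y| ≤ 2 * y + z)
    (h3 : |-2 * x + y| ≤ 2 * y + z) (h4 : |x + 2 * z| ≤ 2 * y + z) (h5 : |-x + 2 * z| ≤ 2 * y + z)
    (k1 : |2 * y' - z'| ≤ 2 * y' + z')
    (k2 : |-2 * x' - y'| ≤ 2 * y' + z')
    (k3 : |-2 * x' + y'| ≤ 2 * y' + z') (k4 : |x' + 2 * z'| ≤ 2 * y' + z')
    (k5 : |-x' + 2 * z'| ≤ 2 * y' + z') :
    (2 * y + z) * (2 * y' + z') / 12 ≤ x * x' + y * y' + z * z' := by
  rcases cell_param h1 h2 h3 h4 h5 with ⟨u, hu, hz, rfl, hx⟩ | ⟨u, v, hu, hv, rfl, rfl, hx⟩ <;>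
  rcases cell_param k1 k2 k3 k4 k5 with ⟨u', hu', hz', rfl, hx'⟩ | ⟨u', v', hu', hv', rfl, rfl, hx'⟩
  · have := abs_mul_bound hx hx'
    nlinarith [mul_nonneg hz hz', mul_nonneg hz hu', mul_nonneg hu hz', mul_nonneg hu hu']
  · have := abs_mul_bound hx hx'
    nlinarith [mul_nonneg hz hu', mul_nonneg hz hv', mul_nonneg hu hu', mul_nonneg hu hv']
  · have := abs_mul_bound hx hx'
    nlinarith [mul_nonneg hu hz', mul_nonneg hv hz', mul_nonneg hu hu', mul_nonneg hv hu']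
  · have := abs_mul_bound hx hx'
    nlinarith [mul_nonneg hu hu', mul_nonneg hu hv', mul_nonneg hv hu', mul_nonneg hv hv']

theorem R3cell : S_R3cell := by
  intro i x y z x' y' z' h h'
  have a0 := h 0
  have a1 := h 1
  have a2 := h 2
  have a3 := h 3
  have a4 := h 4
  have a5 := h 5
  have b0 := h' 0
  have b1 := h' 1
  have b2 := h' 2
  have b3 := h' 3
  have b4 := h' 4
  have b5 := h' 5
  clear h h'
  have key : ∀ X Y Z X' Y' Z' : ℝ, 2 * Y + Z = el i x y z → 2 * Y' + Z' = el i x' y' z' →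
      X * X' + Y * Y' + Z * Z' = x * x' + y * y' + z * z' →
      |2 * Y - Z| ≤ 2 * Y + Z → |-2 * X - Y| ≤ 2 * Y + Z → |-2 * X + Y| ≤ 2 * Y + Z →
      |X + 2 * Z| ≤ 2 * Y + Z → |-X + 2 * Z| ≤ 2 * Y + Z →
      |2 * Y' - Z'| ≤ 2 * Y' + Z' → |-2 * X' - Y'| ≤ 2 * Y' + Z' → |-2 * X' + Y'| ≤ 2 * Y' + Z' →
      |X' + 2 * Z'| ≤ 2 * Y' + Z' → |-X' + 2 * Z'| ≤ 2 * Y' + Z' →
      el i x y z * el i x' y' z' / 12 ≤ x * x' + y * y' + z * z' := by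
    intro X Y Z X' Y' Z' e e' e'' h1 h2 h3 h4 h5 k1 k2 k3 k4 k5
    rw [← e, ← e', ← e'']
    exact cell_model h1 h2 h3 h4 h5 k1 k2 k3 k4 k5
  rw [abs_le] at a0 a1 a2 a3 a4 a5 b0 b1 b2 b3 b4 b5
  obtain ⟨a0, a0'⟩ := a0
  obtain ⟨a1, a1'⟩ := a1
  obtain ⟨a2, a2'⟩ := a2
  obtain ⟨a3, a3'⟩ := a3
  obtain ⟨a4, a4'⟩ := a4
  obtain ⟨a5, a5'⟩ := a5
  obtain ⟨b0, b0'⟩ := b0
  obtain ⟨b1, b1'⟩ := b1
  obtain ⟨b2, b2'⟩ := b2
  obtain ⟨b3, b3'⟩ := b3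
  obtain ⟨b4, b4'⟩ := b4
  obtain ⟨b5, b5'⟩ := b5
  fin_cases i <;> simp only [el] at *
  · apply key x y z x' y' z' (by ring) (by ring) (by ring) <;>
      refine abs_le.2 ⟨?_, ?_⟩ <;> linarith
  · apply key x y (-z) x' y' (-z') (by ring) (by ring) (by ring) <;>
      refine abs_le.2 ⟨?_, ?_⟩ <;> linarith
  · apply key (-z) (-x) (-y) (-z') (-x') (-y') (by ring) (by ring) (by ring) <;>
      refine abs_le.2 ⟨?_, ?_⟩ <;> linarith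
  · apply key (-z) (-x) y (-z') (-x') y' (by ring) (by ring) (by ring) <;>
      refine abs_le.2 ⟨?_, ?_⟩ <;> linarith
  · apply key y z x y' z' x' (by ring) (by ring) (by ring) <;>
      refine abs_le.2 ⟨?_, ?_⟩ <;> linarith
  · apply key y z (-x) y' z' (-x') (by ring) (by ring) (by ring) <;>
      refine abs_le.2 ⟨?_, ?_⟩ <;> linarith

end Crest.Agent.BK
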