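import Crest.Agent.BK.Spec

/-!
Row 50 (S0069).  Chunk R3EXCL.
-/

set_option autoImplicit false

namespace Crest.Agent.BK

private lemma excl_big (i : Fin 6) (s x y z : ℝ)
    (h : ∀ m, |el m x y z| ≤ s * el i x y z + 1 / 500)
    (hn : 1 / 20 ≤ x ^ 2 + y ^ 2 + z ^ 2) : 1 / 4 ≤ s * el i x y z := by
  by_contra hc
  push Not at hc
  have hb : ∀ m, (el m x y z) ^ 2 ≤ (63 / 250) ^ 2 := by
    intro m
    have h1 := h m
    have h2 : |el m x y z| ≤ 63 / 250 := by linarith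
    have h3 := abs_nonneg (el m x y z)
    calc (el m x y z) ^ 2 = |el m x y z| ^ 2 := (sq_abs _).symm
      _ ≤ (63 / 250) ^ 2 := by gcongr
  have h0 := hb 0
  have h1 := hb 1
  have h2 := hb 2
  have h3 := hb 3
  have h4 := hb 4
  have h5 := hb 5
  simp only [el] at h0 h1 h2 h3 h4 h5
  nlinarith

set_option maxHeartbeats 4000000 in
theorem R3excl : S_R3excl := by
  intro i j k s t u x y z hij hjk hs ht hu h1 h2 h3 hn
  have hM := excl_big i s x y z h1 hn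
  have hM2 := excl_big j t x y z h2 hn
  have hM3 := excl_big k u x y z h3 hn
  have a0 := abs_le.mp (h1 0)
  have a1 := abs_le.mp (h1 1)
  have a2 := abs_le.mp (h1 2)
  have a3 := abs_le.mp (h1 3)
  have a4 := abs_le.mp (h1 4)
  have a5 := abs_le.mp (h1 5)
  have b0 := abs_le.mp (h2 0)
  have b1 := abs_le.mp (h2 1)
  have b2 := abs_le.mp (h2 2)
  have b3 := abs_le.mp (h2 3)
  have b4 := abs_le.mp (h2 4)
  have b5 := abs_le.mp (h2 5)
  have c0 := abs_le.mp (h3 0)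
  have c1 := abs_le.mp (h3 1)
  have c2 := abs_le.mp (h3 2)
  have c3 := abs_le.mp (h3 3)
  have c4 := abs_le.mp (h3 4)
  have c5 := abs_le.mp (h3 5)
  clear h1 h2 h3 hn
  obtain ⟨a0, a0'⟩ := a0
  obtain ⟨a1, a1'⟩ := a1
  obtain ⟨a2, a2'⟩ := a2
  obtain ⟨a3, a3'⟩ := a3
  obtain ⟨a4, a4'⟩ := a4
  obtain ⟨a5, a5'⟩ := a5
  obtain ⟨b0, b0'⟩ := b0
  obtain ⟨b1, b1'⟩ := b1
  obtain ⟨b2, b2'⟩ := b2
  obtain ⟨b3, b3'⟩ := b3
  obtain ⟨b4, b4'⟩ := b4
  obtain ⟨b5, b5'⟩ := b5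
  obtain ⟨c0, c0'⟩ := c0
  obtain ⟨c1, c1'⟩ := c1
  obtain ⟨c2, c2'⟩ := c2
  obtain ⟨c3, c3'⟩ := c3
  obtain ⟨c4, c4'⟩ := c4
  obtain ⟨c5, c5'⟩ := c5
  fin_cases i <;> fin_cases j <;> (try (exfalso; revert hij; decide)) <;>
    fin_cases k <;> (try (exfalso; revert hjk; decide)) <;>
    simp only [el, Fin.mk_zero, Fin.mk_one, Fin.reduceFinMk, Fin.isValue] at * <;>
    rcases hs with rfl | rfl <;> rcases ht with rfl | rfl <;> rcases hu with rfl | rfl <;>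
    first
    | (norm_num; done)
    | (norm_num <;> decide)
    | (exfalso; linarith)

end Crest.Agent.BK
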