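import Crest.Agent.BK.SatSound
import Crest.Agent.BK.SatCert

/-!
Row 50 (S0069).  Chunk SAT: the finite contradiction.
-/

set_option autoImplicit false
set_option linter.unusedSimpArgs false

namespace Crest.Agent.BK

namespace Sat

/-- decoding -/
def dec (n : Nat) : Finset (Fin 10) := Finset.univ.filter (fun i => Nat.testBit n i.1 = true)

/-- decoding along a permutation -/
def D (σ : Fin 10 ≃ Fin 10) (n : Nat) : Finset (Fin 10) :=
  Finset.univ.filter (fun i => Nat.testBit n (σ i).1 = true)

lemma mem_D {σ : Fin 10 ≃ Fin 10} {n : Nat} {i : Fin 10} :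
    i ∈ D σ n ↔ Nat.testBit n (σ i).1 = true := by simp [D]

lemma D_eq_map (σ : Fin 10 ≃ Fin 10) (n : Nat) : D σ n = (dec n).map σ.symm.toEmbedding := by
  ext i
  simp only [mem_D, dec, Finset.mem_map, Finset.mem_filter, Finset.mem_univ, true_and,
    Equiv.coe_toEmbedding]
  constructor
  · intro h; exact ⟨σ i, h, by simp⟩
  · rintro ⟨j, hj, rfl⟩; simpa using hj

lemma card_D (σ : Fin 10 ≃ Fin 10) (n : Nat) : (D σ n).card = (dec n).card := by
  rw [D_eq_map, Finset.card_map]

lemma dec4 : ∀ n < 1024, tb P4 n = true → (dec n).card = 4 := by decide +kernel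
lemma dec3 : ∀ n < 1024, tb P3 n = true → (dec n).card = 3 := by decide +kernel
lemma dec2 : ∀ n < 1024, tb P2 n = true → (dec n).card = 2 := by decide +kernel

lemma P3_lt {n : Nat} (h : tb P3 n = true) : n < 1024 := by
  by_contra hn
  rw [tb_eq] at h
  have h1 : P3 < 2 ^ n := lt_of_lt_of_le (b := 2 ^ 1024) (by decide +kernel)
    (Nat.pow_le_pow_right (by norm_num) (by omega))
  rw [Nat.testBit_lt_two_pow h1] at h
  exact absurd h (by simp)

lemma D_lor (σ : Fin 10 ≃ Fin 10) (x y : Nat) : D σ (Nat.lor x y) = D σ x ∪ D σ y := by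
  ext i; simp only [mem_D, testBit_lor, Bool.or_eq_true, Finset.mem_union]

lemma D_land (σ : Fin 10 ≃ Fin 10) (x y : Nat) : D σ (Nat.land x y) = D σ x ∩ D σ y := by
  ext i; simp only [mem_D, testBit_land, Bool.and_eq_true, Finset.mem_inter]

lemma D_zero (σ : Fin 10 ≃ Fin 10) : D σ 0 = ∅ := by
  ext i; simp [mem_D]

lemma D_compl (σ : Fin 10 ≃ Fin 10) (x : Nat) : D σ (Nat.xor 1023 x) = (D σ x)ᶜ := by
  ext i
  rw [mem_D, testBit_xor, Finset.mem_compl, mem_D]
  have h : Nat.testBit 1023 (σ i).1 = true := by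
    generalize σ i = j
    revert j; decide
  rw [h]; simp

lemma D_disj {σ : Fin 10 ≃ Fin 10} {x y : Nat} (h : Nat.land x y = 0) :
    Disjoint (D σ x) (D σ y) := by
  rw [Finset.disjoint_iff_inter_eq_empty, ← D_land, h, D_zero]

lemma D_b1 (σ : Fin 10 ≃ Fin 10) {a : Nat} (ha : a < 10) : D σ (b1 a) = {σ.symm ⟨a, ha⟩} := by
  ext i
  rw [mem_D, testBit_b1, decide_eq_true_eq, Finset.mem_singleton, Equiv.eq_symm_apply]
  constructor
  · intro h; ext; exact h.symm
  · intro h; rw [h]

lemma D_ins (σ : Fin 10 ≃ Fin 10) (K : Nat) {a : Nat} (ha : a < 10) :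
    D σ (Nat.lor K (b1 a)) = insert (σ.symm ⟨a, ha⟩) (D σ K) := by
  rw [D_lor, D_b1 σ ha, Finset.union_comm, Finset.insert_eq]

/-- two elements out of four -/
lemma two_of_four {t : Finset (Fin 10) → Prop}
    (hC : ∀ I K : Finset (Fin 10), I.card = 4 → K.card = 3 → Disjoint K I → t I →
      (t K ↔ ¬ t (Iᶜ \ K)))
    (hD : ∀ (I e : Finset (Fin 10)), I.card = 4 → e.card = 2 → Disjoint e I → t I →
      (∃ f : Finset (Fin 10), (∀ s, s ∈ f ↔ (s ∉ I ∪ e ∧ t (insert s e))) ∧ Even f.card ∧
        f.Nonempty))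
    {I e : Finset (Fin 10)} (hI : I.card = 4) (he : e.card = 2) (hd : Disjoint e I) (tI : t I) :
    ∃ f : Finset (Fin 10), (∀ s, s ∈ f ↔ (s ∉ I ∪ e ∧ t (insert s e))) ∧ f.card = 2 := by
  obtain ⟨f, hf, hev, hne⟩ := hD I e hI he hd tI
  refine ⟨f, hf, ?_⟩
  have hsub : f ⊆ (I ∪ e)ᶜ := by
    intro s hs
    rw [Finset.mem_compl]
    exact ((hf s).mp hs).1
  have hcard : ((I ∪ e)ᶜ).card = 4 := by
    rw [Finset.card_compl, Finset.card_union_of_disjoint hd.symm, hI, he]; rfl
  have hle := Finset.card_le_card hsub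
  rw [hcard] at hle
  have hpos : 0 < f.card := Finset.card_pos.mpr hne
  obtain ⟨m, hm⟩ := hev
  have h24 : f.card = 2 ∨ f.card = 4 := by omega
  rcases h24 with h | h
  · exact h
  exfalso
  have hfS : f = (I ∪ e)ᶜ := Finset.eq_of_subset_of_card_le hsub (by rw [hcard, h])
  have hall : ∀ s, s ∉ I ∪ e → t (insert s e) := by
    intro s hs
    have : s ∈ f := by rw [hfS, Finset.mem_compl]; exact hs
    exact ((hf s).mp this).2
  obtain ⟨x, y, hxy, rfl⟩ := Finset.card_eq_two.mp he
  -- four elements of the rest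
  obtain ⟨s1, hs1⟩ : ∃ s, s ∈ (I ∪ {x, y})ᶜ := Finset.card_pos.mp (by rw [hcard]; norm_num)
  have hc3 : (((I ∪ {x, y})ᶜ).erase s1).card = 3 := by
    rw [Finset.card_erase_of_mem hs1, hcard]
  obtain ⟨s2, s3, s4, h23, h24, h34, hS⟩ := Finset.card_eq_three.mp hc3
  have memS : ∀ z, z ∉ I ∪ {x, y} ↔ (z = s1 ∨ z = s2 ∨ z = s3 ∨ z = s4) := by
    intro z
    rw [← Finset.mem_compl]
    constructor
    · intro hz
      by_cases hz1 : z = s1
      · exact Or.inl hz1
      · have : z ∈ ((I ∪ {x, y})ᶜ).erase s1 := Finset.mem_erase.mpr ⟨hz1, hz⟩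
        rw [hS] at this
        simp only [Finset.mem_insert, Finset.mem_singleton] at this
        exact Or.inr this
    · rintro (rfl | rfl | rfl | rfl)
      · exact hs1
      all_goals
        refine Finset.mem_of_mem_erase (a := s1) ?_
        rw [hS]; simp
  have hne1 : ∀ z, z ∈ ({s2, s3, s4} : Finset (Fin 10)) → z ≠ s1 := by
    intro z hz
    rw [← hS] at hz
    exact (Finset.mem_erase.mp hz).1
  have h12 : s2 ≠ s1 := hne1 s2 (by simp)
  have h13 : s3 ≠ s1 := hne1 s3 (by simp)
  have h14 : s4 ≠ s1 := hne1 s4 (by simp)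
  have nI : ∀ z, (z = s1 ∨ z = s2 ∨ z = s3 ∨ z = s4) → z ∉ I ∧ z ≠ x ∧ z ≠ y := by
    intro z hz
    have := (memS z).mpr hz
    simp only [Finset.mem_union, Finset.mem_insert, Finset.mem_singleton, not_or] at this
    exact ⟨this.1, this.2.1, this.2.2⟩
  have n1 := nI s1 (by simp)
  have n2 := nI s2 (by simp)
  have n3 := nI s3 (by simp)
  have n4 := nI s4 (by simp)
  rw [Finset.disjoint_left] at hd
  have nx : x ∉ I := hd (by simp)
  have ny : y ∉ I := hd (by simp)
  have memJ : ∀ z, z ∉ I ↔ (z = x ∨ z = y ∨ z = s1 ∨ z = s2 ∨ z = s3 ∨ z = s4) := by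
    intro z
    have := memS z
    simp only [Finset.mem_union, Finset.mem_insert, Finset.mem_singleton, not_or] at this
    constructor
    · intro hz
      by_cases hzx : z = x
      · exact Or.inl hzx
      · by_cases hzy : z = y
        · exact Or.inr (Or.inl hzy)
        · exact Or.inr (Or.inr (this.mp ⟨hz, hzx, hzy⟩))
    · rintro (rfl | rfl | hz)
      · exact nx
      · exact ny
      · exact (nI z hz).1
  have c3 : ∀ a b c : Fin 10, a ≠ b → a ≠ c → b ≠ c → ({a, b, c} : Finset (Fin 10)).card = 3 :=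
    fun a b c hab hac hbc => Finset.card_eq_three.mpr ⟨a, b, c, hab, hac, hbc, rfl⟩
  have dJ : ∀ a b c : Fin 10, a ∉ I → b ∉ I → c ∉ I → Disjoint ({a, b, c} : Finset (Fin 10)) I := by
    intro a b c ha hb hc
    rw [Finset.disjoint_left]
    intro z hz
    simp only [Finset.mem_insert, Finset.mem_singleton] at hz
    rcases hz with rfl | rfl | rfl <;> assumption
  -- the general step: for a pair {p, q} of S with the other two r, s:
  have step : ∀ p q r s : Fin 10, p ∉ I → q ∉ I → r ∉ I → s ∉ I → p ≠ q → p ≠ r → p ≠ s →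
      q ≠ r → q ≠ s → r ≠ s → p ≠ x → p ≠ y → q ≠ x → q ≠ y → r ≠ x → r ≠ y → s ≠ x → s ≠ y →
      (∀ z, z ∉ I ↔ (z = x ∨ z = y ∨ z = p ∨ z = q ∨ z = r ∨ z = s)) →
      t {x, p, q} ∧ t {y, p, q} := by
    intro p q r s hp hq hr hs hpq hpr hps hqr hqs hrs hpx hpy hqx hqy hrx hry hsx hsy hJ
    have hpq2 : ({p, q} : Finset (Fin 10)).card = 2 := Finset.card_pair hpq
    have hdd : Disjoint ({p, q} : Finset (Fin 10)) I := by
      rw [Finset.disjoint_left]
      intro z hz
      simp only [Finset.mem_insert, Finset.mem_singleton] at hz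
      rcases hz with rfl | rfl <;> assumption
    obtain ⟨g, hg, hgev, hgne⟩ := hD I {p, q} hI hpq2 hdd tI
    have nr : ¬ t {r, p, q} := by
      rw [hC I {r, p, q} hI (c3 _ _ _ hpr.symm hqr.symm hpq) (dJ _ _ _ hr hp hq) tI, not_not]
      have : Iᶜ \ {r, p, q} = insert s {x, y} := by
        ext z
        simp only [Finset.mem_sdiff, Finset.mem_compl, hJ, Finset.mem_insert,
          Finset.mem_singleton]
        constructor
        · rintro ⟨hz, hz'⟩; tauto
        · rintro (rfl | rfl | rfl) <;> simp [*, Ne.symm, eq_comm] <;> tauto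
      rw [this]
      apply hall
      simp only [Finset.mem_union, Finset.mem_insert, Finset.mem_singleton, not_or]
      exact ⟨hs, hsx, hsy⟩
    have ns : ¬ t {s, p, q} := by
      rw [hC I {s, p, q} hI (c3 _ _ _ hps.symm hqs.symm hpq) (dJ _ _ _ hs hp hq) tI, not_not]
      have : Iᶜ \ {s, p, q} = insert r {x, y} := by
        ext z
        simp only [Finset.mem_sdiff, Finset.mem_compl, hJ, Finset.mem_insert,
          Finset.mem_singleton]
        constructor
        · rintro ⟨hz, hz'⟩; tauto
        · rintro (rfl | rfl | rfl) <;> simp [*, Ne.symm, eq_comm] <;> tauto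
      rw [this]
      apply hall
      simp only [Finset.mem_union, Finset.mem_insert, Finset.mem_singleton, not_or]
      exact ⟨hr, hrx, hry⟩
    have hgsub : g ⊆ {x, y} := by
      intro z hz
      obtain ⟨hz1, hz2⟩ := (hg z).mp hz
      simp only [Finset.mem_union, Finset.mem_insert, Finset.mem_singleton, not_or] at hz1 ⊢
      have := (hJ z).mp hz1.1
      rcases this with h | h | h | h | h | h
      · exact Or.inl h
      · exact Or.inr h
      · exact absurd h hz1.2.1
      · exact absurd h hz1.2.2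
      · subst h; exact absurd hz2 nr
      · subst h; exact absurd hz2 ns
    have hgc : g.card ≤ 2 := le_trans (Finset.card_le_card hgsub) Finset.card_le_two
    have hgp : 0 < g.card := Finset.card_pos.mpr hgne
    obtain ⟨m', hm'⟩ := hgev
    have hg2 : g = {x, y} := Finset.eq_of_subset_of_card_le hgsub (by
      rw [Finset.card_pair hxy]; omega)
    constructor
    · exact ((hg x).mp (by rw [hg2]; simp)).2
    · exact ((hg y).mp (by rw [hg2]; simp)).2
  have st1 := step s1 s2 s3 s4 n1.1 n2.1 n3.1 n4.1 h12.symm h13.symm h14.symm h23 h24 h34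
    n1.2.1 n1.2.2 n2.2.1 n2.2.2 n3.2.1 n3.2.2 n4.2.1 n4.2.2 memJ
  have st2 := step s3 s4 s1 s2 n3.1 n4.1 n1.1 n2.1 h34 h13 h23.symm h14 h24.symm h12.symm
    n3.2.1 n3.2.2 n4.2.1 n4.2.2 n1.2.1 n1.2.2 n2.2.1 n2.2.2 (by
      intro z; rw [memJ]; tauto)
  have := (hC I {x, s1, s2} hI (c3 _ _ _ n1.2.1.symm n2.2.1.symm h12.symm)
    (dJ _ _ _ nx n1.1 n2.1) tI).mp st1.1
  apply this
  have e : Iᶜ \ {x, s1, s2} = {y, s3, s4} := by
    ext z
    simp only [Finset.mem_sdiff, Finset.mem_compl, memJ, Finset.mem_insert,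
      Finset.mem_singleton]
    obtain ⟨_, n1x, n1y⟩ := n1
    obtain ⟨_, n2x, n2y⟩ := n2
    obtain ⟨_, n3x, n3y⟩ := n3
    obtain ⟨_, n4x, n4y⟩ := n4
    constructor
    · rintro ⟨hz, hz'⟩; tauto
    · rintro (rfl | rfl | rfl)
      · exact ⟨by tauto, by
          rintro (h | h | h)
          · exact hxy h.symm
          · exact n1y h.symm
          · exact n2y h.symm⟩
      · exact ⟨by tauto, by
          rintro (h | h | h)
          · exact n3x h
          · exact h13 h
          · exact h23 h.symm⟩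
      · exact ⟨by tauto, by
          rintro (h | h | h)
          · exact n4x h
          · exact h14 h
          · exact h24 h.symm⟩
  rw [e]
  exact st2.2

end Sat

open Crest.Agent.BK.Sat in
theorem sat : S_sat := by
  intro t hmono ⟨I0, hI0, tI0⟩ hC hD hE hF
  -- two disjoint 4-sets are impossible
  have hint : ∀ I K : Finset (Fin 10), I.card = 4 → K.card = 4 → Disjoint I K → t I → ¬ t K := by
    intro I K hI hK hd tI tK
    have he : ((I ∪ K)ᶜ).card = 2 := by
      rw [Finset.card_compl, Finset.card_union_of_disjoint hd, hI, hK]; rfl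
    have hd' : Disjoint (I ∪ K)ᶜ I := by
      rw [Finset.disjoint_left]
      intro z hz hz'
      rw [Finset.mem_compl] at hz
      exact hz (Finset.mem_union_left _ hz')
    obtain ⟨f, hf, -, ⟨s, hs⟩⟩ := hD I (I ∪ K)ᶜ hI he hd' tI
    have h1 := ((hf s).mp hs).2
    have h2 : t (I ∪ K)ᶜ := hmono _ _ (Finset.subset_insert _ _) h1
    apply hF I K _ tI tK h2
    ext z
    simp only [Finset.mem_union, Finset.mem_compl, Finset.mem_univ, iff_true]
    tauto
  have hext : ∀ I L : Finset (Fin 10), I.card = 4 → L.card = 3 → Disjoint L I → t I → t L →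
      ∃ k ∈ I, t (insert k L) := by
    intro I L hI hL hd tI tL
    obtain ⟨k, hk, htk⟩ := hE I L hI hL hd tI tL
    by_cases hkI : k ∈ I
    · exact ⟨k, hkI, htk⟩
    · exfalso
      refine hint I (insert k L) hI (by rw [Finset.card_insert_of_notMem hk, hL]) ?_ tI htk
      rw [disjoint_comm, Finset.disjoint_insert_left]
      exact ⟨hkI, hd⟩
  -- the permutation
  obtain ⟨σ, hσ⟩ : ∃ σ : Fin 10 ≃ Fin 10, D σ 15 = I0 := by
    have hc : Fintype.card {x : Fin 10 // x ∈ I0} = Fintype.card {x : Fin 10 // x.1 < 4} := by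
      rw [Fintype.card_coe, hI0]; rfl
    obtain ⟨e⟩ := Fintype.card_eq.mp hc
    refine ⟨e.extendSubtype, ?_⟩
    ext i
    rw [mem_D]
    have key : ∀ j : Fin 10, Nat.testBit 15 j.1 = true ↔ j.1 < 4 := by decide
    rw [key]
    constructor
    · intro h
      by_contra hi
      exact e.extendSubtype_not_mem i hi h
    · intro h
      exact e.extendSubtype_mem i h
  have hR : Rules (fun n => t (D σ n)) := by
    refine ⟨?_, ?_, ?_, ?_, ?_⟩
    · intro I K h _ tI
      refine hmono _ _ ?_ tI
      have := D_land σ K I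
      rw [h] at this
      rw [this]
      exact Finset.inter_subset_right
    · intro I K hI hK h4 h3 h0 tI
      have := hC (D σ I) (D σ K) (by rw [card_D]; exact dec4 I hI h4)
        (by rw [card_D]; exact dec3 K hK h3) (D_disj h0).symm tI
      show t (D σ K) ↔ ¬ t (D σ (Nat.xor 1023 (Nat.lor I K)))
      rw [this, D_compl, D_lor]
      have e : (D σ I)ᶜ \ D σ K = (D σ I ∪ D σ K)ᶜ := by
        ext z; simp only [Finset.mem_sdiff, Finset.mem_compl, Finset.mem_union]; tauto
      rw [e]
    · intro I K hI hK h4 h4' h0 tI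
      exact hint (D σ I) (D σ K) (by rw [card_D]; exact dec4 I hI h4)
        (by rw [card_D]; exact dec4 K hK h4') (D_disj h0) tI
    · intro I K a b c d hI hK h4 h3 h0 habcd tI tK
      obtain ⟨k, hkI, htk⟩ := hext (D σ I) (D σ K) (by rw [card_D]; exact dec4 I hI h4)
        (by rw [card_D]; exact dec3 K hK h3) (D_disj h0).symm tI tK
      have hmem : Nat.testBit (Nat.lor (Nat.lor (b1 a) (b1 b)) (Nat.lor (b1 c) (b1 d)))
          (σ k).1 = true := by
        rw [habcd]; exact mem_D.mp hkI
      simp only [testBit_lor, testBit_b1, Bool.or_eq_true, decide_eq_true_eq] at hmem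
      have go : ∀ w : Nat, w = (σ k).1 → t (D σ (Nat.lor K (b1 w))) := by
        intro w hw
        have hw10 : w < 10 := by rw [hw]; exact (σ k).2
        rw [D_ins σ K hw10]
        have : σ.symm ⟨w, hw10⟩ = k := by
          rw [Equiv.symm_apply_eq]; ext; exact hw
        rw [this]; exact htk
      rcases hmem with (h | h) | (h | h)
      · exact Or.inl (go _ h)
      · exact Or.inr (Or.inl (go _ h))
      · exact Or.inr (Or.inr (Or.inl (go _ h)))
      · exact Or.inr (Or.inr (Or.inr (go _ h)))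
    · intro I K a b c hI hK h4 h2 h0 h3 h0' tI
      have hlt := P3_lt h3
      have hcard : (D σ (Nat.lor (Nat.lor (b1 a) (b1 b)) (b1 c))).card = 3 := by
        rw [card_D]; exact dec3 _ hlt h3
      have hsmall : ∀ w : Nat, Nat.testBit (Nat.lor (Nat.lor (b1 a) (b1 b)) (b1 c)) w = true →
          w < 10 := by
        intro w hw
        by_contra hcon
        have : Nat.lor (Nat.lor (b1 a) (b1 b)) (b1 c) < 2 ^ w :=
          lt_of_lt_of_le hlt (by
            calc 1024 = 2 ^ 10 := by norm_num
              _ ≤ 2 ^ w := Nat.pow_le_pow_right (by norm_num) (by omega))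
        rw [Nat.testBit_lt_two_pow this] at hw
        exact absurd hw (by simp)
      have ha : a < 10 := hsmall a (by simp [testBit_lor, testBit_b1])
      have hb : b < 10 := hsmall b (by simp [testBit_lor, testBit_b1])
      have hc : c < 10 := hsmall c (by simp [testBit_lor, testBit_b1])
      rw [D_lor, D_lor, D_b1 σ ha, D_b1 σ hb, D_b1 σ hc] at hcard
      have hdis : Disjoint (D σ (Nat.lor (Nat.lor (b1 a) (b1 b)) (b1 c))) (D σ (Nat.lor I K)) :=
        D_disj h0'
      rw [D_lor, D_lor, D_b1 σ ha, D_b1 σ hb, D_b1 σ hc, D_lor] at hdis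
      show (t (D σ (Nat.lor K (b1 a))) ∨ t (D σ (Nat.lor K (b1 b))) ∨
        t (D σ (Nat.lor K (b1 c)))) ∧ ¬ (t (D σ (Nat.lor K (b1 a))) ∧
          t (D σ (Nat.lor K (b1 b))) ∧ t (D σ (Nat.lor K (b1 c))))
      rw [D_ins σ K ha, D_ins σ K hb, D_ins σ K hc]
      have hI4 : (D σ I).card = 4 := by rw [card_D]; exact dec4 I hI h4
      have hK2 : (D σ K).card = 2 := by rw [card_D]; exact dec2 K hK h2
      have hdd : Disjoint (D σ K) (D σ I) := (D_disj h0).symm
      obtain ⟨f, hf, hf2⟩ := two_of_four hC hD hI4 hK2 hdd tI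
      generalize σ.symm ⟨a, ha⟩ = A at *
      generalize σ.symm ⟨b, hb⟩ = B at *
      generalize σ.symm ⟨c, hc⟩ = C at *
      generalize D σ I = I' at *
      generalize D σ K = e at *
      have hsub : ∀ z, z = A ∨ z = B ∨ z = C → z ∉ I' ∪ e := by
        intro z hz
        rw [Finset.disjoint_left] at hdis
        apply hdis
        simp only [Finset.mem_union, Finset.mem_singleton]
        tauto
      have hcard' : ({A, B, C} : Finset (Fin 10)).card = 3 := by
        rw [← hcard]
        congr 1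
        ext z
        simp only [Finset.mem_insert, Finset.mem_singleton, Finset.mem_union]
        tauto
      have hfsub : f ⊆ (I' ∪ e)ᶜ := by
        intro s hs
        rw [Finset.mem_compl]
        exact ((hf s).mp hs).1
      have hABC : ({A, B, C} : Finset (Fin 10)) ⊆ (I' ∪ e)ᶜ := by
        intro z hz
        rw [Finset.mem_compl]
        simp only [Finset.mem_insert, Finset.mem_singleton] at hz
        exact hsub z hz
      have hc4 : ((I' ∪ e)ᶜ).card = 4 := by
        rw [Finset.card_compl, Finset.card_union_of_disjoint hdd.symm, hI4, hK2]; rfl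
      constructor
      · by_contra hcon
        rw [not_or, not_or] at hcon
        have : f ⊆ (I' ∪ e)ᶜ \ {A, B, C} := by
          intro s hs
          rw [Finset.mem_sdiff]
          refine ⟨hfsub hs, ?_⟩
          simp only [Finset.mem_insert, Finset.mem_singleton]
          rintro (rfl | rfl | rfl)
          · exact hcon.1 ((hf _).mp hs).2
          · exact hcon.2.1 ((hf _).mp hs).2
          · exact hcon.2.2 ((hf _).mp hs).2
        have h1 := Finset.card_le_card this
        rw [Finset.card_sdiff_of_subset hABC, hc4, hcard', hf2] at h1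
        omega
      · rintro ⟨h1, h2, h3⟩
        have : ({A, B, C} : Finset (Fin 10)) ⊆ f := by
          intro z hz
          simp only [Finset.mem_insert, Finset.mem_singleton] at hz
          rw [hf]
          refine ⟨hsub z hz, ?_⟩
          rcases hz with rfl | rfl | rfl <;> assumption
        have h1 := Finset.card_le_card this
        rw [hcard', hf2] at h1
        omega
  refine chk_sound hR cert (b1 15) 0 ⟨?_, ?_⟩ cert_ok
  · intro n hn
    rw [testBit_b1, decide_eq_true_eq] at hn
    subst hn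
    show t (D σ 15)
    rw [hσ]; exact tI0
  · intro n hn
    simp at hn

end Crest.Agent.BK
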