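import Crest.Agent.BK.Spec

/-!
Row 50 (S0069).  A small verified refutation checker for the finite contradiction.
Sets `⊆ {0..9}` are coded as numbers `< 1024`; a partial truth assignment on sets is a pair of
1024-bit masks `T` (true), `F` (false).
-/

set_option autoImplicit false

namespace Crest.Agent.BK.Sat

/-- bit test -/
def tb (m n : Nat) : Bool := Nat.beq (Nat.land (Nat.shiftRight m n) 1) 1
/-- single bit -/
def b1 (n : Nat) : Nat := Nat.shiftLeft 1 n

/-- Force the evaluation of a number in the kernel. -/
noncomputable def force (n : Nat) (k : Nat → Bool) : Bool :=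
  Nat.rec (k 0) (fun m _ => k (Nat.succ m)) n

/-- masks of all 4-, 3-, 2-subset codes -/
def P4 : Nat := 0x1000000010001011600000001000101160001011601161668000000010001011600010116011616680001011601161668011616681668688000000001000101160001011601161668000101160116166801161668166868800001011601161668011616681668688001161668166868801668688068808000
def P3 : Nat := 0x100000000000000010000000100010116000000000000000100000001000101160000000100010116000101160116166800000000000000010000000100010116000000010001011600010116011616680000000100010116000101160116166800010116011616680116166816686880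
def P2 : Nat := 0x1000000000000000000000000000000010000000000000001000000010001011600000000000000000000000000000001000000000000000100000001000101160000000000000001000000010001011600000001000101160001011601161668

/-- Unit propagation / conflict with the clause `(pos, neg)`. -/
noncomputable def upd (pos neg T F : Nat) (k : Nat → Nat → Bool) : Bool :=
  force (Nat.xor pos (Nat.land pos F)) fun rp =>
  force (Nat.xor neg (Nat.land neg T)) fun rn =>
  bif Nat.beq rn 0 then
    (bif Nat.beq rp 0 then true
     else bif Nat.beq (Nat.land rp (Nat.pred rp)) 0 then force (Nat.lor T rp) fun T' => k T' F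
     else false)
  else bif Nat.beq rp 0 then
    (bif Nat.beq (Nat.land rn (Nat.pred rn)) 0 then force (Nat.lor F rn) fun F' => k T F'
     else false)
  else false

/-- The clause coded by a hint, in continuation passing style. -/
noncomputable def cls (h : Nat) (k : Nat → Nat → Bool) : Bool :=
  force (Nat.land h 7) fun r =>
  force (Nat.land (Nat.shiftRight h 3) 1023) fun I =>
  force (Nat.land (Nat.shiftRight h 13) 1023) fun K =>
  bif Nat.beq r 0 then
    (bif Nat.beq (Nat.land K I) K then k (b1 K) (b1 I) else false)
  else bif Nat.beq r 6 then
    (bif tb P4 I && tb P4 K && Nat.beq (Nat.land I K) 0 then k 0 (Nat.lor (b1 I) (b1 K)) else false)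
  else bif Nat.beq r 1 then
    (bif tb P4 I && tb P3 K && Nat.beq (Nat.land I K) 0 then
      k (Nat.lor (b1 K) (b1 (Nat.xor 1023 (Nat.lor I K)))) (b1 I) else false)
  else bif Nat.beq r 2 then
    (bif tb P4 I && tb P3 K && Nat.beq (Nat.land I K) 0 then
      k 0 (Nat.lor (b1 I) (Nat.lor (b1 K) (b1 (Nat.xor 1023 (Nat.lor I K))))) else false)
  else
    force (b1 (Nat.land (Nat.shiftRight h 23) 15)) fun a =>
    force (b1 (Nat.land (Nat.shiftRight h 27) 15)) fun b =>
    force (b1 (Nat.land (Nat.shiftRight h 31) 15)) fun c =>
    force (b1 (Nat.land (Nat.shiftRight h 35) 15)) fun d =>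
    bif Nat.beq r 5 then
      (bif tb P4 I && tb P3 K && Nat.beq (Nat.land I K) 0 &&
          Nat.beq (Nat.lor (Nat.lor a b) (Nat.lor c d)) I then
        k (Nat.lor (Nat.lor (b1 (Nat.lor K a)) (b1 (Nat.lor K b)))
          (Nat.lor (b1 (Nat.lor K c)) (b1 (Nat.lor K d)))) (Nat.lor (b1 I) (b1 K)) else false)
    else
      (bif tb P4 I && tb P2 K && Nat.beq (Nat.land I K) 0 &&
          tb P3 (Nat.lor (Nat.lor a b) c) &&
          Nat.beq (Nat.land (Nat.lor (Nat.lor a b) c) (Nat.lor I K)) 0 then
        force (Nat.lor (Nat.lor (b1 (Nat.lor K a)) (b1 (Nat.lor K b))) (b1 (Nat.lor K c)))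
          fun m => bif Nat.beq r 3 then k m (b1 I)
            else bif Nat.beq r 4 then k 0 (Nat.lor (b1 I) m) else false
      else false)

/-- Run a packed list of hints (40 bits each). -/
noncomputable def run (fuel : Nat) : Nat → Nat → Nat → (Nat → Nat → Bool) → Bool :=
  Nat.rec (fun _ _ _ _ => false)
    (fun _ ih code T F k =>
      bif Nat.beq code 0 then k T F else
        cls (Nat.land code 1099511627775) fun pos neg =>
          upd pos neg T F fun T' F' => force (Nat.shiftRight code 40) fun code' => ih code' T' F' k)
    fuel

inductive Tree where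
  | leaf (code : Nat)
  | node (code br : Nat) (l r : Tree)

/-- The checker. -/
noncomputable def chk (t : Tree) : Nat → Nat → Bool :=
  Tree.rec (fun code T F => run 200 code T F fun _ _ => false)
    (fun code br _ _ ihl ihr T F => run 200 code T F fun T' F' =>
      (force (Nat.lor T' (b1 br)) fun T'' => ihl T'' F') &&
      (force (Nat.lor F' (b1 br)) fun F'' => ihr T' F'')) t

end Crest.Agent.BK.Sat
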