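import Crest.Agent.BK.SatCheck

/-!
Row 50 (S0069).  Soundness of the refutation checker.
-/

set_option autoImplicit false
set_option linter.unusedSimpArgs false

namespace Crest.Agent.BK.Sat

lemma tb_eq (m n : Nat) : tb m n = Nat.testBit m n := by
  unfold tb
  have h1 : Nat.land (Nat.shiftRight m n) 1 = (m >>> n) % 2 := Nat.and_one_is_mod _
  rw [h1, Nat.testBit_eq_decide_div_mod_eq, Nat.shiftRight_eq_div_pow, Bool.eq_iff_iff,
    Nat.beq_eq, decide_eq_true_eq]

lemma b1_eq (n : Nat) : b1 n = 2 ^ n := by
  unfold b1
  have : Nat.shiftLeft 1 n = 1 <<< n := rfl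
  rw [this, Nat.one_shiftLeft]

lemma testBit_b1 (n m : Nat) : (b1 n).testBit m = decide (n = m) := by
  rw [b1_eq, Nat.testBit_two_pow]

lemma testBit_lor (x y n : Nat) : (Nat.lor x y).testBit n = (x.testBit n || y.testBit n) :=
  Nat.testBit_or x y n
lemma testBit_land (x y n : Nat) : (Nat.land x y).testBit n = (x.testBit n && y.testBit n) :=
  Nat.testBit_and x y n
lemma testBit_xor (x y n : Nat) : (Nat.xor x y).testBit n = (x.testBit n ^^ y.testBit n) :=
  Nat.testBit_xor x y n

lemma force_eq (n : Nat) (k : Nat → Bool) : force n k = k n := by
  cases n <;> rfl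

/-- the assignment satisfies the clause -/
def SatC (τ : Nat → Prop) (pos neg : Nat) : Prop :=
  (∃ n, pos.testBit n = true ∧ τ n) ∨ (∃ n, neg.testBit n = true ∧ ¬ τ n)

/-- the masks are consistent with the assignment -/
def St (τ : Nat → Prop) (T F : Nat) : Prop :=
  (∀ n, T.testBit n = true → τ n) ∧ (∀ n, F.testBit n = true → ¬ τ n)

lemma single {r : Nat} (h0 : r ≠ 0) (h : Nat.land r (Nat.pred r) = 0) (n m : Nat)
    (hn : r.testBit n = true) (hm : r.testBit m = true) : n = m := by
  have h1 : r &&& (r - 1) = 0 := h
  rw [Nat.and_sub_one_eq_zero_iff_isPowerOfTwo h0] at h1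
  obtain ⟨k, rfl⟩ := h1
  rw [Nat.testBit_two_pow] at hn hm
  simp only [decide_eq_true_eq] at hn hm
  omega

lemma beq_eq {x y : Nat} (h : Nat.beq x y = true) : x = y := Nat.eq_of_beq_eq_true h
lemma beq_ne {x y : Nat} (h : Nat.beq x y = false) : x ≠ y := Nat.ne_of_beq_eq_false h

lemma upd_sound {τ : Nat → Prop} {pos neg T F : Nat} (hc : SatC τ pos neg) (hs : St τ T F)
    {k : Nat → Nat → Bool} (hu : upd pos neg T F k = true) :
    ∃ T' F', St τ T' F' ∧ k T' F' = true := by
  unfold upd at hu
  rw [force_eq, force_eq] at hu
  set rp := Nat.xor pos (Nat.land pos F) with hrp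
  set rn := Nat.xor neg (Nat.land neg T) with hrn
  have bp : ∀ n, rp.testBit n = true ↔ (pos.testBit n = true ∧ F.testBit n = false) := by
    intro n
    rw [hrp, testBit_xor, testBit_land]
    cases pos.testBit n <;> cases F.testBit n <;> simp
  have bn : ∀ n, rn.testBit n = true ↔ (neg.testBit n = true ∧ T.testBit n = false) := by
    intro n
    rw [hrn, testBit_xor, testBit_land]
    cases neg.testBit n <;> cases T.testBit n <;> simp
  rcases hc with ⟨n, hn, ht⟩ | ⟨n, hn, ht⟩
  · have hF : F.testBit n = false := by
      by_contra hcon
      exact hs.2 n (by simpa using hcon) ht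
    have hb : rp.testBit n = true := (bp n).mpr ⟨hn, hF⟩
    have hne : rp ≠ 0 := by rintro h0; rw [h0] at hb; simp at hb
    have hbeq : Nat.beq rp 0 = false := by
      cases hq : Nat.beq rp 0
      · rfl
      · exact absurd (beq_eq hq) hne
    rw [hbeq] at hu
    cases h1 : Nat.beq rn 0
    · rw [h1] at hu; simp at hu
    · rw [h1] at hu
      cases h2 : Nat.beq (Nat.land rp (Nat.pred rp)) 0
      · rw [h2] at hu; simp at hu
      · rw [h2] at hu
        simp only [cond_true, cond_false] at hu
        rw [force_eq] at hu
        refine ⟨_, _, ⟨?_, hs.2⟩, hu⟩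
        intro m hm
        rw [testBit_lor, Bool.or_eq_true] at hm
        rcases hm with hm | hm
        · exact hs.1 m hm
        · rw [single hne (beq_eq h2) m n hm hb]; exact ht
  · have hT : T.testBit n = false := by
      by_contra hcon
      exact ht (hs.1 n (by simpa using hcon))
    have hb : rn.testBit n = true := (bn n).mpr ⟨hn, hT⟩
    have hne : rn ≠ 0 := by rintro h0; rw [h0] at hb; simp at hb
    have hbeq : Nat.beq rn 0 = false := by
      cases hq : Nat.beq rn 0
      · rfl
      · exact absurd (beq_eq hq) hne
    rw [hbeq] at hu
    cases h1 : Nat.beq rp 0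
    · rw [h1] at hu; simp at hu
    · rw [h1] at hu
      cases h2 : Nat.beq (Nat.land rn (Nat.pred rn)) 0
      · rw [h2] at hu; simp at hu
      · rw [h2] at hu
        simp only [cond_true, cond_false] at hu
        rw [force_eq] at hu
        refine ⟨_, _, ⟨hs.1, ?_⟩, hu⟩
        intro m hm
        rw [testBit_lor, Bool.or_eq_true] at hm
        rcases hm with hm | hm
        · exact hs.2 m hm
        · rw [single hne (beq_eq h2) m n hm hb]; exact ht

/-- The rules, in coded form. -/
structure Rules (τ : Nat → Prop) : Prop where
  mono : ∀ I K, Nat.land K I = K → I < 1024 → τ I → τ K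
  xor : ∀ I K, I < 1024 → K < 1024 → tb P4 I = true → tb P3 K = true → Nat.land I K = 0 → τ I →
    (τ K ↔ ¬ τ (Nat.xor 1023 (Nat.lor I K)))
  int : ∀ I K, I < 1024 → K < 1024 → tb P4 I = true → tb P4 K = true → Nat.land I K = 0 → τ I →
    ¬ τ K
  ext : ∀ I K a b c d, I < 1024 → K < 1024 → tb P4 I = true → tb P3 K = true →
    Nat.land I K = 0 → Nat.lor (Nat.lor (b1 a) (b1 b)) (Nat.lor (b1 c) (b1 d)) = I → τ I → τ K →
    τ (Nat.lor K (b1 a)) ∨ τ (Nat.lor K (b1 b)) ∨ τ (Nat.lor K (b1 c)) ∨ τ (Nat.lor K (b1 d))
  three : ∀ I K a b c, I < 1024 → K < 1024 → tb P4 I = true → tb P2 K = true →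
    Nat.land I K = 0 → tb P3 (Nat.lor (Nat.lor (b1 a) (b1 b)) (b1 c)) = true →
    Nat.land (Nat.lor (Nat.lor (b1 a) (b1 b)) (b1 c)) (Nat.lor I K) = 0 → τ I →
    (τ (Nat.lor K (b1 a)) ∨ τ (Nat.lor K (b1 b)) ∨ τ (Nat.lor K (b1 c))) ∧
    ¬ (τ (Nat.lor K (b1 a)) ∧ τ (Nat.lor K (b1 b)) ∧ τ (Nat.lor K (b1 c)))

lemma land1023_lt (x : Nat) : Nat.land x 1023 < 1024 := by
  have : Nat.land x 1023 ≤ 1023 := Nat.and_le_right
  omega

lemma satC_pos {τ : Nat → Prop} {pos neg : Nat} (n : Nat) (h : pos.testBit n = true) (ht : τ n) :
    SatC τ pos neg := Or.inl ⟨n, h, ht⟩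
lemma satC_neg {τ : Nat → Prop} {pos neg : Nat} (n : Nat) (h : neg.testBit n = true)
    (ht : ¬ τ n) : SatC τ pos neg := Or.inr ⟨n, h, ht⟩

lemma cls_sound {τ : Nat → Prop} (hR : Rules τ) {h : Nat} {k : Nat → Nat → Bool}
    (hk : cls h k = true) : ∃ pos neg, SatC τ pos neg ∧ k pos neg = true := by
  unfold cls at hk
  simp only [force_eq] at hk
  have hI := land1023_lt (Nat.shiftRight h 3)
  have hK := land1023_lt (Nat.shiftRight h 13)
  generalize Nat.land h 7 = r at hk
  generalize Nat.land (Nat.shiftRight h 3) 1023 = I at hk hI
  generalize Nat.land (Nat.shiftRight h 13) 1023 = K at hk hK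
  generalize Nat.land (Nat.shiftRight h 23) 15 = a at hk
  generalize Nat.land (Nat.shiftRight h 27) 15 = b at hk
  generalize Nat.land (Nat.shiftRight h 31) 15 = c at hk
  generalize Nat.land (Nat.shiftRight h 35) 15 = d at hk
  by_cases tI : τ I
  swap
  · -- all clauses contain ¬ I
    have key : ∀ pos neg, neg.testBit I = true → k pos neg = true →
        ∃ pos neg, SatC τ pos neg ∧ k pos neg = true :=
      fun pos neg h1 h2 => ⟨pos, neg, satC_neg I h1 tI, h2⟩
    cases e0 : Nat.beq r 0
    · rw [e0] at hk; simp only [cond_false] at hk
      cases e6 : Nat.beq r 6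
      · rw [e6] at hk; simp only [cond_false] at hk
        cases e1 : Nat.beq r 1
        · rw [e1] at hk; simp only [cond_false] at hk
          cases e2 : Nat.beq r 2
          · rw [e2] at hk; simp only [cond_false] at hk
            cases e5 : Nat.beq r 5
            · rw [e5] at hk; simp only [cond_false] at hk
              revert hk
              generalize (tb P4 I && tb P2 K && Nat.beq (Nat.land I K) 0 &&
                tb P3 (Nat.lor (Nat.lor (b1 a) (b1 b)) (b1 c)) &&
                Nat.beq (Nat.land (Nat.lor (Nat.lor (b1 a) (b1 b)) (b1 c)) (Nat.lor I K)) 0) = q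
              intro hk
              cases q
              · simp at hk
              · simp only [cond_true] at hk
                cases e3 : Nat.beq r 3
                · rw [e3] at hk; simp only [cond_false] at hk
                  cases e4 : Nat.beq r 4
                  · rw [e4] at hk; simp at hk
                  · rw [e4] at hk; simp only [cond_true] at hk
                    exact key _ _ (by simp [testBit_lor, testBit_b1]) hk
                · rw [e3] at hk; simp only [cond_true] at hk
                  exact key _ _ (by simp [testBit_b1]) hk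
            · rw [e5] at hk; simp only [cond_true] at hk
              revert hk
              generalize (tb P4 I && tb P3 K && Nat.beq (Nat.land I K) 0 &&
                Nat.beq (Nat.lor (Nat.lor (b1 a) (b1 b)) (Nat.lor (b1 c) (b1 d))) I) = q
              intro hk
              cases q
              · simp at hk
              · simp only [cond_true] at hk
                exact key _ _ (by simp [testBit_lor, testBit_b1]) hk
          · rw [e2] at hk; simp only [cond_true] at hk
            revert hk
            generalize (tb P4 I && tb P3 K && Nat.beq (Nat.land I K) 0) = q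
            intro hk
            cases q
            · simp at hk
            · simp only [cond_true] at hk
              exact key _ _ (by simp [testBit_lor, testBit_b1]) hk
        · rw [e1] at hk; simp only [cond_true] at hk
          revert hk
          generalize (tb P4 I && tb P3 K && Nat.beq (Nat.land I K) 0) = q
          intro hk
          cases q
          · simp at hk
          · simp only [cond_true] at hk
            exact key _ _ (by simp [testBit_b1]) hk
      · rw [e6] at hk; simp only [cond_true] at hk
        revert hk
        generalize (tb P4 I && tb P4 K && Nat.beq (Nat.land I K) 0) = q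
        intro hk
        cases q
        · simp at hk
        · simp only [cond_true] at hk
          exact key _ _ (by simp [testBit_lor, testBit_b1]) hk
    · rw [e0] at hk; simp only [cond_true] at hk
      revert hk
      generalize (Nat.beq (Nat.land K I) K) = q
      intro hk
      cases q
      · simp at hk
      · simp only [cond_true] at hk
        exact key _ _ (by simp [testBit_b1]) hk
  · cases e0 : Nat.beq r 0
    · rw [e0] at hk; simp only [cond_false] at hk
      cases e6 : Nat.beq r 6
      · rw [e6] at hk; simp only [cond_false] at hk
        cases e1 : Nat.beq r 1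
        · rw [e1] at hk; simp only [cond_false] at hk
          cases e2 : Nat.beq r 2
          · rw [e2] at hk; simp only [cond_false] at hk
            cases e5 : Nat.beq r 5
            · rw [e5] at hk; simp only [cond_false] at hk
              cases q : (tb P4 I && tb P2 K && Nat.beq (Nat.land I K) 0 &&
                tb P3 (Nat.lor (Nat.lor (b1 a) (b1 b)) (b1 c)) &&
                Nat.beq (Nat.land (Nat.lor (Nat.lor (b1 a) (b1 b)) (b1 c)) (Nat.lor I K)) 0)
              · rw [q] at hk; simp at hk
              · rw [q] at hk; simp only [cond_true] at hk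
                simp only [Bool.and_eq_true] at q
                obtain ⟨⟨⟨⟨q1, q2⟩, q3⟩, q4⟩, q5⟩ := q
                have := hR.three I K a b c hI hK q1 q2 (beq_eq q3) q4 (beq_eq q5) tI
                cases e3 : Nat.beq r 3
                · rw [e3] at hk; simp only [cond_false] at hk
                  cases e4 : Nat.beq r 4
                  · rw [e4] at hk; simp at hk
                  · rw [e4] at hk; simp only [cond_true] at hk
                    refine ⟨_, _, ?_, hk⟩
                    by_cases ta : τ (Nat.lor K (b1 a))
                    · by_cases tb' : τ (Nat.lor K (b1 b))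
                      · by_cases tc : τ (Nat.lor K (b1 c))
                        · exact absurd ⟨ta, tb', tc⟩ this.2
                        · exact satC_neg _ (by simp [testBit_lor, testBit_b1]) tc
                      · exact satC_neg _ (by simp [testBit_lor, testBit_b1]) tb'
                    · exact satC_neg _ (by simp [testBit_lor, testBit_b1]) ta
                · rw [e3] at hk; simp only [cond_true] at hk
                  refine ⟨_, _, ?_, hk⟩
                  rcases this.1 with ht | ht | ht
                  · exact satC_pos _ (by simp [testBit_lor, testBit_b1]) ht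
                  · exact satC_pos _ (by simp [testBit_lor, testBit_b1]) ht
                  · exact satC_pos _ (by simp [testBit_lor, testBit_b1]) ht
            · rw [e5] at hk; simp only [cond_true] at hk
              cases q : (tb P4 I && tb P3 K && Nat.beq (Nat.land I K) 0 &&
                Nat.beq (Nat.lor (Nat.lor (b1 a) (b1 b)) (Nat.lor (b1 c) (b1 d))) I)
              · rw [q] at hk; simp at hk
              · rw [q] at hk; simp only [cond_true] at hk
                simp only [Bool.and_eq_true] at q
                obtain ⟨⟨⟨q1, q2⟩, q3⟩, q4⟩ := q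
                refine ⟨_, _, ?_, hk⟩
                by_cases tK : τ K
                · rcases hR.ext I K a b c d hI hK q1 q2 (beq_eq q3) (beq_eq q4) tI tK with
                    ht | ht | ht | ht
                  · exact satC_pos _ (by simp [testBit_lor, testBit_b1]) ht
                  · exact satC_pos _ (by simp [testBit_lor, testBit_b1]) ht
                  · exact satC_pos _ (by simp [testBit_lor, testBit_b1]) ht
                  · exact satC_pos _ (by simp [testBit_lor, testBit_b1]) ht
                · exact satC_neg _ (by simp [testBit_lor, testBit_b1]) tK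
          · rw [e2] at hk; simp only [cond_true] at hk
            cases q : (tb P4 I && tb P3 K && Nat.beq (Nat.land I K) 0)
            · rw [q] at hk; simp at hk
            · rw [q] at hk; simp only [cond_true] at hk
              simp only [Bool.and_eq_true] at q
              obtain ⟨⟨q1, q2⟩, q3⟩ := q
              have := hR.xor I K hI hK q1 q2 (beq_eq q3) tI
              refine ⟨_, _, ?_, hk⟩
              by_cases tK : τ K
              · exact satC_neg _ (by simp [testBit_lor, testBit_b1]) (this.mp tK)
              · exact satC_neg _ (by simp [testBit_lor, testBit_b1]) tK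
        · rw [e1] at hk; simp only [cond_true] at hk
          cases q : (tb P4 I && tb P3 K && Nat.beq (Nat.land I K) 0)
          · rw [q] at hk; simp at hk
          · rw [q] at hk; simp only [cond_true] at hk
            simp only [Bool.and_eq_true] at q
            obtain ⟨⟨q1, q2⟩, q3⟩ := q
            have := hR.xor I K hI hK q1 q2 (beq_eq q3) tI
            refine ⟨_, _, ?_, hk⟩
            by_cases tK : τ K
            · exact satC_pos _ (by simp [testBit_lor, testBit_b1]) tK
            · have h2 : τ (Nat.xor 1023 (Nat.lor I K)) := by
                by_contra hcon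
                exact tK (this.mpr hcon)
              exact satC_pos _ (by simp [testBit_lor, testBit_b1]) h2
      · rw [e6] at hk; simp only [cond_true] at hk
        cases q : (tb P4 I && tb P4 K && Nat.beq (Nat.land I K) 0)
        · rw [q] at hk; simp at hk
        · rw [q] at hk; simp only [cond_true] at hk
          simp only [Bool.and_eq_true] at q
          obtain ⟨⟨q1, q2⟩, q3⟩ := q
          exact ⟨_, _, satC_neg K (by simp [testBit_lor, testBit_b1])
            (hR.int I K hI hK q1 q2 (beq_eq q3) tI), hk⟩
    · rw [e0] at hk; simp only [cond_true] at hk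
      cases q : (Nat.beq (Nat.land K I) K)
      · rw [q] at hk; simp at hk
      · rw [q] at hk; simp only [cond_true] at hk
        exact ⟨_, _, satC_pos K (by simp [testBit_b1]) (hR.mono I K (beq_eq q) hI tI), hk⟩

lemma run_sound {τ : Nat → Prop} (hR : Rules τ) (fuel : Nat) : ∀ (code T F : Nat)
    (k : Nat → Nat → Bool), St τ T F → run fuel code T F k = true →
    ∃ T' F', St τ T' F' ∧ k T' F' = true := by
  induction fuel with
  | zero => intro code T F k _ h; exact absurd h (by simp [run])
  | succ n ih =>
    intro code T F k hs h
    have e : run (n + 1) code T F k = (bif Nat.beq code 0 then k T F else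
        cls (Nat.land code 1099511627775) fun pos neg =>
          upd pos neg T F fun T' F' => force (Nat.shiftRight code 40) fun code' =>
            run n code' T' F' k) := rfl
    rw [e] at h
    cases q : Nat.beq code 0
    · rw [q] at h; simp only [cond_false] at h
      obtain ⟨pos, neg, hc, h1⟩ := cls_sound hR h
      obtain ⟨T', F', hs', h2⟩ := upd_sound hc hs h1
      rw [force_eq] at h2
      exact ih _ _ _ _ hs' h2
    · rw [q] at h; simp only [cond_true] at h
      exact ⟨T, F, hs, h⟩

lemma chk_sound {τ : Nat → Prop} (hR : Rules τ) (t : Tree) : ∀ (T F : Nat), St τ T F →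
    chk t T F = true → False := by
  induction t with
  | leaf code =>
    intro T F hs h
    have e : chk (Tree.leaf code) T F = run 200 code T F fun _ _ => false := rfl
    rw [e] at h
    obtain ⟨_, _, _, h1⟩ := run_sound hR 200 code T F _ hs h
    simp at h1
  | node code br l r ihl ihr =>
    intro T F hs h
    have e : chk (Tree.node code br l r) T F = run 200 code T F fun T' F' =>
      (force (Nat.lor T' (b1 br)) fun T'' => chk l T'' F') &&
      (force (Nat.lor F' (b1 br)) fun F'' => chk r T' F'') := rfl
    rw [e] at h
    obtain ⟨T', F', hs', h1⟩ := run_sound hR 200 code T F _ hs h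
    simp only [force_eq, Bool.and_eq_true] at h1
    by_cases ht : τ br
    · refine ihl _ F' ⟨?_, hs'.2⟩ h1.1
      intro n hn
      rw [testBit_lor, testBit_b1, Bool.or_eq_true, decide_eq_true_eq] at hn
      rcases hn with hn | rfl
      · exact hs'.1 n hn
      · exact ht
    · refine ihr T' _ ⟨hs'.1, ?_⟩ h1.2
      intro n hn
      rw [testBit_lor, testBit_b1, Bool.or_eq_true, decide_eq_true_eq] at hn
      rcases hn with hn | rfl
      · exact hs'.2 n hn
      · exact ht

end Crest.Agent.BK.Sat
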