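import Crest.Agent.BK.Basic

/-!
Row 50 (S0069).  Statements of all chunks, as `Prop`s `S_xxx`.
A chunk author proves `theorem xxx : S_xxx` in `Crest/Agent/BK/xxx.lean`.
-/

set_option autoImplicit false

namespace Crest.Agent.BK

open scoped RealInnerProductSpace

/-! ### The reduction of S0069 -/

/-- Chunk BORSUK. Reduction of S0069 to the statement on colourings of nonzero vectors of `ℝ⁴`. -/
def S_borsuk : Prop :=
  (∀ c : V → Fin 10, (∀ v, c (-v) = c v) → ∀ ε : ℝ, 0 < ε →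
      ∃ u v : V, c u = c v ∧ |⟪u.1, v.1⟫| < ε * ‖u.1‖ * ‖v.1‖) →
  ∃ S : Set (EuclideanSpace ℝ (Fin 9)), Bornology.IsBounded S ∧ S.Nontrivial ∧
      ∀ c : EuclideanSpace ℝ (Fin 9) → Fin 10, ∃ i : Fin 10,
        Metric.diam S ≤ Metric.diam (S ∩ c ⁻¹' {i})

/-! ### Existence of the fundamental cycle -/

/-- Chunk EXIST. -/
def S_exist : Prop :=
  ∀ δ : ℝ, 0 < δ → ∃ X : List (V × V × V × V), Cyc3 X ∧ J3 X ∧ ∀ r ∈ X, Sm δ (vs3 r)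

/-! ### Fan's lemma -/

def lt01 {n : ℕ} (a b : Fin n) : ZMod 2 := if a < b then 1 else 0

/-- Three signed labels alternate: the labels are distinct and `sign + rank` is constant. -/
def Alt2 {n : ℕ} (x y z : Fin n × ZMod 2) : Prop :=
  x.1 ≠ y.1 ∧ x.1 ≠ z.1 ∧ y.1 ≠ z.1 ∧
  x.2 + lt01 y.1 x.1 + lt01 z.1 x.1 = y.2 + lt01 x.1 y.1 + lt01 z.1 y.1 ∧
  x.2 + lt01 y.1 x.1 + lt01 z.1 x.1 = z.2 + lt01 x.1 z.1 + lt01 y.1 z.1

instance {n : ℕ} (x y z : Fin n × ZMod 2) : Decidable (Alt2 x y z) := by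
  unfold Alt2; infer_instance

/-- Chunk FAN2. -/
def S_fan2 : Prop :=
  ∀ (X : List (V × V × V)) (κ : V → Fin 6) (s : V → ZMod 2), Cyc2 X → J2 X →
    (∀ v, κ (-v) = κ v) → (∀ v, s (-v) = s v + 1) →
    (∀ r ∈ X, ∀ a ∈ vs2 r, ∀ b ∈ vs2 r, κ a = κ b → s a = s b) →
    ev X (fun r => if Alt2 (κ r.1, s r.1) (κ r.2.1, s r.2.1) (κ r.2.2, s r.2.2) then 1 else 0) = 1

/-- Chunk FAN3. -/
def S_fan3 : Prop :=
  ∀ (X : List (V × V × V × V)) (c : V → Fin 10) (s : V → ZMod 2), Cyc3 X → J3 X →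
    (∀ v, c (-v) = c v) → (∀ v, s (-v) = s v + 1) →
    (∀ r ∈ X, ∀ a ∈ vs3 r, ∀ b ∈ vs3 r, c a = c b → s a = s b) →
    ∃ r ∈ X, ((vs3 r).map c).Nodup

/-! ### T2: circles with three labels -/

/-- The reference function needed in T2. -/
def RefQ (Y : List (V × V)) : Prop :=
  ∃ q : V → V → ZMod 2, (∀ v w, q (-v) w = q v w) ∧ (∀ v w, q v (-w) = q v w) ∧
    (∀ f ∈ Y, ∀ f' ∈ Y, om f.1 f'.1 f'.2 + om f.2 f'.1 f'.2 = 1 → q f.2 f'.2 + q f'.2 f.2 = 1) ∧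
    ev Y (fun f => ev Y (fun f' => om f.1 f'.1 f'.2 * (q f.1 f'.2 + q f.2 f'.2))) = 1

/-- Chunk T2ABS. -/
def S_T2abs : Prop :=
  ∀ (Y : List (V × V)) (κ : V → Fin 3), Cyc1 Y → J1 Y → (∀ v, κ (-v) = κ v) →
    (∀ f ∈ Y, ∀ f' ∈ Y, ∀ a ∈ vs1 f, om a f'.1 f'.2 = 1 →
      ∀ x ∈ vs1 f, ∀ y ∈ vs1 f', κ x ≠ κ y) →
    RefQ Y →
    ∀ x y : Fin 3, x ≠ y →
      ev Y (fun f => if (κ f.1 = x ∧ κ f.2 = y) ∨ (κ f.1 = y ∧ κ f.2 = x) then 1 else 0) = 1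

/-- Chunk T2GEO: near the plane `{b, a}^⊥` a reference function exists. -/
def S_T2geo : Prop :=
  ∀ (δ : ℝ) (b a : V) (Y : List (V × V)), 0 < δ → δ ≤ 1 / 10000 → J1 Y →
    (1 / 2 ≤ ‖b.1‖ ∧ ‖b.1‖ ≤ 1) → (1 / 2 ≤ ‖a.1‖ ∧ ‖a.1‖ ≤ 1) → |⟪b.1, a.1⟫| ≤ 2 * δ →
    (∀ f ∈ Y, Sm δ (vs1 f) ∧ ∀ v ∈ vs1 f, |⟪b.1, v.1⟫| ≤ 2 * δ ∧ |⟪a.1, v.1⟫| ≤ 2 * δ) →
    RefQ Y

/-! ### T3: projective planes with six labels -/

/-- `X` is a small 2-chain near the hyperplane `b^⊥`. -/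
def Nearb (δ : ℝ) (b : V) (X : List (V × V × V)) : Prop :=
  (1 / 2 ≤ ‖b.1‖ ∧ ‖b.1‖ ≤ 1) ∧ ∀ r ∈ X, Sm δ (vs2 r) ∧ ∀ v ∈ vs2 r, |⟪b.1, v.1⟫| ≤ 2 * δ

/-- The labelling separates nearly orthogonal simplices. -/
def Sep2 {L : Type} (X : List (V × V × V)) (κ : V → L) : Prop :=
  ∀ σ ∈ X, ∀ τ ∈ X, ∀ a ∈ vs2 σ, ∀ b ∈ vs2 τ, ∀ b' ∈ vs2 τ, om a b b' = 1 →
    ∀ x ∈ vs2 σ, ∀ y ∈ vs2 τ, κ x ≠ κ y

/-- Label sets. -/
def lab1 {L : Type} [DecidableEq L] (κ : V → L) (r : V × V) : Finset L := {κ r.1, κ r.2}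
def lab2 {L : Type} [DecidableEq L] (κ : V → L) (r : V × V × V) : Finset L :=
  {κ r.1, κ r.2.1, κ r.2.2}
def lab3 {L : Type} [DecidableEq L] (κ : V → L) (r : V × V × V × V) : Finset L :=
  {κ r.1, κ r.2.1, κ r.2.2.1, κ r.2.2.2}

/-- Mod-2 number of 2-simplices with label set `K`. -/
def z {L : Type} [DecidableEq L] (X : List (V × V × V)) (κ : V → L) (K : Finset L) : ZMod 2 :=
  ev X (fun r => if lab2 κ r = K then 1 else 0)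

/-- Mod-2 number of edges with label set `e`. -/
def z1 {L : Type} [DecidableEq L] (Y : List (V × V)) (κ : V → L) (e : Finset L) : ZMod 2 :=
  ev Y (fun r => if lab1 κ r = e then 1 else 0)

/-- The conclusion of T2 for all the circles `D2 σ.1 X`. -/
def T2prop (X : List (V × V × V)) (κ : V → Fin 6) : Prop :=
  ∀ σ ∈ X, (lab2 κ σ).card = 3 → ∀ e : Finset (Fin 6), e.card = 2 → Disjoint e (lab2 κ σ) →
    z1 (D2 σ.1 X) κ e = 1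

/-- Chunk T2X (glue of T2ABS and T2GEO). -/
def S_T2X : Prop :=
  ∀ (δ : ℝ) (b : V) (X : List (V × V × V)) (κ : V → Fin 6), 0 < δ → δ ≤ 1 / 10000 →
    Cyc2 X → J2 X → Nearb δ b X → (∀ v, κ (-v) = κ v) → Sep2 X κ → T2prop X κ

/-- The symmetric kernel. -/
noncomputable def Om (σ τ : V × V × V) : ZMod 2 := om σ.1 τ.1 τ.2.1 + om σ.2.1 τ.1 τ.2.1

/-- The bilinear evaluation `B(G)`. -/
noncomputable def BX (X : List (V × V × V)) (G : V × V → V × V → ZMod 2) : ZMod 2 :=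
  ev X (fun σ => ev X (fun τ => Om σ τ * G σ.2 τ.2))

/-- `min f < min g < max f < max g`. -/
def u2 (κ : V → Fin 6) (f g : V × V) : ZMod 2 :=
  if min (κ f.1) (κ f.2) < min (κ g.1) (κ g.2) ∧ min (κ g.1) (κ g.2) < max (κ f.1) (κ f.2) ∧
      max (κ f.1) (κ f.2) < max (κ g.1) (κ g.2) then 1 else 0

/-- Chunk T3FORM. -/
def S_T3form : Prop :=
  ∀ (X : List (V × V × V)) (κ : V → Fin 6), Cyc2 X → (∀ v, κ (-v) = κ v) → Sep2 X κ →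
    T2prop X κ → BX X (u2 κ) = z X κ {0, 2, 4} + z X κ {1, 3, 5}

/-- Chunk T3IND. -/
def S_T3ind : Prop :=
  ∀ (X : List (V × V × V)) (κ κ' : V → Fin 6), Cyc2 X → (∀ v, κ (-v) = κ v) →
    (∀ v, κ' (-v) = κ' v) → Sep2 X κ → Sep2 X κ' → BX X (u2 κ) = BX X (u2 κ')

/-- Chunk T3REF (from the R3 lemmas and FAN2). -/
def S_T3ref : Prop :=
  ∀ (δ : ℝ) (b : V) (X : List (V × V × V)), 0 < δ → δ ≤ 1 / 10000 →
    Cyc2 X → J2 X → Nearb δ b X →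
    ∃ κ : V → Fin 6, (∀ v, κ (-v) = κ v) ∧ Sep2 X κ ∧ z X κ {0, 2, 4} + z X κ {1, 3, 5} = 1

/-- T3 (glue, lead). -/
def S_T3 : Prop :=
  ∀ (δ : ℝ) (b : V) (X : List (V × V × V)) (κ : V → Fin 6), 0 < δ → δ ≤ 1 / 10000 →
    Cyc2 X → J2 X → Nearb δ b X → (∀ v, κ (-v) = κ v) → Sep2 X κ →
    z X κ {0, 2, 4} + z X κ {1, 3, 5} = 1

/-! ### The reference labelling in `ℝ³` -/

/-- The six lines. -/
def el (i : Fin 6) (x y z : ℝ) : ℝ :=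
  match i with
  | 0 => 2 * y + z
  | 1 => 2 * y - z
  | 2 => -2 * x - y
  | 3 => -2 * x + y
  | 4 => x + 2 * z
  | 5 => -x + 2 * z

/-- Chunk R3CELL: two points of the same cell have a positive inner product. -/
def S_R3cell : Prop :=
  ∀ (i : Fin 6) (x y z x' y' z' : ℝ), (∀ m, |el m x y z| ≤ el i x y z) →
    (∀ m, |el m x' y' z'| ≤ el i x' y' z') →
    el i x y z * el i x' y' z' / 12 ≤ x * x' + y * y' + z * z'

/-- Chunk R3EXCL: signed triples of lines that are never simultaneously near-maximal unless they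
are alternating with label set `{0,2,4}`, or not alternating.  Signs `s, t, u` are `1` or `-1`. -/
def S_R3excl : Prop :=
  ∀ (i j k : Fin 6) (s t u : ℝ) (x y z : ℝ), i < j → j < k → (s = 1 ∨ s = -1) →
    (t = 1 ∨ t = -1) → (u = 1 ∨ u = -1) →
    (∀ m, |el m x y z| ≤ s * el i x y z + 1 / 500) →
    (∀ m, |el m x y z| ≤ t * el j x y z + 1 / 500) →
    (∀ m, |el m x y z| ≤ u * el k x y z + 1 / 500) →
    1 / 20 ≤ x ^ 2 + y ^ 2 + z ^ 2 →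
    ((i = 0 ∧ j = 2 ∧ k = 4) ↔ (s = -t ∧ t = -u)) ∧ ¬ (i = 1 ∧ j = 3 ∧ k = 5)

/-! ### The facts on the label sets of the 3-cycle -/

/-- The standing data: a small 3-cycle and a 10-colouring. -/
structure Dat (δ ε : ℝ) (X : List (V × V × V × V)) (c : V → Fin 10) : Prop where
  hδ : 0 < δ
  hδ' : δ ≤ 1 / 10000
  hε : 100 * δ ≤ ε
  cyc : Cyc3 X
  j : J3 X
  small : ∀ r ∈ X, Sm δ (vs3 r)
  even : ∀ v, c (-v) = c v
  sep : ∀ u v : V, c u = c v → ε * ‖u.1‖ * ‖v.1‖ ≤ |⟪u.1, v.1⟫|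

/-- `J` is contained in the label set of some simplex. -/
def R (X : List (V × V × V × V)) (c : V → Fin 10) (J : Finset (Fin 10)) : Prop :=
  ∃ r ∈ X, J ⊆ lab3 c r

/-- Chunk FACTB (uses FAN3). -/
def S_factB : Prop :=
  ∀ (δ ε : ℝ) (X : List (V × V × V × V)) (c : V → Fin 10), Dat δ ε X c →
    ∃ I : Finset (Fin 10), I.card = 4 ∧ R X c I

/-- Chunk FACTF: the label sets of three simplices never cover everything. -/
def S_factF : Prop :=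
  ∀ (δ ε : ℝ) (X : List (V × V × V × V)) (c : V → Fin 10), Dat δ ε X c →
    ∀ r ∈ X, ∀ s ∈ X, ∀ t ∈ X, lab3 c r ∪ lab3 c s ∪ lab3 c t ≠ Finset.univ

/-- Chunk SLICE: properties of the slice `D3 ρ.1 X` at a simplex with four labels. -/
def S_slice : Prop :=
  ∀ (δ ε : ℝ) (X : List (V × V × V × V)) (c : V → Fin 10), Dat δ ε X c →
    ∀ ρ ∈ X, Cyc2 (D3 ρ.1 X) ∧ J2 (D3 ρ.1 X) ∧ Nearb δ ρ.1 (D3 ρ.1 X) ∧
      (∀ r ∈ D3 ρ.1 X, ∀ v ∈ vs2 r, c v ∉ lab3 c ρ) ∧ Sep2 (D3 ρ.1 X) c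

/-- Chunk FACTC (uses SLICE, T3, FACTF). -/
def S_factC : Prop :=
  ∀ (δ ε : ℝ) (X : List (V × V × V × V)) (c : V → Fin 10), Dat δ ε X c →
    ∀ ρ ∈ X, (lab3 c ρ).card = 4 → ∀ K : Finset (Fin 10), K.card = 3 →
      Disjoint K (lab3 c ρ) →
      (z (D3 ρ.1 X) c K = 1 ↔ R X c K) ∧ (R X c K ↔ ¬ R X c ((lab3 c ρ)ᶜ \ K))

/-- Chunk FACTD0 (uses SLICE, FACTC). -/
def S_factD0 : Prop :=
  ∀ (δ ε : ℝ) (X : List (V × V × V × V)) (c : V → Fin 10), Dat δ ε X c →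
    ∀ ρ ∈ X, (lab3 c ρ).card = 4 → ∀ e : Finset (Fin 10), e.card = 2 →
      Disjoint e (lab3 c ρ) →
      ∑ s ∈ (lab3 c ρ ∪ e)ᶜ, z (D3 ρ.1 X) c (insert s e) = 0

/-- Chunk FACTD1 (uses SLICE, FACTC, T2X, homotopy2). -/
def S_factD1 : Prop :=
  ∀ (δ ε : ℝ) (X : List (V × V × V × V)) (c : V → Fin 10), Dat δ ε X c →
    ∀ ρ ∈ X, (lab3 c ρ).card = 4 → ∀ e : Finset (Fin 10), e.card = 2 →
      Disjoint e (lab3 c ρ) →
      ∃ s, s ∉ lab3 c ρ ∪ e ∧ R X c (insert s e)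

/-- Chunk FACTE (uses SLICE, FACTC, homotopy3). -/
def S_factE : Prop :=
  ∀ (δ ε : ℝ) (X : List (V × V × V × V)) (c : V → Fin 10), Dat δ ε X c →
    ∀ ρ ∈ X, (lab3 c ρ).card = 4 → ∀ L : Finset (Fin 10), L.card = 3 →
      Disjoint L (lab3 c ρ) → R X c L → ∃ k, k ∉ L ∧ R X c (insert k L)

/-! ### The finite contradiction -/

/-- Chunk SAT. -/
def S_sat : Prop :=
  ∀ t : Finset (Fin 10) → Prop,
    (∀ J K, K ⊆ J → t J → t K) →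
    (∃ I : Finset (Fin 10), I.card = 4 ∧ t I) →
    (∀ I K : Finset (Fin 10), I.card = 4 → K.card = 3 → Disjoint K I → t I →
      (t K ↔ ¬ t (Iᶜ \ K))) →
    (∀ (I e : Finset (Fin 10)), I.card = 4 → e.card = 2 → Disjoint e I → t I →
      (∃ f : Finset (Fin 10), (∀ s, s ∈ f ↔ (s ∉ I ∪ e ∧ t (insert s e))) ∧ Even f.card ∧
        f.Nonempty)) →
    (∀ I L : Finset (Fin 10), I.card = 4 → L.card = 3 → Disjoint L I → t I → t L →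
      ∃ k, k ∉ L ∧ t (insert k L)) →
    (∀ I J K : Finset (Fin 10), t I → t J → t K → I ∪ J ∪ K ≠ Finset.univ) →
    False

end Crest.Agent.BK
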