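import Crest.Agent.BK.Spec

/-!
Row 50 (S0069), chunk T2X: glue of T2ABS and T2GEO.
-/

set_option autoImplicit false

namespace Crest.Agent.BK

open scoped RealInnerProductSpace

theorem T2X (h1 : S_T2abs) (h2 : S_T2geo) : S_T2X := by
  intro δ b X κ hδ hδ' hcyc hJ hnear hκ hsep σ hσ hcard e he hdis
  obtain ⟨hb, hX⟩ := hnear
  set Y := D2 σ.1 X with hY
  have hY1 : Cyc1 Y := hcyc.D2 σ.1
  have hY2 : J1 Y := hJ.D2 σ.1
  have hσ1 : σ.1 ∈ vs2 σ := by simp [vs2]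
  obtain ⟨hσs, hσb⟩ := hX σ hσ
  have hσn := hσs.1 σ.1 hσ1
  -- membership
  have hmem : ∀ f ∈ Y, ∃ τ ∈ X, om σ.1 τ.1 τ.2.1 = 1 ∧ τ.2 = f := fun f hf => mem_D2 hf
  have hgeo : ∀ f ∈ Y, Sm δ (vs1 f) ∧ ∀ v ∈ vs1 f, |⟪b.1, v.1⟫| ≤ 2 * δ ∧
      |⟪σ.1.1, v.1⟫| ≤ 2 * δ := by
    intro f hf
    obtain ⟨τ, hτ, hom, rfl⟩ := hmem f hf
    obtain ⟨hs, hbv⟩ := hX τ hτ
    have hsub : ∀ v ∈ vs1 τ.2, v ∈ vs2 τ := by
      intro v hv
      simp only [vs1, vs2, List.mem_cons] at hv ⊢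
      tauto
    have m1 : τ.1 ∈ vs2 τ := by simp [vs2]
    have m2 : τ.2.1 ∈ vs2 τ := by simp [vs2]
    have m3 : τ.2.2 ∈ vs2 τ := by simp [vs2]
    have k1 : |⟪σ.1.1, τ.2.1.1⟫| ≤ δ := by
      refine (om_near' hom).trans ?_
      calc ‖σ.1.1‖ * ‖τ.1.1 - τ.2.1.1‖ ≤ 1 * δ :=
            mul_le_mul hσn.2 (hs.2 _ m1 _ m2) (norm_nonneg _) zero_le_one
        _ = δ := one_mul _
    have k2 : |⟪σ.1.1, τ.2.2.1⟫| ≤ 2 * δ := by
      have e1 : ⟪σ.1.1, τ.2.2.1⟫ = ⟪σ.1.1, τ.2.1.1⟫ + ⟪σ.1.1, τ.2.2.1 - τ.2.1.1⟫ := by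
        rw [inner_sub_right]; ring
      have e2 : |⟪σ.1.1, τ.2.2.1 - τ.2.1.1⟫| ≤ δ := by
        refine (abs_real_inner_le_norm _ _).trans ?_
        calc ‖σ.1.1‖ * ‖τ.2.2.1 - τ.2.1.1‖ ≤ 1 * δ :=
              mul_le_mul hσn.2 (hs.2 _ m3 _ m2) (norm_nonneg _) zero_le_one
          _ = δ := one_mul _
      rw [e1]
      refine (abs_add_le _ _).trans ?_
      linarith
    refine ⟨⟨fun a ha => hs.1 a (hsub a ha), fun a ha c hc => hs.2 a (hsub a ha) c (hsub c hc)⟩,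
      fun v hv => ⟨hbv v (hsub v hv), ?_⟩⟩
    simp only [vs1, List.mem_cons, List.not_mem_nil, or_false] at hv
    rcases hv with rfl | rfl
    · linarith
    · exact k2
  have hQ : RefQ Y := h2 δ b σ.1 Y hδ hδ' hY2 hb hσn (hσb σ.1 hσ1) hgeo
  -- labels avoid `lab2 κ σ`
  have hav : ∀ f ∈ Y, ∀ v ∈ vs1 f, κ v ∉ lab2 κ σ := by
    intro f hf v hv
    obtain ⟨τ, hτ, hom, rfl⟩ := hmem f hf
    have key := hsep σ hσ τ hτ σ.1 hσ1 τ.1 (by simp [vs2]) τ.2.1 (by simp [vs2]) hom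
    have hv2 : v ∈ vs2 τ := by
      simp only [vs1, vs2, List.mem_cons] at hv ⊢
      tauto
    simp only [lab2, Finset.mem_insert, Finset.mem_singleton, not_or]
    exact ⟨(key σ.1 hσ1 v hv2).symm, (key σ.2.1 (by simp [vs2]) v hv2).symm,
      (key σ.2.2 (by simp [vs2]) v hv2).symm⟩
  -- the map ψ
  have hT : ((lab2 κ σ)ᶜ).card = 3 := by
    rw [Finset.card_compl, hcard]; rfl
  let E := Finset.equivFinOfCardEq hT
  let ψ : Fin 6 → Fin 3 := fun x => if h : x ∈ (lab2 κ σ)ᶜ then E ⟨x, h⟩ else 0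
  have hψ : ∀ x y, x ∉ lab2 κ σ → y ∉ lab2 κ σ → ψ x = ψ y → x = y := by
    intro x y hx hy h
    have hx' : x ∈ (lab2 κ σ)ᶜ := Finset.mem_compl.2 hx
    have hy' : y ∈ (lab2 κ σ)ᶜ := Finset.mem_compl.2 hy
    simp only [ψ, dif_pos hx', dif_pos hy'] at h
    have := E.injective h
    exact congrArg Subtype.val this
  obtain ⟨x0, y0, hxy, rfl⟩ := Finset.card_eq_two.1 he
  have hx0 : x0 ∉ lab2 κ σ := Finset.disjoint_left.1 hdis (by simp)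
  have hy0 : y0 ∉ lab2 κ σ := Finset.disjoint_left.1 hdis (by simp)
  have main := h1 Y (fun v => ψ (κ v)) hY1 hY2 (fun v => by simp only [hκ]) (by
    intro f hf f' hf' a ha hom x hx y hy hc
    have hc' := hψ _ _ (hav f hf x hx) (hav f' hf' y hy) hc
    obtain ⟨τ, hτ, homτ, rfl⟩ := hmem f hf
    obtain ⟨τ', hτ', homτ', rfl⟩ := hmem f' hf'
    have s1 : ∀ v ∈ vs1 τ.2, v ∈ vs2 τ := by
      intro v hv
      simp only [vs1, vs2, List.mem_cons] at hv ⊢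
      tauto
    have s2 : ∀ v ∈ vs1 τ'.2, v ∈ vs2 τ' := by
      intro v hv
      simp only [vs1, vs2, List.mem_cons] at hv ⊢
      tauto
    exact hsep τ hτ τ' hτ' a (s1 a ha) τ'.2.1 (by simp [vs2]) τ'.2.2 (by simp [vs2]) hom
      x (s1 x hx) y (s2 y hy) hc') hQ (ψ x0) (ψ y0) (fun h => hxy (hψ _ _ hx0 hy0 h))
  unfold z1
  refine Eq.trans ?_ main
  apply ev_congr
  intro f hf
  have a1 := hav f hf f.1 (by simp [vs1])
  have a2 := hav f hf f.2 (by simp [vs1])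
  have e1 : ψ (κ f.1) = ψ x0 ↔ κ f.1 = x0 := ⟨hψ _ _ a1 hx0, fun h => by rw [h]⟩
  have e2 : ψ (κ f.2) = ψ y0 ↔ κ f.2 = y0 := ⟨hψ _ _ a2 hy0, fun h => by rw [h]⟩
  have e3 : ψ (κ f.1) = ψ y0 ↔ κ f.1 = y0 := ⟨hψ _ _ a1 hy0, fun h => by rw [h]⟩
  have e4 : ψ (κ f.2) = ψ x0 ↔ κ f.2 = x0 := ⟨hψ _ _ a2 hx0, fun h => by rw [h]⟩
  have e5 : lab1 κ f = {x0, y0} ↔ (κ f.1 = x0 ∧ κ f.2 = y0) ∨ (κ f.1 = y0 ∧ κ f.2 = x0) := by
    unfold lab1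
    generalize κ f.1 = p
    generalize κ f.2 = q
    clear * - hxy
    revert x0 y0 p q
    decide
  simp only [e1, e2, e3, e4, e5]

end Crest.Agent.BK
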