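import Crest.Agent.BK.Spec

/-!
Row 50 (S0069).  Chunk T2ABS: circles with three labels, abstract part.
-/

set_option autoImplicit false

namespace Crest.Agent.BK

open scoped RealInnerProductSpace

namespace T2absAux

/-- The symmetric kernel on edges. -/
noncomputable def Om1 (f f' : V × V) : ZMod 2 := om f.1 f'.1 f'.2 + om f.2 f'.1 f'.2

lemma Om1_comm (f f' : V × V) : Om1 f f' = Om1 f' f := by
  unfold Om1 om
  rw [p_comm f'.1 f.1, p_comm f'.1 f.2, p_comm f'.2 f.1, p_comm f'.2 f.2]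
  ring

lemma Om1_self (f : V × V) : Om1 f f = 0 := by
  unfold Om1 om
  rw [p_self, p_self, p_comm f.2 f.1]
  generalize p f.1 f.2 = x
  revert x; decide

/-- The bilinear evaluation. -/
noncomputable def B1 (Y : List (V × V)) (G : V → V → ZMod 2) : ZMod 2 :=
  ev Y (fun f => ev Y (fun f' => Om1 f f' * G f.2 f'.2))

lemma B1_eq {Y : List (V × V)} (hC : Cyc1 Y) (G : V → V → ZMod 2)
    (hG : ∀ v w, G (-v) w = G v w) :
    ev Y (fun f => ev Y (fun f' => om f.1 f'.1 f'.2 * (G f.1 f'.2 + G f.2 f'.2))) = B1 Y G := by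
  have h0 := hC (fun v => ev Y (fun f' => om v f'.1 f'.2 * G v f'.2)) (by
    intro v
    show ev Y _ = ev Y _
    apply ev_congr
    intro f' _
    rw [om_neg_left, hG])
  rw [← zmod2_add_eq_zero, ← h0, B1, ← ev_add]
  apply ev_congr
  intro f _
  show _ = ev Y _ + ev Y _
  rw [← ev_add, ← ev_add]
  apply ev_congr
  intro f' _
  unfold Om1
  generalize om f.1 f'.1 f'.2 = a
  generalize om f.2 f'.1 f'.2 = b
  generalize G f.1 f'.2 = c
  generalize G f.2 f'.2 = d
  revert a b c d; decide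

lemma B1_symm {Y : List (V × V)} (S : V → V → ZMod 2)
    (hS : ∀ f ∈ Y, ∀ f' ∈ Y, Om1 f f' = 1 → S f.2 f'.2 = S f'.2 f.2) : B1 Y S = 0 := by
  apply ev_symm_zero Y (fun f f' => Om1 f f' * S f.2 f'.2)
  · intro f hf f' hf'
    show Om1 f f' * S f.2 f'.2 = Om1 f' f * S f'.2 f.2
    rcases zmod2_cases (Om1 f f') with h | h
    · rw [← Om1_comm f f', h]; ring
    · rw [← Om1_comm f f', h, hS f hf f' hf' h]
  · intro f _
    show Om1 f f * S f.2 f.2 = 0
    rw [Om1_self]; ring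

lemma B1_add (Y : List (V × V)) (G H : V → V → ZMod 2) :
    B1 Y (fun v w => G v w + H v w) = B1 Y G + B1 Y H := by
  unfold B1
  rw [← ev_add]
  apply ev_congr
  intro f _
  rw [← ev_add]
  apply ev_congr
  intro f' _
  ring

/-- The rank of a label. -/
def rk (x y l : Fin 3) : ℕ := if l = x then 0 else if l = y then 2 else 1

/-- The comparison of two labels. -/
def cmp (x y a b : Fin 3) : ZMod 2 := if rk x y a < rk x y b then 1 else 0

lemma cmp_add : ∀ x y a b : Fin 3, x ≠ y → a ≠ b → cmp x y a b + cmp x y b a = 1 := by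
  decide

lemma cmp_eval : ∀ x y a b c : Fin 3, x ≠ y → a ≠ c → b ≠ c →
    cmp x y a c + cmp x y b c = if (a = x ∧ b = y) ∨ (a = y ∧ b = x) then 1 else 0 := by
  decide

end T2absAux

open T2absAux in
/-- Chunk T2ABS. -/
theorem T2abs : S_T2abs := by
  intro Y κ hC hJ hκ hsep hq x y hxy
  obtain ⟨q, hq1, hq2, hq3, hq4⟩ := hq
  -- labels are different on pairs with `Om1 = 1`
  have hlab : ∀ f ∈ Y, ∀ f' ∈ Y, Om1 f f' = 1 → κ f.2 ≠ κ f'.2 := by
    intro f hf f' hf' h
    unfold Om1 at h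
    rcases zmod2_cases (om f.1 f'.1 f'.2) with h1 | h1
    · rw [h1, zero_add] at h
      exact hsep f hf f' hf' f.2 (by simp [vs1]) h f.2 (by simp [vs1]) f'.2 (by simp [vs1])
    · exact hsep f hf f' hf' f.1 (by simp [vs1]) h1 f.2 (by simp [vs1]) f'.2 (by simp [vs1])
  have hB : B1 Y (fun v w => cmp x y (κ v) (κ w) + q v w) = 0 := by
    apply B1_symm
    intro f hf f' hf' h
    have h1 := hq3 f hf f' hf' h
    have h2 := cmp_add x y (κ f.2) (κ f'.2) hxy (hlab f hf f' hf' h)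
    show cmp x y (κ f.2) (κ f'.2) + q f.2 f'.2 = cmp x y (κ f'.2) (κ f.2) + q f'.2 f.2
    revert h1 h2
    generalize cmp x y (κ f.2) (κ f'.2) = a
    generalize cmp x y (κ f'.2) (κ f.2) = b
    generalize q f.2 f'.2 = c
    generalize q f'.2 f.2 = d
    revert a b c d; decide
  rw [B1_add, zmod2_add_eq_zero] at hB
  have h3 := B1_eq hC q hq1
  have h4 := B1_eq hC (fun v w => cmp x y (κ v) (κ w)) (by intro v w; simp only [hκ])
  rw [hq4] at h3
  rw [← h3] at hB
  rw [hB] at h4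
  refine Eq.trans ?_ h4
  apply ev_congr
  intro f hf
  have h5 : ev Y (fun f' => om f.1 f'.1 f'.2 *
      (cmp x y (κ f.1) (κ f'.2) + cmp x y (κ f.2) (κ f'.2))) =
      ev Y (fun f' => om f.1 f'.1 f'.2 *
      (if (κ f.1 = x ∧ κ f.2 = y) ∨ (κ f.1 = y ∧ κ f.2 = x) then 1 else 0)) := by
    apply ev_congr
    intro f' hf'
    rcases zmod2_cases (om f.1 f'.1 f'.2) with h | h
    · rw [h]; ring
    · rw [cmp_eval x y (κ f.1) (κ f.2) (κ f'.2) hxy
        (hsep f hf f' hf' f.1 (by simp [vs1]) h f.1 (by simp [vs1]) f'.2 (by simp [vs1]))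
        (hsep f hf f' hf' f.1 (by simp [vs1]) h f.2 (by simp [vs1]) f'.2 (by simp [vs1]))]
  rw [h5, ev_mul_right, hJ f.1, one_mul]

end Crest.Agent.BK
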