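import Crest.Agent.BK.Spec

/-!
Row 50 (S0069), chunk T2GEO: near a plane of `ℝ⁴` a reference function exists.
-/

set_option autoImplicit false

namespace Crest.Agent.BK

open scoped RealInnerProductSpace

namespace T2geo

lemma inner4 (v w : E4) : ⟪v, w⟫ = v 0 * w 0 + v 1 * w 1 + v 2 * w 2 + v 3 * w 3 := by
  rw [PiLp.inner_apply, Fin.sum_univ_four]
  simp only [RCLike.inner_apply, conj_trivial]
  ring

def LX (b v : E4) : ℝ := -(b 1) * v 0 + b 0 * v 1 - b 3 * v 2 + b 2 * v 3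
def LY (b v : E4) : ℝ := -(b 2) * v 0 + b 3 * v 1 + b 0 * v 2 - b 1 * v 3
def LZ (b v : E4) : ℝ := -(b 3) * v 0 - b 2 * v 1 + b 1 * v 2 + b 0 * v 3

lemma L_dot (b v w : E4) : LX b v * LX b w + LY b v * LY b w + LZ b v * LZ b w
    = ⟪b, b⟫ * ⟪v, w⟫ - ⟪b, v⟫ * ⟪b, w⟫ := by
  simp only [inner4, LX, LY, LZ]
  ring

/-- determinant of `L a, L v, L w` -/
def Det (b a v w : E4) : ℝ :=
  LX b a * (LY b v * LZ b w - LZ b v * LY b w) - LY b a * (LX b v * LZ b w - LZ b v * LX b w)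
    + LZ b a * (LX b v * LY b w - LY b v * LX b w)

lemma Det_swap (b a v w : E4) : Det b a w v = -Det b a v w := by
  unfold Det; ring

lemma Det_neg_left (b a v w : E4) : Det b a (-v) w = -Det b a v w := by
  simp only [Det, LX, LY, LZ, PiLp.neg_apply]; ring

lemma Det_neg_right (b a v w : E4) : Det b a v (-w) = -Det b a v w := by
  simp only [Det, LX, LY, LZ, PiLp.neg_apply]; ring

lemma Det_sub (b a u v w : E4) : Det b a (u - v) w = Det b a u w - Det b a v w := by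
  simp only [Det, LX, LY, LZ, PiLp.sub_apply]; ring

lemma gram (x1 x2 x3 y1 y2 y3 z1 z2 z3 : ℝ) :
    (x1 * (y2 * z3 - y3 * z2) - x2 * (y1 * z3 - y3 * z1) + x3 * (y1 * z2 - y2 * z1)) ^ 2
      = (x1 * x1 + x2 * x2 + x3 * x3) * (y1 * y1 + y2 * y2 + y3 * y3)
          * (z1 * z1 + z2 * z2 + z3 * z3)
        + 2 * (x1 * y1 + x2 * y2 + x3 * y3) * (y1 * z1 + y2 * z2 + y3 * z3)
          * (x1 * z1 + x2 * z2 + x3 * z3)
        - (x1 * x1 + x2 * x2 + x3 * x3) * (y1 * z1 + y2 * z2 + y3 * z3) ^ 2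
        - (y1 * y1 + y2 * y2 + y3 * y3) * (x1 * z1 + x2 * z2 + x3 * z3) ^ 2
        - (z1 * z1 + z2 * z2 + z3 * z3) * (x1 * y1 + x2 * y2 + x3 * y3) ^ 2 := by
  ring

lemma gram_bound (xx yy zz xy yz zx : ℝ) (hx : 1 / 20 ≤ xx) (hy : 1 / 20 ≤ yy) (hz : 1 / 20 ≤ zz)
    (hx' : xx ≤ 1) (hy' : yy ≤ 1) (hz' : zz ≤ 1) (h1 : |xy| ≤ 3 / 10000) (h2 : |yz| ≤ 3 / 10000)
    (h3 : |zx| ≤ 3 / 10000) :
    1 / 10000 < xx * yy * zz + 2 * xy * yz * zx - xx * yz ^ 2 - yy * zx ^ 2 - zz * xy ^ 2 := by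
  have a1 : 1 / 400 ≤ xx * yy := by nlinarith
  have a2 : 1 / 8000 ≤ xx * yy * zz := by nlinarith
  have s1 : xy ^ 2 ≤ (3 / 10000) ^ 2 := by
    rw [← sq_abs xy]; exact pow_le_pow_left₀ (abs_nonneg _) h1 2
  have s2 : yz ^ 2 ≤ (3 / 10000) ^ 2 := by
    rw [← sq_abs yz]; exact pow_le_pow_left₀ (abs_nonneg _) h2 2
  have s3 : zx ^ 2 ≤ (3 / 10000) ^ 2 := by
    rw [← sq_abs zx]; exact pow_le_pow_left₀ (abs_nonneg _) h3 2
  have t1 : xx * yz ^ 2 ≤ (3 / 10000) ^ 2 := by nlinarith [sq_nonneg yz]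
  have t2 : yy * zx ^ 2 ≤ (3 / 10000) ^ 2 := by nlinarith [sq_nonneg zx]
  have t3 : zz * xy ^ 2 ≤ (3 / 10000) ^ 2 := by nlinarith [sq_nonneg xy]
  have u : |xy * yz * zx| ≤ (3 / 10000) * (3 / 10000) * (3 / 10000) := by
    rw [abs_mul, abs_mul]
    exact mul_le_mul (mul_le_mul h1 h2 (abs_nonneg _) (by norm_num)) h3 (abs_nonneg _) (by norm_num)
  have u' := (abs_le.1 u).1
  have u'' : 2 * xy * yz * zx = 2 * (xy * yz * zx) := by ring
  rw [u'']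
  norm_num at *
  linarith

/-- lower bound of the determinant -/
lemma Det_big {δ : ℝ} {b a v w : E4} (hδ : 0 < δ) (hδ' : δ ≤ 1 / 10000)
    (hb : 1 / 2 ≤ ‖b‖ ∧ ‖b‖ ≤ 1) (ha : 1 / 2 ≤ ‖a‖ ∧ ‖a‖ ≤ 1) (hv : 1 / 2 ≤ ‖v‖ ∧ ‖v‖ ≤ 1)
    (hw : 1 / 2 ≤ ‖w‖ ∧ ‖w‖ ≤ 1) (hba : |⟪b, a⟫| ≤ 2 * δ) (hbv : |⟪b, v⟫| ≤ 2 * δ)
    (hbw : |⟪b, w⟫| ≤ 2 * δ) (hav : |⟪a, v⟫| ≤ 2 * δ) (haw : |⟪a, w⟫| ≤ 2 * δ)
    (hvw : |⟪v, w⟫| ≤ 2 * δ) : 1 / 10000 < Det b a v w ^ 2 := by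
  have hbb : 1 / 4 ≤ ⟪b, b⟫ ∧ ⟪b, b⟫ ≤ 1 := by
    rw [real_inner_self_eq_norm_sq]; constructor <;> nlinarith [hb.1, hb.2]
  have haa : 1 / 4 ≤ ⟪a, a⟫ ∧ ⟪a, a⟫ ≤ 1 := by
    rw [real_inner_self_eq_norm_sq]; constructor <;> nlinarith [ha.1, ha.2]
  have hvv : 1 / 4 ≤ ⟪v, v⟫ ∧ ⟪v, v⟫ ≤ 1 := by
    rw [real_inner_self_eq_norm_sq]; constructor <;> nlinarith [hv.1, hv.2]
  have hww : 1 / 4 ≤ ⟪w, w⟫ ∧ ⟪w, w⟫ ≤ 1 := by
    rw [real_inner_self_eq_norm_sq]; constructor <;> nlinarith [hw.1, hw.2]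
  -- diagonal terms
  have diag : ∀ u : E4, (1 / 4 ≤ ⟪u, u⟫ ∧ ⟪u, u⟫ ≤ 1) → |⟪b, u⟫| ≤ 2 * δ →
      1 / 20 ≤ ⟪b, b⟫ * ⟪u, u⟫ - ⟪b, u⟫ * ⟪b, u⟫ ∧ ⟪b, b⟫ * ⟪u, u⟫ - ⟪b, u⟫ * ⟪b, u⟫ ≤ 1 := by
    intro u hu hbu
    have h1 : ⟪b, u⟫ * ⟪b, u⟫ ≤ (1 / 5000) * (1 / 5000) := by
      rw [← abs_mul_abs_self ⟪b, u⟫]
      have : |⟪b, u⟫| ≤ 1 / 5000 := by linarith
      exact mul_le_mul this this (abs_nonneg _) (by norm_num)
    have h2 : 0 ≤ ⟪b, u⟫ * ⟪b, u⟫ := mul_self_nonneg _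
    constructor
    · nlinarith [hu.1, hbb.1]
    · nlinarith [hu.1, hu.2, hbb.1, hbb.2]
  -- off-diagonal terms
  have off : ∀ u u' : E4, |⟪u, u'⟫| ≤ 2 * δ → |⟪b, u⟫| ≤ 2 * δ → |⟪b, u'⟫| ≤ 2 * δ →
      |⟪b, b⟫ * ⟪u, u'⟫ - ⟪b, u⟫ * ⟪b, u'⟫| ≤ 3 / 10000 := by
    intro u u' h1 h2 h3
    refine (abs_sub _ _).trans ?_
    rw [abs_mul, abs_mul]
    have hbb' : |⟪b, b⟫| ≤ 1 := by rw [abs_of_nonneg (by linarith [hbb.1])]; exact hbb.2
    have e1 : |⟪b, b⟫| * |⟪u, u'⟫| ≤ 1 * (1 / 5000) :=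
      mul_le_mul hbb' (by linarith) (abs_nonneg _) (by norm_num)
    have e2 : |⟪b, u⟫| * |⟪b, u'⟫| ≤ (1 / 5000) * (1 / 5000) :=
      mul_le_mul (by linarith) (by linarith) (abs_nonneg _) (by norm_num)
    norm_num at *
    linarith
  have key := gram_bound _ _ _ _ _ _ (diag a haa hba).1 (diag v hvv hbv).1 (diag w hww hbw).1
    (diag a haa hba).2 (diag v hvv hbv).2 (diag w hww hbw).2
    (off a v hav hba hbv) (off v w hvw hbv hbw) (off a w haw hba hbw)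
  simp only [← L_dot] at key
  unfold Det
  rw [gram]
  exact key

lemma L_coord {b u : E4} {c : ℝ} (hb : ‖b‖ ≤ 1) (hu : ‖u‖ ≤ c) :
    |LX b u| ≤ c ∧ |LY b u| ≤ c ∧ |LZ b u| ≤ c := by
  have hc : 0 ≤ c := (norm_nonneg u).trans hu
  have h := L_dot b u u
  rw [real_inner_self_eq_norm_sq, real_inner_self_eq_norm_sq] at h
  have h1 : ‖b‖ ^ 2 * ‖u‖ ^ 2 ≤ c ^ 2 := by
    have e1 : ‖b‖ ^ 2 ≤ 1 := by nlinarith [norm_nonneg b]
    have e2 : ‖u‖ ^ 2 ≤ c ^ 2 := pow_le_pow_left₀ (norm_nonneg u) hu 2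
    nlinarith [sq_nonneg ‖b‖, sq_nonneg ‖u‖]
  have h2 : 0 ≤ ⟪b, u⟫ * ⟪b, u⟫ := mul_self_nonneg _
  refine ⟨abs_le_of_sq_le_sq ?_ hc, abs_le_of_sq_le_sq ?_ hc, abs_le_of_sq_le_sq ?_ hc⟩ <;>
    nlinarith [sq_nonneg (LX b u), sq_nonneg (LY b u), sq_nonneg (LZ b u)]

lemma Det_small {δ : ℝ} {b a u w : E4} (hb : ‖b‖ ≤ 1) (ha : ‖a‖ ≤ 1) (hw : ‖w‖ ≤ 1)
    (hu : ‖u‖ ≤ δ) : |Det b a u w| ≤ 6 * δ := by
  have hδ : 0 ≤ δ := (norm_nonneg u).trans hu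
  obtain ⟨a1, a2, a3⟩ := L_coord hb ha
  obtain ⟨w1, w2, w3⟩ := L_coord hb hw
  obtain ⟨u1, u2, u3⟩ := L_coord hb hu
  have T : ∀ x y z : ℝ, |x| ≤ 1 → |y| ≤ δ → |z| ≤ 1 → |x * (y * z)| ≤ δ := by
    intro x y z hx hy hz
    rw [abs_mul, abs_mul]
    have e1 : |y| * |z| ≤ δ * 1 := mul_le_mul hy hz (abs_nonneg _) hδ
    have e2 : |x| * (|y| * |z|) ≤ 1 * (δ * 1) :=
      mul_le_mul hx e1 (mul_nonneg (abs_nonneg _) (abs_nonneg _)) (by norm_num)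
    linarith
  have t1 := abs_le.1 (T _ _ _ a1 u2 w3)
  have t2 := abs_le.1 (T _ _ _ a1 u3 w2)
  have t3 := abs_le.1 (T _ _ _ a2 u1 w3)
  have t4 := abs_le.1 (T _ _ _ a2 u3 w1)
  have t5 := abs_le.1 (T _ _ _ a3 u1 w2)
  have t6 := abs_le.1 (T _ _ _ a3 u2 w1)
  unfold Det
  rw [abs_le]
  constructor <;> linarith [t1.1, t1.2, t2.1, t2.2, t3.1, t3.2, t4.1, t4.2, t5.1, t5.2, t6.1, t6.2]

/-- sign bit of the determinant -/
noncomputable def sg (b a : E4) (v w : V) : ZMod 2 :=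
  if 0 < Det b a v.1 w.1 then 1 else if Det b a v.1 w.1 < 0 then 0 else rb v + rb w

lemma sg_neg_left (b a : E4) (v w : V) : sg b a (-v) w = sg b a v w + 1 := by
  unfold sg
  rw [neg_val, Det_neg_left, rb_neg]
  rcases lt_trichotomy (Det b a v.1 w.1) 0 with h | h | h
  · have h1 : ¬ (0 < Det b a v.1 w.1) := by linarith
    simp [h, h1]
  · simp [h]; ring
  · have h1 : ¬ (Det b a v.1 w.1 < 0) := by linarith
    simp [h, h1]; decide

lemma sg_neg_right (b a : E4) (v w : V) : sg b a v (-w) = sg b a v w + 1 := by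
  unfold sg
  rw [neg_val, Det_neg_right, rb_neg]
  rcases lt_trichotomy (Det b a v.1 w.1) 0 with h | h | h
  · have h1 : ¬ (0 < Det b a v.1 w.1) := by linarith
    simp [h, h1]
  · simp [h]; ring
  · have h1 : ¬ (Det b a v.1 w.1 < 0) := by linarith
    simp [h, h1]; decide

lemma sg_swap (b a : E4) (v w : V) (h : Det b a v.1 w.1 ≠ 0) : sg b a v w + sg b a w v = 1 := by
  unfold sg
  rw [Det_swap b a v.1 w.1]
  rcases lt_or_gt_of_ne h with h | h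
  · have h1 : ¬ (0 < Det b a v.1 w.1) := by linarith
    simp [h, h1]
  · have h1 : ¬ (Det b a v.1 w.1 < 0) := by linarith
    simp [h, h1]

/-- the reference function -/
noncomputable def q (b : V) (a : E4) (v w : V) : ZMod 2 := p b v + p b w + sg b.1 a v w

lemma q_neg_left (b : V) (a : E4) (v w : V) : q b a (-v) w = q b a v w := by
  unfold q
  rw [p_neg_right, sg_neg_left]
  generalize p b v = x
  generalize p b w = y
  generalize sg b.1 a v w = z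
  revert x y z; decide

lemma q_neg_right (b : V) (a : E4) (v w : V) : q b a v (-w) = q b a v w := by
  unfold q
  rw [p_neg_right, sg_neg_right]
  generalize p b v = x
  generalize p b w = y
  generalize sg b.1 a v w = z
  revert x y z; decide

end T2geo

open T2geo in
theorem T2geo : S_T2geo := by
  intro δ b a Y hδ hδ' hJ hb ha hba hY
  -- basic facts on pairs of edges
  have near : ∀ f ∈ Y, ∀ f' ∈ Y, ∀ x ∈ vs1 f, om x f'.1 f'.2 = 1 → ∀ y ∈ vs1 f,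
      1 / 10000 < Det b.1 a.1 y.1 f'.2.1 ^ 2 := by
    intro f hf f' hf' x hx hom y hy
    obtain ⟨⟨hn, hd⟩, hp⟩ := hY f hf
    obtain ⟨⟨hn', hd'⟩, hp'⟩ := hY f' hf'
    have m1 : f'.1 ∈ vs1 f' := by simp [vs1]
    have m2 : f'.2 ∈ vs1 f' := by simp [vs1]
    have h1 : |⟪x.1, f'.2.1⟫| ≤ δ := by
      refine (om_near' hom).trans ?_
      have e1 := (hn x hx).2
      have e2 := hd' _ m1 _ m2
      calc ‖x.1‖ * ‖f'.1.1 - f'.2.1‖ ≤ 1 * δ := mul_le_mul e1 e2 (norm_nonneg _) (by norm_num)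
        _ = δ := one_mul δ
    have h2 : |⟪y.1, f'.2.1⟫| ≤ 2 * δ := by
      have e : ⟪y.1, f'.2.1⟫ = ⟪x.1, f'.2.1⟫ + ⟪y.1 - x.1, f'.2.1⟫ := by
        rw [inner_sub_left]; ring
      rw [e]
      refine (abs_add_le _ _).trans ?_
      have e3 : |⟪y.1 - x.1, f'.2.1⟫| ≤ δ := by
        refine (abs_real_inner_le_norm _ _).trans ?_
        calc ‖y.1 - x.1‖ * ‖f'.2.1‖ ≤ δ * 1 :=
              mul_le_mul (hd y hy x hx) (hn' _ m2).2 (norm_nonneg _) hδ.le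
          _ = δ := mul_one δ
      linarith
    exact Det_big hδ hδ' hb ha (hn y hy) (hn' _ m2) hba (hp y hy).1 (hp' _ m2).1 (hp y hy).2
      (hp' _ m2).2 h2
  refine ⟨q b a.1, q_neg_left b a.1, q_neg_right b a.1, ?_, ?_⟩
  · intro f hf f' hf' hsum
    have m1 : f.1 ∈ vs1 f := by simp [vs1]
    have m2 : f.2 ∈ vs1 f := by simp [vs1]
    have hD : Det b.1 a.1 f.2.1 f'.2.1 ≠ 0 := by
      have hor : om f.1 f'.1 f'.2 = 1 ∨ om f.2 f'.1 f'.2 = 1 := by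
        revert hsum
        generalize om f.1 f'.1 f'.2 = x
        generalize om f.2 f'.1 f'.2 = y
        revert x y; decide
      rcases hor with h | h
      · have := near f hf f' hf' _ m1 h _ m2
        intro h0; rw [h0] at this; norm_num at this
      · have := near f hf f' hf' _ m2 h _ m2
        intro h0; rw [h0] at this; norm_num at this
    have hs := sg_swap b.1 a.1 f.2 f'.2 hD
    unfold q
    revert hs
    generalize p b f.2 = x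
    generalize p b f'.2 = y
    generalize sg b.1 a.1 f.2 f'.2 = z
    generalize sg b.1 a.1 f'.2 f.2 = t
    revert x y z t; decide
  · have step : ∀ f ∈ Y, ev Y (fun f' => om f.1 f'.1 f'.2 * (q b a.1 f.1 f'.2 + q b a.1 f.2 f'.2))
        = om b f.1 f.2 := by
      intro f hf
      have m1 : f.1 ∈ vs1 f := by simp [vs1]
      have m2 : f.2 ∈ vs1 f := by simp [vs1]
      have hc : ev Y (fun f' => om f.1 f'.1 f'.2 * (q b a.1 f.1 f'.2 + q b a.1 f.2 f'.2))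
          = ev Y (fun f' => om f.1 f'.1 f'.2 * om b f.1 f.2) := by
        apply ev_congr
        intro f' hf'
        rcases zmod2_cases (om f.1 f'.1 f'.2) with h | h
        · rw [h, zero_mul, zero_mul]
        · rw [h, one_mul, one_mul]
          have d1 := near f hf f' hf' _ m1 h _ m1
          have d2 := near f hf f' hf' _ m1 h _ m2
          have hs : sg b.1 a.1 f.1 f'.2 = sg b.1 a.1 f.2 f'.2 := by
            obtain ⟨⟨hn, hd⟩, hp⟩ := hY f hf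
            obtain ⟨⟨hn', hd'⟩, hp'⟩ := hY f' hf'
            have m2' : f'.2 ∈ vs1 f' := by simp [vs1]
            have hsm := Det_small (w := f'.2.1) hb.2 ha.2 (hn' _ m2').2 (hd _ m1 _ m2)
            rw [Det_sub] at hsm
            have hsm' := abs_le.1 hsm
            unfold sg
            rcases lt_trichotomy (Det b.1 a.1 f.1.1 f'.2.1) 0 with h1 | h1 | h1
            · have h2 : Det b.1 a.1 f.2.1 f'.2.1 < 0 := by
                by_contra hcon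
                rw [not_lt] at hcon
                nlinarith [hsm'.1, hsm'.2]
              have h3 : ¬ (0 < Det b.1 a.1 f.1.1 f'.2.1) := by linarith
              have h4 : ¬ (0 < Det b.1 a.1 f.2.1 f'.2.1) := by linarith
              simp [h1, h2, h3, h4]
            · rw [h1] at d1; norm_num at d1
            · have h2 : 0 < Det b.1 a.1 f.2.1 f'.2.1 := by
                by_contra hcon
                rw [not_lt] at hcon
                nlinarith [hsm'.1, hsm'.2]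
              simp [h1, h2]
          unfold q om
          rw [hs]
          generalize p b f.1 = x
          generalize p b f.2 = y
          generalize p b f'.2 = z
          generalize sg b.1 a.1 f.2 f'.2 = t
          revert x y z t; decide
      rw [hc, ev_mul_right, hJ f.1, one_mul]
    rw [ev_congr step]
    exact hJ b

end Crest.Agent.BK
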