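import Crest.Agent.BK.Spec

/-!
Row 50 (S0069), chunk T3FORM: `B(u2) = z{0,2,4} + z{1,3,5}`.
-/

set_option autoImplicit false

namespace Crest.Agent.BK

open scoped RealInnerProductSpace

/-- `u2` on labels. -/
def U4 (a b d e : Fin 6) : ZMod 2 :=
  if min a b < min d e ∧ min d e < max a b ∧ max a b < max d e then 1 else 0

/-- sum of `U4` over the faces of a triangle. -/
def W5 (a b c d e : Fin 6) : ZMod 2 := U4 b c d e + U4 a c d e + U4 a b d e

lemma U4_self_left (a d e : Fin 6) : U4 a a d e = 0 := by
  unfold U4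
  rw [if_neg]
  rintro ⟨h1, h2, -⟩
  rw [min_self] at h1
  rw [max_self] at h2
  exact absurd (h1.trans h2) (lt_irrefl _)

lemma U4_self_right (a b d : Fin 6) : U4 a b d d = 0 := by
  unfold U4
  rw [if_neg]
  rintro ⟨h1, h2, h3⟩
  rw [min_self] at h2
  rw [max_self] at h3
  exact absurd (h2.trans h3) (lt_irrefl _)

lemma U4_comm_left (a b d e : Fin 6) : U4 a b d e = U4 b a d e := by
  unfold U4; rw [min_comm a b, max_comm a b]

lemma U4_comm_right (a b d e : Fin 6) : U4 a b d e = U4 a b e d := by
  unfold U4; rw [min_comm d e, max_comm d e]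

lemma W5_comm (a b c d e : Fin 6) : W5 a b c d e = W5 a b c e d := by
  unfold W5; rw [U4_comm_right b c, U4_comm_right a c, U4_comm_right a b]

lemma W5_self (a b c d : Fin 6) : W5 a b c d d = 0 := by
  unfold W5; rw [U4_self_right, U4_self_right, U4_self_right]; rfl

/-- grouping by label sets -/
lemma ev_group (Y : List (V × V)) (κ : V → Fin 6) (Φ : Fin 6 → Fin 6 → ZMod 2)
    (hs : ∀ x y, Φ x y = Φ y x) (h0 : ∀ x, Φ x x = 0) :
    ev Y (fun g => Φ (κ g.1) (κ g.2)) =
      ∑ x, ∑ y, if x < y then Φ x y * z1 Y κ {x, y} else 0 := by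
  have key : ∀ d e : Fin 6, Φ d e = ∑ x, ∑ y, if x < y then
      Φ x y * (if ({d, e} : Finset (Fin 6)) = {x, y} then 1 else 0) else 0 := by
    have main : ∀ d e : Fin 6, d < e → Φ d e = ∑ x, ∑ y, if x < y then
        Φ x y * (if ({d, e} : Finset (Fin 6)) = {x, y} then 1 else 0) else 0 := by
      intro d e hde
      have hiff : ∀ x y : Fin 6, x < y → (({d, e} : Finset (Fin 6)) = {x, y} ↔ x = d ∧ y = e) := by
        intro x y hxy
        constructor
        · intro h
          have h1 : x ∈ ({d, e} : Finset (Fin 6)) := by rw [h]; simp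
          have h2 : y ∈ ({d, e} : Finset (Fin 6)) := by rw [h]; simp
          simp only [Finset.mem_insert, Finset.mem_singleton] at h1 h2
          omega
        · rintro ⟨rfl, rfl⟩; rfl
      rw [Finset.sum_eq_single d, Finset.sum_eq_single e]
      · simp [hde]
      · intro y _ hy
        split_ifs with h1 h2
        · exact absurd ((hiff _ _ h1).1 h2).2 hy
        · simp
        · rfl
      · simp
      · intro x _ hx
        apply Finset.sum_eq_zero
        intro y _
        split_ifs with h1 h2
        · exact absurd ((hiff _ _ h1).1 h2).1 hx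
        · simp
        · rfl
      · simp
    intro d e
    rcases lt_trichotomy d e with h | h | h
    · exact main d e h
    · subst h
      rw [h0]
      symm
      apply Finset.sum_eq_zero
      intro x _
      apply Finset.sum_eq_zero
      intro y _
      split_ifs with h1 h2
      · exfalso
        have h3 : x ∈ ({d, d} : Finset (Fin 6)) := by rw [h2]; simp
        have h4 : y ∈ ({d, d} : Finset (Fin 6)) := by rw [h2]; simp
        simp only [Finset.mem_insert, Finset.mem_singleton, or_self] at h3 h4
        omega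
      · simp
      · rfl
    · rw [hs, main e d h, Finset.pair_comm]
  induction Y with
  | nil => simp [z1]
  | cons g Y ih =>
    rw [ev_cons, ih, key (κ g.1) (κ g.2), ← Finset.sum_add_distrib]
    apply Finset.sum_congr rfl
    intro x _
    rw [← Finset.sum_add_distrib]
    apply Finset.sum_congr rfl
    intro y _
    split_ifs with h1 h2
    · simp only [z1, ev_cons, lab1, h2, if_true]; ring
    · simp only [z1, ev_cons, lab1, h2, if_false]; ring
    · simp

/-- The finite check. -/
lemma finite_check : ∀ a b c : Fin 6, a ≠ b → a ≠ c → b ≠ c →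
    (∑ x, ∑ y, if x < y ∧ x ≠ a ∧ x ≠ b ∧ x ≠ c ∧ y ≠ a ∧ y ≠ b ∧ y ≠ c then W5 a b c x y else 0)
      = (if ({a, b, c} : Finset (Fin 6)) = {0, 2, 4} then 1 else 0)
        + (if ({a, b, c} : Finset (Fin 6)) = {1, 3, 5} then 1 else 0) := by
  decide +kernel

/-- (i) the cycle property in the first variable -/
lemma BX_eq {X : List (V × V × V)} (hX : Cyc2 X) (G : V × V → V × V → ZMod 2)
    (hG : ∀ f g, G (-f) g = G f g) :
    ev X (fun σ => ev (D2 σ.1 X) (fun g => d2 (fun f => G f g) σ)) = BX X G := by
  have h := hX (fun f => ev X (fun τ => om f.1 τ.1 τ.2.1 * G f τ.2)) (by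
    intro f
    apply ev_congr
    intro τ _
    rw [hG, Prod.fst_neg, om_neg_left])
  rw [← zmod2_add_eq_zero, BX, ← ev_add, ← h]
  apply ev_congr
  rintro ⟨σ0, σ1, σ2⟩ _
  rw [ev_D2, ← ev_add]
  simp only [d2]
  rw [← ev_add, ← ev_add]
  apply ev_congr
  intro τ _
  simp only [Om]
  generalize om σ0 τ.1 τ.2.1 = x
  generalize om σ1 τ.1 τ.2.1 = y
  generalize G (σ1, σ2) τ.2 = g0
  generalize G (σ0, σ2) τ.2 = g1
  generalize G (σ0, σ1) τ.2 = g2
  revert x y g0 g1 g2; decide

theorem T3form : S_T3form := by
  intro X κ hX hκ hs hT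
  rw [← BX_eq hX (u2 κ) (by
    intro f g
    simp only [u2, Prod.fst_neg, Prod.snd_neg, hκ])]
  unfold z
  rw [← ev_add]
  apply ev_congr
  intro σ hσ
  have hW : ∀ g : V × V, d2 (fun f => u2 κ f g) σ =
      W5 (κ σ.1) (κ σ.2.1) (κ σ.2.2) (κ g.1) (κ g.2) := fun g => rfl
  simp only [hW]
  by_cases hcard : (lab2 κ σ).card = 3
  · -- distinct labels
    have hne : κ σ.1 ≠ κ σ.2.1 ∧ κ σ.1 ≠ κ σ.2.2 ∧ κ σ.2.1 ≠ κ σ.2.2 := by
      unfold lab2 at hcard
      refine ⟨?_, ?_, ?_⟩
      · intro h
        rw [Finset.insert_eq_of_mem (by rw [h]; simp)] at hcard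
        have h2 := Finset.card_le_two (a := κ σ.2.1) (b := κ σ.2.2)
        omega
      · intro h
        rw [Finset.insert_eq_of_mem (by rw [h]; simp)] at hcard
        have h2 := Finset.card_le_two (a := κ σ.2.1) (b := κ σ.2.2)
        omega
      · intro h
        rw [h, Finset.pair_eq_singleton] at hcard
        have h2 := Finset.card_le_two (a := κ σ.1) (b := κ σ.2.2)
        omega
    obtain ⟨h12, h13, h23⟩ := hne
    have hlab : ∀ g ∈ D2 σ.1 X, κ g.1 ∉ lab2 κ σ ∧ κ g.2 ∉ lab2 κ σ := by
      intro g hg
      obtain ⟨τ, hτ, hom, rfl⟩ := mem_D2 hg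
      have := hs σ hσ τ hτ σ.1 (by simp [vs2]) τ.1 (by simp [vs2]) τ.2.1 (by simp [vs2]) hom
      constructor
      · intro hmem
        simp only [lab2, Finset.mem_insert, Finset.mem_singleton] at hmem
        rcases hmem with h | h | h
        · exact this σ.1 (by simp [vs2]) τ.2.1 (by simp [vs2]) h.symm
        · exact this σ.2.1 (by simp [vs2]) τ.2.1 (by simp [vs2]) h.symm
        · exact this σ.2.2 (by simp [vs2]) τ.2.1 (by simp [vs2]) h.symm
      · intro hmem
        simp only [lab2, Finset.mem_insert, Finset.mem_singleton] at hmem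
        rcases hmem with h | h | h
        · exact this σ.1 (by simp [vs2]) τ.2.2 (by simp [vs2]) h.symm
        · exact this σ.2.1 (by simp [vs2]) τ.2.2 (by simp [vs2]) h.symm
        · exact this σ.2.2 (by simp [vs2]) τ.2.2 (by simp [vs2]) h.symm
    rw [ev_group _ κ (fun x y => W5 (κ σ.1) (κ σ.2.1) (κ σ.2.2) x y) (W5_comm _ _ _)
      (W5_self _ _ _)]
    unfold lab2
    rw [← finite_check _ _ _ h12 h13 h23]
    apply Finset.sum_congr rfl
    intro x _
    apply Finset.sum_congr rfl
    intro y _
    by_cases hxy : x < y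
    · rw [if_pos hxy]
      by_cases hin : x ∉ lab2 κ σ ∧ y ∉ lab2 κ σ
      · have h1 : z1 (D2 σ.1 X) κ {x, y} = 1 := by
          apply hT σ hσ hcard
          · exact Finset.card_pair hxy.ne
          · rw [Finset.disjoint_left]
            intro w hw
            simp only [Finset.mem_insert, Finset.mem_singleton] at hw
            rcases hw with rfl | rfl
            · exact hin.1
            · exact hin.2
        simp only [lab2, Finset.mem_insert, Finset.mem_singleton, not_or] at hin
        rw [h1, mul_one, if_pos ⟨hxy, hin.1.1, hin.1.2.1, hin.1.2.2, hin.2.1, hin.2.2.1,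
          hin.2.2.2⟩]
      · have h0 : z1 (D2 σ.1 X) κ {x, y} = 0 := by
          unfold z1
          rw [ev_congr (h := fun _ => 0), ev_zero]
          intro g hg
          rw [if_neg]
          intro hl
          apply hin
          have h1 := hlab g hg
          have hx : x ∈ lab1 κ g := by rw [hl]; simp
          have hy : y ∈ lab1 κ g := by rw [hl]; simp
          simp only [lab1, Finset.mem_insert, Finset.mem_singleton] at hx hy
          constructor
          · rcases hx with h | h <;> rw [h]
            · exact h1.1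
            · exact h1.2
          · rcases hy with h | h <;> rw [h]
            · exact h1.1
            · exact h1.2
        rw [h0, mul_zero, if_neg]
        rintro ⟨-, a1, a2, a3, a4, a5, a6⟩
        apply hin
        simp only [lab2, Finset.mem_insert, Finset.mem_singleton, not_or]
        exact ⟨⟨a1, a2, a3⟩, a4, a5, a6⟩
    · rw [if_neg hxy, if_neg]
      rintro ⟨h, -⟩
      exact hxy h
  · -- not distinct
    have hne : κ σ.1 = κ σ.2.1 ∨ κ σ.1 = κ σ.2.2 ∨ κ σ.2.1 = κ σ.2.2 := by
      by_contra hcon
      push Not at hcon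
      exact hcard (Finset.card_eq_three.mpr ⟨_, _, _, hcon.1, hcon.2.1, hcon.2.2, rfl⟩)
    rw [if_neg, if_neg, add_zero, ev_congr (h := fun _ => 0), ev_zero]
    · intro g _
      unfold W5
      rcases hne with h | h | h
      · rw [h, U4_self_left, add_zero, zmod2_add_self]
      · rw [h, U4_self_left, U4_comm_left (κ σ.2.2) (κ σ.2.1), add_zero, zmod2_add_self]
      · rw [h, U4_self_left, zero_add, zmod2_add_self]
    · intro h
      apply hcard
      rw [h]; rfl
    · intro h
      apply hcard
      rw [h]; rfl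

end Crest.Agent.BK
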