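import Crest.Agent.BK.Spec

/-!
Row 50 (S0069), chunk T3IND: the number `B(u2)` does not depend on the labelling.
-/

set_option autoImplicit false

namespace Crest.Agent.BK

open scoped RealInnerProductSpace

namespace T3ind

lemma Om_eq (σ τ : V × V × V) :
    Om σ τ = p σ.1 τ.1 + p σ.1 τ.2.1 + (p σ.2.1 τ.1 + p σ.2.1 τ.2.1) := rfl

lemma Om_comm (σ τ : V × V × V) : Om σ τ = Om τ σ := by
  rw [Om_eq, Om_eq, p_comm τ.1 σ.1, p_comm τ.1 σ.2.1, p_comm τ.2.1 σ.1, p_comm τ.2.1 σ.2.1]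
  ring

lemma Om_self (σ : V × V × V) : Om σ σ = 0 := by
  rw [Om_eq, p_self, p_self, p_comm σ.2.1 σ.1]
  generalize p σ.1 σ.2.1 = x
  revert x; decide

lemma disj_of_Om {L : Type} {X : List (V × V × V)} {κ : V → L} (h : Sep2 X κ)
    {σ τ : V × V × V} (hσ : σ ∈ X) (hτ : τ ∈ X) (hO : Om σ τ = 1) :
    ∀ x ∈ vs2 σ, ∀ y ∈ vs2 τ, κ x ≠ κ y := by
  have h1 : om σ.1 τ.1 τ.2.1 = 1 ∨ om σ.2.1 τ.1 τ.2.1 = 1 := by
    unfold Om at hO
    revert hO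
    generalize om σ.1 τ.1 τ.2.1 = x
    generalize om σ.2.1 τ.1 τ.2.1 = y
    revert x y; decide
  rcases h1 with h1 | h1
  · exact h σ hσ τ hτ σ.1 (by simp [vs2]) τ.1 (by simp [vs2]) τ.2.1 (by simp [vs2]) h1
  · exact h σ hσ τ hτ σ.2.1 (by simp [vs2]) τ.1 (by simp [vs2]) τ.2.1 (by simp [vs2]) h1

lemma BX_add (X : List (V × V × V)) (G H : V × V → V × V → ZMod 2) :
    BX X (fun f g => G f g + H f g) = BX X G + BX X H := by
  unfold BX
  rw [← ev_add]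
  apply ev_congr
  intro σ _
  rw [← ev_add]
  apply ev_congr
  intro τ _
  ring

lemma BX_symm (X : List (V × V × V)) (G : V × V → V × V → ZMod 2)
    (h : ∀ σ ∈ X, ∀ τ ∈ X, Om σ τ = 1 → G σ.2 τ.2 = G τ.2 σ.2) : BX X G = 0 := by
  unfold BX
  apply ev_symm_zero X (fun σ τ => Om σ τ * G σ.2 τ.2)
  · intro σ hσ τ hτ
    show Om σ τ * G σ.2 τ.2 = Om τ σ * G τ.2 σ.2
    rw [Om_comm τ σ]
    rcases zmod2_cases (Om σ τ) with h0 | h1
    · rw [h0]; simp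
    · rw [h σ hσ τ hτ h1]
  · intro σ _
    show Om σ σ * _ = 0
    rw [Om_self]; simp

lemma BX_even {X : List (V × V × V)} (hX : Cyc2 X) (y : V × V → V → ZMod 2)
    (hy : ∀ f w, y f (-w) = y f w) : BX X (fun f g => y f g.1 + y f g.2) = 0 := by
  unfold BX
  rw [← ev_zero X]
  apply ev_congr
  intro σ _
  have h1 : ∀ b : V, ev X (fun τ => om b τ.1 τ.2.1 * (y σ.2 τ.2.1 + y σ.2 τ.2.2)) = 0 := by
    intro b
    have := hX.D2 b (y σ.2) (fun w => hy σ.2 w)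
    rw [ev_D2] at this
    rw [← this]
    apply ev_congr
    intro τ _
    simp only [d1]
    ring
  have h2 := h1 σ.1
  have h3 := h1 σ.2.1
  have h4 : ev X (fun τ => Om σ τ * (y σ.2 τ.2.1 + y σ.2 τ.2.2)) =
      ev X (fun τ => om σ.1 τ.1 τ.2.1 * (y σ.2 τ.2.1 + y σ.2 τ.2.2)) +
      ev X (fun τ => om σ.2.1 τ.1 τ.2.1 * (y σ.2 τ.2.1 + y σ.2 τ.2.2)) := by
    rw [← ev_add]
    apply ev_congr
    intro τ _
    unfold Om
    ring
  show ev X (fun τ => Om σ τ * (y σ.2 τ.2.1 + y σ.2 τ.2.2)) = 0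
  rw [h4, h2, h3]
  simp

/-- order indicator -/
def l6 (a b : Fin 6) : ZMod 2 := if a < b then 1 else 0

lemma l6_comm : ∀ a b : Fin 6, a ≠ b → l6 b a = 1 + l6 a b := by decide

/-- `u2` on labels. -/
def w2 (a b c d : Fin 6) : ZMod 2 :=
  if min a b < min c d ∧ min c d < max a b ∧ max a b < max c d then 1 else 0

set_option maxRecDepth 100000 in
lemma w2_symm : ∀ a b c d : Fin 6, a ≠ c → a ≠ d → b ≠ c → b ≠ d →
    w2 a b c d + w2 c d a b = l6 a c + l6 a d + (l6 b c + l6 b d) := by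
  decide

lemma u2_eq (κ : V → Fin 6) (f g : V × V) :
    u2 κ f g = w2 (κ f.1) (κ f.2) (κ g.1) (κ g.2) := rfl

end T3ind

open T3ind in
/-- Chunk T3IND. -/
theorem T3ind : S_T3ind := by
  intro X κ κ' hX he he' hs hs'
  set x0 : V → V → ZMod 2 := fun v w => l6 (κ v) (κ w) * (1 + l6 (κ' v) (κ' w)) with hx0
  set y : V × V → V → ZMod 2 := fun f w => x0 w f.1 + x0 w f.2 with hy
  have hye : ∀ f w, y f (-w) = y f w := by
    intro f w
    rw [hy, hx0]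
    simp only [he, he']
  have h1 := BX_even hX y hye
  have h2 : BX X (fun f g => (u2 κ f g + u2 κ' f g) + (y f g.1 + y f g.2)) = 0 := by
    apply BX_symm
    intro σ hσ τ hτ hO
    have d := disj_of_Om hs hσ hτ hO
    have d' := disj_of_Om hs' hσ hτ hO
    have a1 : κ σ.2.1 ≠ κ τ.2.1 := d _ (by simp [vs2]) _ (by simp [vs2])
    have a2 : κ σ.2.1 ≠ κ τ.2.2 := d _ (by simp [vs2]) _ (by simp [vs2])
    have a3 : κ σ.2.2 ≠ κ τ.2.1 := d _ (by simp [vs2]) _ (by simp [vs2])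
    have a4 : κ σ.2.2 ≠ κ τ.2.2 := d _ (by simp [vs2]) _ (by simp [vs2])
    have b1 : κ' σ.2.1 ≠ κ' τ.2.1 := d' _ (by simp [vs2]) _ (by simp [vs2])
    have b2 : κ' σ.2.1 ≠ κ' τ.2.2 := d' _ (by simp [vs2]) _ (by simp [vs2])
    have b3 : κ' σ.2.2 ≠ κ' τ.2.1 := d' _ (by simp [vs2]) _ (by simp [vs2])
    have b4 : κ' σ.2.2 ≠ κ' τ.2.2 := d' _ (by simp [vs2]) _ (by simp [vs2])
    have e1 := w2_symm _ _ _ _ a1 a2 a3 a4
    have e2 := w2_symm _ _ _ _ b1 b2 b3 b4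
    rw [← zmod2_add_eq_zero]
    simp only [u2_eq, hy, hx0]
    rw [l6_comm _ _ a1, l6_comm _ _ a2, l6_comm _ _ a3, l6_comm _ _ a4,
      l6_comm _ _ b1, l6_comm _ _ b2, l6_comm _ _ b3, l6_comm _ _ b4]
    revert e1 e2
    generalize w2 (κ σ.2.1) (κ σ.2.2) (κ τ.2.1) (κ τ.2.2) = p1
    generalize w2 (κ τ.2.1) (κ τ.2.2) (κ σ.2.1) (κ σ.2.2) = p2
    generalize w2 (κ' σ.2.1) (κ' σ.2.2) (κ' τ.2.1) (κ' τ.2.2) = q1
    generalize w2 (κ' τ.2.1) (κ' τ.2.2) (κ' σ.2.1) (κ' σ.2.2) = q2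
    generalize l6 (κ σ.2.1) (κ τ.2.1) = r1
    generalize l6 (κ σ.2.1) (κ τ.2.2) = r2
    generalize l6 (κ σ.2.2) (κ τ.2.1) = r3
    generalize l6 (κ σ.2.2) (κ τ.2.2) = r4
    generalize l6 (κ' σ.2.1) (κ' τ.2.1) = s1
    generalize l6 (κ' σ.2.1) (κ' τ.2.2) = s2
    generalize l6 (κ' σ.2.2) (κ' τ.2.1) = s3
    generalize l6 (κ' σ.2.2) (κ' τ.2.2) = s4
    intro e1 e2
    have t : (2 : ZMod 2) = 0 := by decide
    have key : p1 + q1 + ((1 + r1) * (1 + (1 + s1)) + (1 + r3) * (1 + (1 + s3)) +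
        ((1 + r2) * (1 + (1 + s2)) + (1 + r4) * (1 + (1 + s4)))) +
        (p2 + q2 + (r1 * (1 + s1) + r2 * (1 + s2) + (r3 * (1 + s3) + r4 * (1 + s4)))) =
        (p1 + p2) + (q1 + q2) + (r1 + r2 + (r3 + r4)) + (s1 + s2 + (s3 + s4)) +
        2 * ((1 + r1) + (1 + r2) + (1 + r3) + (1 + r4) + r1 * s1 + r2 * s2 + r3 * s3 + r4 * s4) := by
      ring
    have fin : p1 + q1 + ((1 + r1) * (1 + (1 + s1)) + (1 + r3) * (1 + (1 + s3)) +
        ((1 + r2) * (1 + (1 + s2)) + (1 + r4) * (1 + (1 + s4)))) +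
        (p2 + q2 + (r1 * (1 + s1) + r2 * (1 + s2) + (r3 * (1 + s3) + r4 * (1 + s4)))) = 0 := by
      rw [key, e1, e2, t, zero_mul, add_zero]
      have z1 := zmod2_add_self (r1 + r2 + (r3 + r4))
      have z2 := zmod2_add_self (s1 + s2 + (s3 + s4))
      linear_combination z1 + z2
    linear_combination fin
  rw [BX_add X (fun f g => u2 κ f g + u2 κ' f g) (fun f g => y f g.1 + y f g.2), h1, add_zero,
    BX_add X (u2 κ) (u2 κ')] at h2
  exact zmod2_add_eq_zero.1 h2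

end Crest.Agent.BK
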