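import Crest.Agent.BK.Spec

/-!
Row 50 (S0069).  Chunk T3REF: the reference labelling of a 2-cycle near a hyperplane.
-/

set_option autoImplicit false

namespace Crest.Agent.BK

open scoped RealInnerProductSpace

namespace T3refAux

lemma inner4 (v w : E4) : ⟪v, w⟫ = v 0 * w 0 + v 1 * w 1 + v 2 * w 2 + v 3 * w 3 := by
  simp [PiLp.inner_apply, Fin.sum_univ_four]
  ring

/-- The frame of `b^⊥`. -/
def Lx (b v : E4) : ℝ := -b 1 * v 0 + b 0 * v 1 - b 3 * v 2 + b 2 * v 3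
def Ly (b v : E4) : ℝ := -b 2 * v 0 + b 3 * v 1 + b 0 * v 2 - b 1 * v 3
def Lz (b v : E4) : ℝ := -b 3 * v 0 - b 2 * v 1 + b 1 * v 2 + b 0 * v 3

lemma LL (b v w : E4) :
    Lx b v * Lx b w + Ly b v * Ly b w + Lz b v * Lz b w = ⟪b, b⟫ * ⟪v, w⟫ - ⟪b, v⟫ * ⟪b, w⟫ := by
  simp only [inner4, Lx, Ly, Lz]
  ring

def E (b : E4) (m : Fin 6) (v : E4) : ℝ := el m (Lx b v) (Ly b v) (Lz b v)

lemma E_neg (b : E4) (m : Fin 6) (v : E4) : E b m (-v) = - E b m v := by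
  fin_cases m <;> simp [E, el, Lx, Ly, Lz] <;> ring

lemma E_sub (b : E4) (m : Fin 6) (v w : E4) : E b m (v - w) = E b m v - E b m w := by
  fin_cases m <;> simp [E, el, Lx, Ly, Lz] <;> ring

lemma E_sq_sum (b v : E4) :
    ∑ m, E b m v ^ 2 = 10 * (⟪b, b⟫ * ⟪v, v⟫ - ⟪b, v⟫ ^ 2) := by
  have := LL b v v
  rw [Fin.sum_univ_six]
  simp only [E, el]
  rw [sq ⟪b, v⟫, ← this]
  ring

lemma E_sq_le (b v : E4) (m : Fin 6) : E b m v ^ 2 ≤ 5 * (‖b‖ ^ 2 * ‖v‖ ^ 2) := by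
  have h := LL b v v
  rw [real_inner_self_eq_norm_sq, real_inner_self_eq_norm_sq] at h
  have h2 : Lx b v ^ 2 + Ly b v ^ 2 + Lz b v ^ 2 ≤ ‖b‖ ^ 2 * ‖v‖ ^ 2 := by
    nlinarith [sq_nonneg ⟪b, v⟫]
  have h3 : E b m v ^ 2 ≤ 5 * (Lx b v ^ 2 + Ly b v ^ 2 + Lz b v ^ 2) := by
    simp only [E]
    generalize Lx b v = x
    generalize Ly b v = y
    generalize Lz b v = z
    fin_cases m <;> simp only [el]
    · nlinarith [sq_nonneg (y - 2 * z), sq_nonneg x]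
    · nlinarith [sq_nonneg (y + 2 * z), sq_nonneg x]
    · nlinarith [sq_nonneg (x - 2 * y), sq_nonneg z]
    · nlinarith [sq_nonneg (x + 2 * y), sq_nonneg z]
    · nlinarith [sq_nonneg (z - 2 * x), sq_nonneg y]
    · nlinarith [sq_nonneg (z + 2 * x), sq_nonneg y]
  linarith

/-- The label. -/
noncomputable def κ (b : V) (v : V) : Fin 6 :=
  Classical.choose (Finite.exists_max (fun i => |E b.1 i v.1|))

lemma κ_spec (b v : V) (m : Fin 6) : |E b.1 m v.1| ≤ |E b.1 (κ b v) v.1| :=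
  Classical.choose_spec (Finite.exists_max (fun i => |E b.1 i v.1|)) m

lemma κ_neg (b v : V) : κ b (-v) = κ b v := by
  unfold κ
  congr 1
  ext i
  simp only [neg_val, E_neg, abs_neg]

/-- The sign. -/
noncomputable def s (b : V) (v : V) : ZMod 2 :=
  if 0 < E b.1 (κ b v) v.1 then 1 else if E b.1 (κ b v) v.1 < 0 then 0 else rb v

lemma s_neg (b v : V) : s b (-v) = s b v + 1 := by
  unfold s
  rw [κ_neg, neg_val, E_neg]
  rcases lt_trichotomy (E b.1 (κ b v) v.1) 0 with h | h | h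
  · have h1 : ¬ (0 < E b.1 (κ b v) v.1) := by linarith
    simp [h, h1]
  · simp [h, rb_neg]
  · have h1 : ¬ (E b.1 (κ b v) v.1 < 0) := by linarith
    simp [h, h1]; decide

/-- Real sign of a sign bit. -/
noncomputable def sg (t : ZMod 2) : ℝ := if t = 1 then 1 else -1

lemma sg_cases (t : ZMod 2) : sg t = 1 ∨ sg t = -1 := by
  unfold sg; split_ifs <;> simp

lemma sg_eq_neg (t u : ZMod 2) : sg t = - sg u ↔ t ≠ u := by
  unfold sg
  rcases zmod2_cases t with rfl | rfl <;> rcases zmod2_cases u with rfl | rfl <;> norm_num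

lemma s_mul (b v : V) (h : E b.1 (κ b v) v.1 ≠ 0) :
    sg (s b v) * E b.1 (κ b v) v.1 = |E b.1 (κ b v) v.1| := by
  unfold s
  rcases lt_or_gt_of_ne h with h1 | h1
  · rw [if_neg (by linarith), if_pos h1, abs_of_neg h1]; simp [sg]
  · rw [if_pos h1, abs_of_pos h1]; simp [sg]

/-- The combinatorial conclusion for three signed labels. -/
def G (x y z : Fin 6 × ZMod 2) : Prop :=
  (Alt2 x y z ↔ ({x.1, y.1, z.1} : Finset (Fin 6)) = {0, 2, 4}) ∧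
      ({x.1, y.1, z.1} : Finset (Fin 6)) ≠ {1, 3, 5}

lemma Alt2_12 (x y z : Fin 6 × ZMod 2) (h : Alt2 x y z) : Alt2 y x z := by
  obtain ⟨h1, h2, h3, h4, h5⟩ := h
  exact ⟨h1.symm, h3, h2, h4.symm, by rw [← h4, h5]; ring⟩

lemma Alt2_23 (x y z : Fin 6 × ZMod 2) (h : Alt2 x y z) : Alt2 x z y := by
  obtain ⟨h1, h2, h3, h4, h5⟩ := h
  exact ⟨h2, h1, h3.symm, by linear_combination h5, by linear_combination h4⟩

lemma G_12 (x y z : Fin 6 × ZMod 2) (h : G x y z) : G y x z := by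
  unfold G at *
  rw [Finset.insert_comm y.1 x.1]
  exact ⟨⟨fun g => h.1.1 (Alt2_12 _ _ _ g), fun g => Alt2_12 _ _ _ (h.1.2 g)⟩, h.2⟩

lemma G_23 (x y z : Fin 6 × ZMod 2) (h : G x y z) : G x z y := by
  unfold G at *
  rw [Finset.pair_comm z.1 y.1]
  exact ⟨⟨fun g => h.1.1 (Alt2_23 _ _ _ g), fun g => Alt2_23 _ _ _ (h.1.2 g)⟩, h.2⟩

lemma G_same (x y z : Fin 6 × ZMod 2) (h : x.1 = y.1) : G x y z := by
  have N1 : ∀ i j : Fin 6, ({i, i, j} : Finset (Fin 6)) ≠ {0, 2, 4} ∧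
      ({i, i, j} : Finset (Fin 6)) ≠ {1, 3, 5} := by decide
  unfold G
  rw [← h]
  exact ⟨iff_of_false (fun g => g.1 h) (N1 _ _).1, (N1 _ _).2⟩

lemma G_sorted : ∀ (i j k : Fin 6) (s t u : ZMod 2), i < j → j < k →
      (((i = 0 ∧ j = 2 ∧ k = 4) ↔ (s ≠ t ∧ t ≠ u)) ∧ ¬ (i = 1 ∧ j = 3 ∧ k = 5)) →
      ((Alt2 (i, s) (j, t) (k, u) ↔ ({i, j, k} : Finset (Fin 6)) = {0, 2, 4}) ∧
      ({i, j, k} : Finset (Fin 6)) ≠ {1, 3, 5}) := by
  decide +kernel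

lemma comb (Q : Fin 6 × ZMod 2 → Prop)
    (hQ : ∀ x y z : Fin 6 × ZMod 2, x.1 < y.1 → y.1 < z.1 → Q x → Q y → Q z →
      ((x.1 = 0 ∧ y.1 = 2 ∧ z.1 = 4) ↔ (x.2 ≠ y.2 ∧ y.2 ≠ z.2)) ∧
        ¬ (x.1 = 1 ∧ y.1 = 3 ∧ z.1 = 5))
    (x y z : Fin 6 × ZMod 2) (hx : Q x) (hy : Q y) (hz : Q z) : G x y z := by
  have H : ∀ x y z : Fin 6 × ZMod 2, x.1 < y.1 → y.1 < z.1 → Q x → Q y → Q z → G x y z :=
    fun x y z h1 h2 hx hy hz => G_sorted x.1 y.1 z.1 x.2 y.2 z.2 h1 h2 (hQ x y z h1 h2 hx hy hz)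
  rcases lt_trichotomy x.1 y.1 with h1 | h1 | h1
  · rcases lt_trichotomy y.1 z.1 with h2 | h2 | h2
    · exact H x y z h1 h2 hx hy hz
    · exact G_12 _ _ _ (G_23 _ _ _ (G_same _ _ _ h2))
    · rcases lt_trichotomy x.1 z.1 with h3 | h3 | h3
      · exact G_23 _ _ _ (H x z y h3 h2 hx hz hy)
      · exact G_23 _ _ _ (G_same _ _ _ h3)
      · exact G_23 _ _ _ (G_12 _ _ _ (H z x y h3 h1 hz hx hy))
  · exact G_same _ _ _ h1
  · rcases lt_trichotomy x.1 z.1 with h2 | h2 | h2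
    · exact G_12 _ _ _ (H y x z h1 h2 hy hx hz)
    · exact G_23 _ _ _ (G_same _ _ _ h2)
    · rcases lt_trichotomy y.1 z.1 with h3 | h3 | h3
      · exact G_12 _ _ _ (G_23 _ _ _ (H y z x h3 h2 hy hz hx))
      · exact G_12 _ _ _ (G_23 _ _ _ (G_same _ _ _ h3))
      · exact G_12 _ _ _ (G_23 _ _ _ (G_12 _ _ _ (H z y x h3 h1 hz hy hx)))

lemma le_of_sq {a c : ℝ} (hc : 0 ≤ c) (h : a ^ 2 ≤ c ^ 2) : |a| ≤ c := abs_le_of_sq_le_sq h hc

/-- Lower bound of the maximal value. -/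
lemma E_big {δ : ℝ} {b v : V} (hδ : 0 < δ) (hδ' : δ ≤ 1 / 10000)
    (hb : 1 / 2 ≤ ‖b.1‖) (hv : 1 / 2 ≤ ‖v.1‖) (h : |⟪b.1, v.1⟫| ≤ 2 * δ) :
    1 / 20 ≤ Lx b.1 v.1 ^ 2 + Ly b.1 v.1 ^ 2 + Lz b.1 v.1 ^ 2 ∧
    1 / 4 ≤ |E b.1 (κ b v) v.1| := by
  have h0 : ⟪b.1, v.1⟫ ^ 2 ≤ 1 / 1000 := by
    rw [← sq_abs]
    nlinarith [abs_nonneg ⟪b.1, v.1⟫]
  have h1 : 1 / 16 ≤ ‖b.1‖ ^ 2 * ‖v.1‖ ^ 2 := by
    have h2 : 1 / 4 ≤ ‖b.1‖ ^ 2 := by nlinarith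
    have h3 : 1 / 4 ≤ ‖v.1‖ ^ 2 := by nlinarith
    nlinarith
  have h2 := LL b.1 v.1 v.1
  rw [real_inner_self_eq_norm_sq, real_inner_self_eq_norm_sq] at h2
  have h3 : 1 / 20 ≤ Lx b.1 v.1 ^ 2 + Ly b.1 v.1 ^ 2 + Lz b.1 v.1 ^ 2 := by
    nlinarith
  refine ⟨h3, ?_⟩
  have h4 := E_sq_sum b.1 v.1
  rw [real_inner_self_eq_norm_sq, real_inner_self_eq_norm_sq] at h4
  have h5 : ∑ m, E b.1 m v.1 ^ 2 ≤ ∑ m : Fin 6, |E b.1 (κ b v) v.1| ^ 2 := by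
    apply Finset.sum_le_sum
    intro m _
    rw [← sq_abs (E b.1 m v.1)]
    have := κ_spec b v m
    have h0 := abs_nonneg (E b.1 m v.1)
    nlinarith
  rw [h4, Finset.sum_const, Finset.card_univ, Fintype.card_fin, nsmul_eq_mul] at h5
  by_contra hc
  push Not at hc
  have h0 := abs_nonneg (E b.1 (κ b v) v.1)
  push_cast at h5
  nlinarith

lemma E_near {δ : ℝ} {b v w : V} (hδ : 0 < δ) (hb : ‖b.1‖ ≤ 1) (h : ‖v.1 - w.1‖ ≤ δ) (m : Fin 6) :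
    |E b.1 m v.1 - E b.1 m w.1| ≤ 3 * δ := by
  rw [← E_sub]
  apply le_of_sq (by linarith)
  have h1 := E_sq_le b.1 (v.1 - w.1) m
  have h2 : ‖b.1‖ ^ 2 ≤ 1 := by nlinarith [norm_nonneg b.1]
  have h3 : ‖v.1 - w.1‖ ^ 2 ≤ δ ^ 2 := by nlinarith [norm_nonneg (v.1 - w.1)]
  have h4 : ‖b.1‖ ^ 2 * ‖v.1 - w.1‖ ^ 2 ≤ 1 * δ ^ 2 :=
    mul_le_mul h2 h3 (by positivity) (by norm_num)
  nlinarith [sq_nonneg δ]

lemma el_smul (m : Fin 6) (t x y z : ℝ) : el m (t * x) (t * y) (t * z) = t * el m x y z := by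
  fin_cases m <;> simp only [el] <;> ring

lemma sep_aux (h2 : S_R3cell) {b x y : V} (hxy : κ b x = κ b y)
    (hx : sg (s b x) * E b.1 (κ b x) x.1 = |E b.1 (κ b x) x.1|)
    (hy : sg (s b y) * E b.1 (κ b y) y.1 = |E b.1 (κ b y) y.1|) :
    |E b.1 (κ b x) x.1| * |E b.1 (κ b y) y.1| / 12 ≤
      |Lx b.1 x.1 * Lx b.1 y.1 + Ly b.1 x.1 * Ly b.1 y.1 + Lz b.1 x.1 * Lz b.1 y.1| := by
  have habs : ∀ t : ZMod 2, |sg t| = 1 := by
    intro t; rcases sg_cases t with h | h <;> rw [h] <;> simp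
  have H := h2 (κ b x) (sg (s b x) * Lx b.1 x.1) (sg (s b x) * Ly b.1 x.1)
    (sg (s b x) * Lz b.1 x.1) (sg (s b y) * Lx b.1 y.1) (sg (s b y) * Ly b.1 y.1)
    (sg (s b y) * Lz b.1 y.1) (by
      intro m
      rw [el_smul, el_smul, abs_mul, habs, one_mul]
      exact (κ_spec b x m).trans hx.symm.le) (by
      intro m
      rw [el_smul, el_smul, abs_mul, habs, one_mul, hxy]
      exact (κ_spec b y m).trans hy.symm.le)
  rw [el_smul, el_smul] at H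
  change sg (s b x) * E b.1 (κ b x) x.1 * (sg (s b y) * E b.1 (κ b x) y.1) / 12 ≤ _ at H
  rw [hx, hxy, hy] at H
  rw [hxy]
  refine H.trans ?_
  have e : sg (s b x) * Lx b.1 x.1 * (sg (s b y) * Lx b.1 y.1) +
        sg (s b x) * Ly b.1 x.1 * (sg (s b y) * Ly b.1 y.1) +
      sg (s b x) * Lz b.1 x.1 * (sg (s b y) * Lz b.1 y.1) =
      (sg (s b x) * sg (s b y)) * (Lx b.1 x.1 * Lx b.1 y.1 + Ly b.1 x.1 * Ly b.1 y.1 +
        Lz b.1 x.1 * Lz b.1 y.1) := by ring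
  rw [e]
  refine (le_abs_self _).trans ?_
  rw [abs_mul, abs_mul, habs, habs, one_mul, one_mul]

end T3refAux

open T3refAux

theorem T3ref (h1 : S_fan2) (h2 : S_R3cell) (h3 : S_R3excl) : S_T3ref := by
  intro δ b X hδ hδ' hcyc hJ hN
  obtain ⟨⟨hb1, hb2⟩, hN⟩ := hN
  -- vertices
  have hbig : ∀ r ∈ X, ∀ v ∈ vs2 r,
      1 / 20 ≤ Lx b.1 v.1 ^ 2 + Ly b.1 v.1 ^ 2 + Lz b.1 v.1 ^ 2 ∧
      1 / 4 ≤ |E b.1 (κ b v) v.1| := fun r hr v hv =>
    E_big hδ hδ' hb1 ((hN r hr).1.1 v hv).1 ((hN r hr).2 v hv)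
  have hne : ∀ r ∈ X, ∀ v ∈ vs2 r, E b.1 (κ b v) v.1 ≠ 0 := by
    intro r hr v hv h
    have := (hbig r hr v hv).2
    rw [h, abs_zero] at this
    linarith
  have hsp : ∀ r ∈ X, ∀ v ∈ vs2 r, sg (s b v) * E b.1 (κ b v) v.1 = |E b.1 (κ b v) v.1| :=
    fun r hr v hv => s_mul b v (hne r hr v hv)
  refine ⟨κ b, κ_neg b, ?_, ?_⟩
  · -- Sep2
    intro σ hσ τ hτ a ha c hc c' hc' hom x hx y hy hxy
    have e1 := om_near hom
    have ha1 := (hN σ hσ).1.1 a ha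
    have hx1 := (hN σ hσ).1.1 x hx
    have hc1 := (hN τ hτ).1.1 c hc
    have e2 : |⟪a.1, c.1⟫| ≤ δ := by
      refine e1.trans ?_
      have := (hN τ hτ).1.2 c hc c' hc'
      have h0 := norm_nonneg (c.1 - c'.1)
      nlinarith [ha1.2]
    have e3 : |⟪x.1 - a.1, c.1⟫| ≤ δ := by
      refine (abs_real_inner_le_norm _ _).trans ?_
      have := (hN σ hσ).1.2 x hx a ha
      have h0 := norm_nonneg (x.1 - a.1)
      nlinarith [hc1.2]
    have e4 : |⟪x.1, y.1 - c.1⟫| ≤ δ := by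
      refine (abs_real_inner_le_norm _ _).trans ?_
      have := (hN τ hτ).1.2 y hy c hc
      have h0 := norm_nonneg (y.1 - c.1)
      nlinarith [hx1.2]
    have e5 : |⟪x.1, y.1⟫| ≤ 3 * δ := by
      have : ⟪x.1, y.1⟫ = ⟪a.1, c.1⟫ + ⟪x.1 - a.1, c.1⟫ + ⟪x.1, y.1 - c.1⟫ := by
        rw [inner_sub_left, inner_sub_right]; ring
      rw [this]
      rw [abs_le] at e2 e3 e4 ⊢
      constructor <;> linarith [e2.1, e2.2, e3.1, e3.2, e4.1, e4.2]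
    have e6 := sep_aux h2 hxy (hsp σ hσ x hx) (hsp τ hτ y hy)
    rw [LL, real_inner_self_eq_norm_sq] at e6
    have e7 := (hN σ hσ).2 x hx
    have e8 := (hN τ hτ).2 y hy
    have e9 : |‖b.1‖ ^ 2 * ⟪x.1, y.1⟫ - ⟪b.1, x.1⟫ * ⟪b.1, y.1⟫| ≤ 3 * δ + 2 * δ * (2 * δ) := by
      refine (abs_sub _ _).trans ?_
      rw [abs_mul, abs_mul]
      have g1 : |‖b.1‖ ^ 2| ≤ 1 := by
        rw [abs_of_nonneg (by positivity)]
        nlinarith [norm_nonneg b.1]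
      have g2 : |‖b.1‖ ^ 2| * |⟪x.1, y.1⟫| ≤ 1 * (3 * δ) :=
        mul_le_mul g1 e5 (abs_nonneg _) (by norm_num)
      have g3 : |⟪b.1, x.1⟫| * |⟪b.1, y.1⟫| ≤ (2 * δ) * (2 * δ) :=
        mul_le_mul e7 e8 (abs_nonneg _) (by linarith)
      linarith
    have f1 := (hbig σ hσ x hx).2
    have f2 := (hbig τ hτ y hy).2
    have f3 : (1 / 4 : ℝ) * (1 / 4) ≤ |E b.1 (κ b x) x.1| * |E b.1 (κ b y) y.1| :=
      mul_le_mul f1 f2 (by norm_num) (abs_nonneg _)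
    nlinarith
  · have hF := h1 X (κ b) (s b) hcyc hJ (κ_neg b) (s_neg b) (by
      intro r hr u hu v hv huv
      have e1 := hsp r hr u hu
      have e2 := hsp r hr v hv
      have e3 := (hbig r hr u hu).2
      have e4 := (hbig r hr v hv).2
      rw [huv] at e1 e3
      have e5 := E_near (b := b) hδ hb2 ((hN r hr).1.2 u hu v hv) (κ b v)
      rw [abs_le] at e5
      by_contra hc
      have e6 := (sg_eq_neg _ _).mpr hc
      rw [e6] at e1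
      rcases sg_cases (s b v) with e7 | e7 <;> rw [e7] at e1 e2 <;> linarith [e5.1, e5.2])
    have hQ : ∀ r ∈ X, ∀ v ∈ vs2 r, ∀ m,
        |E b.1 m r.1.1| ≤ sg (s b v) * E b.1 (κ b v) r.1.1 + 1 / 500 := by
      intro r hr v hv m
      have d1 := (hN r hr).1.2 r.1 (by simp [vs2]) v hv
      have d2 := E_near (b := b) hδ hb2 d1 m
      have d3 := E_near (b := b) hδ hb2 d1 (κ b v)
      have d4 := κ_spec b v m
      have d5 := hsp r hr v hv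
      have d6 : |E b.1 m r.1.1| ≤ |E b.1 m v.1| + 3 * δ := by
        have := abs_sub_abs_le_abs_sub (E b.1 m r.1.1) (E b.1 m v.1)
        linarith
      rw [abs_le] at d3
      rcases sg_cases (s b v) with g | g <;> rw [g] at d5 ⊢ <;> linarith [d3.1, d3.2]
    have key : ∀ r ∈ X, G (κ b r.1, s b r.1) (κ b r.2.1, s b r.2.1) (κ b r.2.2, s b r.2.2) := by
      intro r hr
      apply comb (fun a => ∀ m, |E b.1 m r.1.1| ≤ sg a.2 * E b.1 a.1 r.1.1 + 1 / 500)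
      · intro x y z hxy hyz hx hy hz
        have := h3 x.1 y.1 z.1 (sg x.2) (sg y.2) (sg z.2) (Lx b.1 r.1.1) (Ly b.1 r.1.1)
          (Lz b.1 r.1.1) hxy hyz (sg_cases _) (sg_cases _) (sg_cases _) hx hy hz
          (hbig r hr r.1 (by simp [vs2])).1
        rwa [sg_eq_neg, sg_eq_neg] at this
      all_goals
        refine hQ r hr _ ?_
        simp [vs2]
    unfold z
    have z0 : ev X (fun r => if lab2 (κ b) r = {1, 3, 5} then 1 else 0) = 0 := by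
      refine Eq.trans (ev_congr (h := fun _ => 0) ?_) (ev_zero X)
      intro r hr
      rw [if_neg]
      exact (key r hr).2
    rw [z0, add_zero]
    refine Eq.trans (ev_congr ?_) hF
    intro r hr
    have := (key r hr).1
    by_cases h : Alt2 (κ b r.1, s b r.1) (κ b r.2.1, s b r.2.1) (κ b r.2.2, s b r.2.2)
    · rw [if_pos h, if_pos]
      exact this.1 h
    · rw [if_neg h, if_neg]
      exact fun g => h (this.2 g)

end Crest.Agent.BK
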